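import Vale.Agent.P339.Defs2

/-! The left prover cannot point at a released leaf. -/

namespace Vale.Agent.P339

open Finset Matrix Vale.Agent.P325 Function
open scoped BigOperators

set_option linter.unusedSectionVars false

lemma badco_resample {k : ℕ} {E : Type} [Fintype E] [Nonempty E] (i : Fin k)
    (F : (Fin k → E) → ℝ) : 𝔼 e, F e = 𝔼 e, 𝔼 b, F (update e i b) := by
  have h : Involutive fun p : (Fin k → E) × E => (update p.1 i p.2, p.1 i) := fun p => by simp
  have := ex_equiv h.toPerm fun p => F p.1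
  simp only [ex_prod, Fintype.expect_const] at this
  exact this.symm

lemma badco_one {P : ℕ} (hP : 0 < P) {Y V : Type} [Fintype Y] [Nonempty Y]
    (m : Fin (P + 1) × Y → V) {B : ℝ} (hB0 : 0 ≤ B) (p : V → Prop)
    (hB : ∀ c ≠ 0, 𝔼 y, ind (p (m (0, y))) ≤ B * 𝔼 y, ind (p (m (c, y)))) :
    𝔼 z : Fin (P + 1) × Y, ind (p (m z) ∧ z.1 = 0) ≤ B / P * 𝔼 z, ind (p (m z)) := by
  have hP' : (0 : ℝ) < P := by exact_mod_cast hP
  have h0 : ∀ c, 0 ≤ 𝔼 y, ind (p (m (c, y))) := fun c => ex_nonneg fun _ => ind_nonneg _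
  have h1 : ∀ i : Fin P, 𝔼 y, ind (p (m (i.succ, y)) ∧ i.succ = 0) = 0 := fun i => by
    simp only [Fin.succ_ne_zero, and_false, ind_neg not_false, Fintype.expect_const]
  have h2 : (P : ℝ) * 𝔼 y, ind (p (m (0, y))) ≤ B * ∑ i : Fin P, 𝔼 y, ind (p (m (i.succ, y))) := by
    have := sum_le_sum (s := univ) fun (i : Fin P) _ => hB i.succ (Fin.succ_ne_zero i)
    rwa [sum_const, card_univ, Fintype.card_fin, nsmul_eq_mul, ← mul_sum] at this
  rw [ex_prod, ex_prod, ex_eq, ex_eq fun c => 𝔼 y, ind (p (m (c, y))), Fin.sum_univ_succ,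
    Fin.sum_univ_succ, ← mul_div_assoc]
  simp only [h1, and_true, sum_const_zero, add_zero]
  refine div_le_div_of_nonneg_right ?_ (by positivity)
  rw [div_mul_eq_mul_div, le_div_iff₀ hP']
  nlinarith [mul_nonneg hB0 (h0 0)]

/-- Sum over the value `c` of `cs`; resample the coordinate `c` (`𝔼 x, f x = 𝔼 x, 𝔼 y,
f (update x c y)`, see `P339N.resample`); for any `p : V → Prop`,
`𝔼 y, ind (p (m y) ∧ y.1 = 0) ≤ B / P * 𝔼 y, ind (p (m y))`, because the left side is
`(P + 1)⁻¹ * Pr (p (m (0, ·)))` and the right expectation is at least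
`(P + 1)⁻¹ * ∑ c ≠ 0, Pr (p (m (c, ·)))`. -/
theorem bad_co {k P : ℕ} (hP : 0 < P) {Y V : Type} [Fintype Y] [Nonempty Y]
    (m : Fin (P + 1) × Y → V) {B : ℝ}
    (hB : ∀ c ≠ 0, ∀ p : V → Prop, 𝔼 y, ind (p (m (0, y))) ≤ B * 𝔼 y, ind (p (m (c, y))))
    (cs : (Fin k → V) → Fin k) :
    𝔼 x : Fin k → Fin (P + 1) × Y, ind ((x (cs (m ∘ x))).1 = 0) ≤ B / P := by
  have hB0 : 0 ≤ B := by
    have := hB (Fin.succ ⟨0, hP⟩) (Fin.succ_ne_zero _) fun _ => True
    simp only [ind_pos trivial, Fintype.expect_const, mul_one] at this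
    linarith
  have hBP : 0 ≤ B / P := by positivity
  have e1 : ∀ x : Fin k → Fin (P + 1) × Y, ind ((x (cs (m ∘ x))).1 = 0) =
      ∑ c, ind (cs (m ∘ x) = c ∧ (x c).1 = 0) := fun x => by
    rw [sum_eq_single (cs (m ∘ x)) (fun c _ hc => ind_neg fun h => hc h.1.symm) (by simp)]
    simp only [true_and]
  have e2 : ∀ x : Fin k → Fin (P + 1) × Y, ∑ c, ind (cs (m ∘ x) = c) = 1 := fun x => by
    rw [sum_eq_single (cs (m ∘ x)) (fun c _ hc => ind_neg fun h => hc h.symm) (by simp)]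
    exact ind_pos rfl
  have h : ∀ c, 𝔼 x : Fin k → Fin (P + 1) × Y, ind (cs (m ∘ x) = c ∧ (x c).1 = 0) ≤
      B / P * 𝔼 x : Fin k → Fin (P + 1) × Y, ind (cs (m ∘ x) = c) := by
    intro c
    rw [badco_resample c, badco_resample c fun x => ind (cs (m ∘ x) = c), ← ex_mul]
    refine ex_mono fun x => ?_
    simp only [comp_update, update_self]
    exact badco_one hP m hB0 (fun v => cs (update (m ∘ x) c v) = c) fun d hd =>
      hB d hd fun v => cs (update (m ∘ x) c v) = c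
  simp only [e1]
  rw [ex_sum]
  refine (sum_le_sum fun c _ => h c).trans (le_of_eq ?_)
  rw [← mul_sum, ← ex_sum]
  simp only [e2, Fintype.expect_const, mul_one]

end Vale.Agent.P339
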