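import Vale.Agent.P339.Defs2

/-! Balanced families of functions. -/

namespace Vale.Agent.P339

open Finset Matrix Vale.Agent.P325 Function
open scoped BigOperators

set_option linter.unusedSectionVars false

variable {A : Type} [Fintype A] [DecidableEq A] {k : ℕ}

lemma bal_shift (a c b : F2) : (c + a = b) ↔ (a = b + c) := by
  revert a b c
  decide

lemma bal_ne {a : F2} (h : a ≠ 0) : a = 1 := (F2.cases a).resolve_left h

lemma bal_half {G : Type} [Fintype G] [AddCommGroup G] {φ : G → F2}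
    (h : ∀ x y, φ (x + y) = φ x + φ y) (h0 : ∃ x, φ x ≠ 0) (b : F2) :
    𝔼 x, ind (φ x = b) = 1 / 2 := by
  have h1 : 𝔼 x, sgn (φ x) = 0 := by
    rw [ex_sgn h, ind_neg (not_forall.2 h0)]
  have h2 : ∀ x, ind (φ x = b) = 1 / 2 + sgn b / 2 * sgn (φ x) := fun x => by
    have e : (φ x = b) ↔ (b + φ x = 0) := by
      generalize φ x = a
      revert a b
      decide
    rw [ind_congr e, ind_eq_zero, sgn_add]
    ring
  simp only [h2]
  rw [ex_add, ex_mul, h1, expect_const univ_nonempty]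
  ring

lemma bal_ex3 {C : Type} [Fintype C] (f : C → C → C → ℝ) :
    𝔼 σ : Fin 3 → C, f (σ 0) (σ 1) (σ 2) = 𝔼 h, 𝔼 g, 𝔼 d, f g h d := by
  let e : (Fin 3 → C) ≃ C × C × C :=
    ⟨fun σ => (σ 1, σ 0, σ 2), fun x => ![x.2.1, x.1, x.2.2],
      fun σ => by ext i; fin_cases i <;> rfl, fun _ => rfl⟩
  have := ex_equiv e fun x => f x.2.1 x.1 x.2.2
  simp only [ex_prod] at this
  exact this

lemma bal_ge {α : Type} [Fintype α] [Nonempty α] {f : α → ℝ} {c : ℝ} (h : ∀ a, c ≤ f a) :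
    c ≤ 𝔼 a, f a := (expect_const univ_nonempty c).symm.trans_le (ex_mono h)

lemma bal_dot {Ω : Type} [Fintype Ω] (z f g : Ω → F2) : z ⬝ᵥ (f * g) = (z * g) ⬝ᵥ f := by
  simp only [dotProduct, Pi.mul_apply]
  exact sum_congr rfl fun _ _ => by ring

/-- A non-zero additive map to `F2` takes each value with probability `1 / 2`
(`ex_sgn`, `ind_eq_zero`). -/
theorem bal_base (l : ℕ) (p : Unit) : Bal (1 / 2) ((Sys.base A k l).el p) := by
  refine fun z hz b => (bal_half (fun x y => ?_) hz b).ge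
  rw [← dotProduct_add]
  congr 1
  funext ω
  exact sum_add_distrib (s := univ) (f := fun i => x i (ω i)) (g := fun i => y i (ω i))

/-- `z ⬝ᵥ sp (g, h, d) = (z * el h) ⬝ᵥ el g + z ⬝ᵥ el d`. If `z ⬝ᵥ el d` is not identically zero fix
`g, h`. Otherwise some `z ⬝ᵥ (el g0 * el h0) ≠ 0`; with probability `τ` over `h` the functional
`z * el h` does not kill `el g0`, and then both values have probability `τ` over `g`. -/
theorem bal_sp (S : Sys A k) (p : S.Pa) {τ : ℝ} (h0 : 0 ≤ τ) (h1 : τ ≤ 1 / 2)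
    (h : Bal τ (S.el p)) : Bal (τ ^ 2) (S.sp p) := by
  intro z hz b
  have hτ : τ ^ 2 ≤ τ := by nlinarith
  have e : ∀ σ : Fin 3 → S.C, z ⬝ᵥ S.sp p σ
      = (z * S.el p (σ 1)) ⬝ᵥ S.el p (σ 0) + z ⬝ᵥ S.el p (σ 2) := fun σ => by
    rw [Sys.sp, dotProduct_add, bal_dot]
  simp only [e] at hz ⊢
  rw [bal_ex3 fun g h d => ind ((z * S.el p h) ⬝ᵥ S.el p g + z ⬝ᵥ S.el p d = b)]
  by_cases hd : ∃ d, z ⬝ᵥ S.el p d ≠ 0
  · refine bal_ge fun h' => bal_ge fun g => hτ.trans ?_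
    simp only [bal_shift]
    exact h z hd _
  push Not at hd
  simp only [hd, add_zero] at hz ⊢
  obtain ⟨σ, hσ⟩ := hz
  have e2 : ∀ h', (z * S.el p h') ⬝ᵥ S.el p (σ 0) = (z * S.el p (σ 0)) ⬝ᵥ S.el p h' := fun h' => by
    rw [← bal_dot, mul_comm, bal_dot]
  have h2 := h (z * S.el p (σ 0)) ⟨σ 1, e2 _ ▸ hσ⟩ 1
  calc τ ^ 2 = τ * τ := sq τ
    _ ≤ τ * 𝔼 c, ind ((z * S.el p (σ 0)) ⬝ᵥ S.el p c = 1) := mul_le_mul_of_nonneg_left h2 h0
    _ = 𝔼 c, τ * ind ((z * S.el p (σ 0)) ⬝ᵥ S.el p c = 1) := (ex_mul _ _).symm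
    _ ≤ _ := ex_mono fun c => ?_
  simp only [expect_const univ_nonempty]
  by_cases hc : (z * S.el p (σ 0)) ⬝ᵥ S.el p c = 1
  · rw [ind_pos hc, mul_one]
    exact h _ ⟨σ 0, by rw [e2, hc]; exact one_ne_zero⟩ b
  · rw [ind_neg hc, mul_zero]
    exact ex_nonneg fun _ => ind_nonneg _

/-- `z ⬝ᵥ col p (x, σ)` is an additive function of `x` plus `(fun w => z (p.1, w)) ⬝ᵥ sp p.2 σ`. -/
theorem bal_col (S : Sys A k) {t : ℕ} (p : Fin (t + 1) × S.Pa) {τ : ℝ} (h0 : 0 ≤ τ)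
    (h1 : τ ≤ 1 / 2) (h : Bal τ (S.el p.2)) : Bal (τ ^ 2) (S.col p) := by
  intro z hz b
  let φ : (Fin (t + 1) → (S.Lf → A) → F2) → F2 :=
    fun x => z ⬝ᵥ fun i => if i.1 = p.1 then 0 else x i.1 i.2
  have hφ : ∀ x y, φ (x + y) = φ x + φ y := fun x y => by
    simp only [φ]
    rw [← dotProduct_add]
    congr 1
    funext i
    by_cases hi : i.1 = p.1 <;> simp [hi]
  have e : ∀ c : S.CC t, z ⬝ᵥ S.col p c = (fun w => z (p.1, w)) ⬝ᵥ S.sp p.2 c.2 + φ c.1 := by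
    intro c
    have e1 : (fun w => z (p.1, w)) ⬝ᵥ S.sp p.2 c.2
        = z ⬝ᵥ fun i => if i.1 = p.1 then S.sp p.2 c.2 i.2 else 0 := by
      simp only [dotProduct, Fintype.sum_prod_type, mul_ite, mul_zero]
      rw [sum_comm]
      simp
    simp only [φ]
    rw [e1, ← dotProduct_add]
    congr 1
    funext i
    by_cases hi : i.1 = p.1 <;> simp [Sys.col, hi]
  simp only [e] at hz ⊢
  rw [ex_prod]
  by_cases hx : ∃ x, φ x ≠ 0
  · rw [ex_comm]
    refine bal_ge fun σ => ?_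
    simp only [bal_shift]
    rw [bal_half hφ hx]
    nlinarith
  push Not at hx
  simp only [hx, add_zero] at hz ⊢
  obtain ⟨c, hc⟩ := hz
  exact bal_ge fun _ => bal_sp S p.2 h0 h1 h _ ⟨c.2, hc⟩ b

/-- `z ⬝ᵥ (S.step t l).el p c = z' ⬝ᵥ S.col p c` with
`z' i = push (fun ω => res ω i.1) z i.2`. -/
theorem bal_step (S : Sys A k) (t l : ℕ) (p : Fin (t + 1) × S.Pa) {τ : ℝ} (h0 : 0 ≤ τ)
    (h1 : τ ≤ 1 / 2) (h : Bal τ (S.el p.2)) : Bal (τ ^ 2) ((S.step t l).el p) := by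
  intro z hz b
  have e : ∀ c : S.CC t, z ⬝ᵥ (S.step t l).el p c
      = (fun i : Fin (t + 1) × (S.Lf → A) =>
        push (fun ω : Fin (t + 1) × S.Lf → A => res ω i.1) z i.2) ⬝ᵥ S.col p c := fun c => by
    have e1 : ∀ τ' : Fin (t + 1), ∑ w, push (fun ω : Fin (t + 1) × S.Lf → A => res ω τ') z w
        * S.col p c (τ', w) = ∑ ω, z ω * S.col p c (τ', res ω τ') := fun τ' =>
      push_dot (fun ω : Fin (t + 1) × S.Lf → A => res ω τ') z fun w => S.col p c (τ', w)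
    rw [dotProduct, dotProduct, Fintype.sum_prod_type]
    simp only [e1]
    rw [sum_comm]
    exact sum_congr rfl fun ω _ => mul_sum univ (fun τ' => S.col p c (τ', res ω τ')) (z ω)
  obtain ⟨c, hc⟩ := hz
  have h2 := bal_col S p h0 h1 h _ ⟨c, e c ▸ hc⟩ b
  simp only [← e] at h2
  exact h2

theorem Bal.bias {C Ω : Type} [Fintype C] [Nonempty C] [Fintype Ω] {τ : ℝ} {f : C → Ω → F2}
    (h : Bal τ f) {z : Ω → F2} (hz : ∃ c, z ⬝ᵥ f c ≠ 0) : |𝔼 c, sgn (z ⬝ᵥ f c)| ≤ 1 - 2 * τ := by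
  have h0 := h z hz 0
  have h1 := h z hz 1
  have e1 : ∀ a : F2, ind (a = 1) = (1 - sgn a) / 2 := fun a => by
    have e : (a = 1) ↔ ¬ a = 0 := by
      revert a
      decide
    rw [ind_congr e, ind_not, ind_eq_zero]
    ring
  have e2 : ∀ x : ℝ, (1 + x) / 2 = 1 / 2 + 1 / 2 * x := fun x => by ring
  have e3 : ∀ x : ℝ, (1 - x) / 2 = 1 / 2 + -(1 / 2) * x := fun x => by ring
  simp only [ind_eq_zero, e2] at h0
  simp only [e1, e3] at h1
  rw [ex_add, ex_mul, expect_const univ_nonempty] at h0 h1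
  exact abs_le.2 ⟨by linarith, by linarith⟩

theorem Bal.mono {C Ω : Type} [Fintype C] [Fintype Ω] {τ τ' : ℝ} {f : C → Ω → F2}
    (h : Bal τ f) (h' : τ' ≤ τ) : Bal τ' f := fun z hz b => h'.trans (h z hz b)

/-- Induction on `j` with `bal_base`, `bal_step`. -/
theorem bal_tower (l t : ℕ → ℕ) (j : ℕ) (p : (tower A k l t j).Pa) :
    Bal ((1 / 2) ^ 2 ^ j) ((tower A k l t j).el p) := by
  induction j with
  | zero =>
    rw [pow_zero, pow_one]
    exact bal_base (A := A) (k := k) (l 0) p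
  | succ j ih =>
    rw [pow_succ, pow_mul]
    exact bal_step _ (t j) (l (j + 1)) p (by positivity)
      (pow_le_of_le_one (by norm_num) (by norm_num) (by positivity)) (ih p.2)

end Vale.Agent.P339
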