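import Vale.Agent.P339.Defs2

/-! List decoding against a family of signs that need not be orthogonal. -/

namespace Vale.Agent.P339

open Finset Matrix Vale.Agent.P325 Function
open scoped BigOperators

set_option linter.unusedSectionVars false

lemma Bessel_cs {Γ : Type} [Fintype Γ] (f g : Γ → ℝ) :
    (𝔼 a, f a * g a) ^ 2 ≤ (𝔼 a, f a ^ 2) * 𝔼 a, g a ^ 2 := by
  have h1 := ex_mul_le f g
  have h2 := ex_mul_le (fun a => -1 * f a) g
  simp only [mul_assoc, ex_mul, mul_pow, neg_one_sq, one_mul] at h2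
  refine (sq_le_sq' (by linarith) h1).trans_eq ?_
  rw [mul_pow, Real.sq_sqrt (ex_nonneg fun _ => sq_nonneg _),
    Real.sq_sqrt (ex_nonneg fun _ => sq_nonneg _)]

lemma Bessel_one {Γ I : Type} [Fintype Γ] [Nonempty Γ] (X : I → Γ → ℝ) (hX : ∀ i g, X i g ^ 2 = 1)
    (Φ : Γ → ℝ) (hΦ : 𝔼 g, Φ g ^ 2 ≤ 1) {θ : ℝ} (hθ : 0 < θ) (L : Finset I)
    (h1 : ∀ i ∈ L, θ < |𝔼 g, Φ g * X i g|)
    (h2 : ∀ i ∈ L, ∀ j ∈ L, i ≠ j → |𝔼 g, X i g * X j g| ≤ θ ^ 2 / 2) :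
    L.card * (θ ^ 2 / 2) ≤ 𝔼 g, Φ g ^ 2 := by
  classical
  have e0 : 0 ≤ 𝔼 g, Φ g ^ 2 := ex_nonneg fun _ => sq_nonneg _
  rcases L.eq_empty_or_nonempty with rfl | hne
  · simpa using e0
  have n0 : (0 : ℝ) < L.card := Nat.cast_pos.2 hne.card_pos
  have hs : ∀ i, ∃ s : ℝ, |s| = 1 ∧ s * 𝔼 g, Φ g * X i g = |𝔼 g, Φ g * X i g| := fun i => by
    rcases le_total 0 (𝔼 g, Φ g * X i g) with h | h
    · exact ⟨1, abs_one, by rw [one_mul, abs_of_nonneg h]⟩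
    · exact ⟨-1, by simp, by rw [neg_one_mul, abs_of_nonpos h]⟩
  choose s s1 s2 using hs
  have a1 : L.card * θ ≤ 𝔼 g, Φ g * ∑ i ∈ L, s i * X i g := by
    simp only [mul_sum, mul_left_comm (Φ _), ex_sum, ex_mul, s2]
    rw [← nsmul_eq_mul]
    exact card_nsmul_le_sum _ _ _ fun i hi => (h1 i hi).le
  have a2 : 𝔼 g, (∑ i ∈ L, s i * X i g) ^ 2 ≤ L.card * (1 + L.card * (θ ^ 2 / 2)) := by
    simp only [sq (∑ i ∈ L, _), sum_mul_sum, mul_mul_mul_comm (s _) (X _ _), ex_sum, ex_mul]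
    rw [← nsmul_eq_mul]
    refine sum_le_card_nsmul _ _ _ fun i hi => ?_
    have b1 : ∀ j ∈ L, s i * s j * 𝔼 g, X i g * X j g ≤ (if i = j then 1 else 0) + θ ^ 2 / 2 := by
      intro j hj
      refine (le_abs_self _).trans ?_
      rw [abs_mul, abs_mul, s1, s1, one_mul, one_mul]
      split_ifs with e
      · subst e
        simp only [← sq, hX, expect_const univ_nonempty, abs_one]
        linarith [sq_nonneg θ]
      · rw [zero_add]
        exact h2 i hi j hj e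
    refine (sum_le_sum b1).trans_eq ?_
    rw [sum_add_distrib, sum_ite_eq, if_pos hi, sum_const, nsmul_eq_mul]
  have a3 := (pow_le_pow_left₀ (by positivity) a1 2).trans ((Bessel_cs _ _).trans
    (mul_le_mul_of_nonneg_left a2 e0))
  have a4 := mul_le_mul_of_nonneg_right hΦ (show 0 ≤ (L.card : ℝ) ^ 2 * (θ ^ 2 / 2) by positivity)
  refine le_of_mul_le_mul_left ?_ n0
  linarith

/-- For each `α` take a set `L α` of maximal size among the sets of indices with correlation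
`> θ` and pairwise `|𝔼 X i * X j| ≤ θ ^ 2 / 2`. With `n` its size and signs `s i`,
`n θ ≤ 𝔼 Φ * ∑ s i * X i ≤ √(𝔼 Φ ^ 2) * √(n + n ^ 2 θ ^ 2 / 2)` (`ex_mul_le`), so
`n θ ^ 2 / 2 ≤ 𝔼 Φ α ^ 2` (use `𝔼 Φ α ^ 2 ≤ 1`). An index with large correlation is in `L α`
(then `j = i`, and `θ < 1`) or close to a member, by maximality. `L` is the union. -/
theorem bessel {Γ I Λ : Type} [Fintype Γ] [Nonempty Γ] [Fintype I] [Fintype Λ] (X : I → Γ → ℝ)
    (hX : ∀ i g, X i g ^ 2 = 1) (Φ : Λ → Γ → ℝ) (hΦ : ∑ α, 𝔼 g, Φ α g ^ 2 ≤ 1) {θ : ℝ}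
    (hθ : 0 < θ) : ∃ L : Finset I, (L.card : ℝ) ≤ 2 / θ ^ 2 ∧
      ∀ α i, θ < |𝔼 g, Φ α g * X i g| → ∃ j ∈ L, θ ^ 2 / 2 < |𝔼 g, X i g * X j g| := by
  classical
  have e1 : ∀ α, 𝔼 g, Φ α g ^ 2 ≤ 1 := fun α => (single_le_sum (f := fun α => 𝔼 g, Φ α g ^ 2)
    (fun _ _ => ex_nonneg fun _ => sq_nonneg _) (mem_univ α)).trans hΦ
  have key : ∀ α, ∃ L : Finset I, L.card * (θ ^ 2 / 2) ≤ 𝔼 g, Φ α g ^ 2 ∧
      ∀ i, θ < |𝔼 g, Φ α g * X i g| → ∃ j ∈ L, θ ^ 2 / 2 < |𝔼 g, X i g * X j g| := fun α => by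
    obtain ⟨L, h1, h2⟩ := exists_max_image (univ.filter fun L : Finset I =>
      (∀ i ∈ L, θ < |𝔼 g, Φ α g * X i g|) ∧
        ∀ i ∈ L, ∀ j ∈ L, i ≠ j → |𝔼 g, X i g * X j g| ≤ θ ^ 2 / 2) card ⟨∅, by simp⟩
    obtain ⟨h3, h4⟩ := (mem_filter.1 h1).2
    refine ⟨L, Bessel_one X hX _ (e1 α) hθ L h3 h4, fun i hi => ?_⟩
    by_cases hL : i ∈ L
    · refine ⟨i, hL, ?_⟩
      have b1 := Bessel_cs (Φ α) (X i)
      simp only [← sq, hX, expect_const univ_nonempty, abs_one, mul_one] at b1 ⊢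
      have b2 := pow_lt_pow_left₀ hi hθ.le two_ne_zero
      rw [sq_abs] at b2
      linarith [e1 α]
    · by_contra hc
      push Not at hc
      have := h2 (insert i L) (mem_filter.2 ⟨mem_univ _, fun j hj => ?_, fun j hj l hl e => ?_⟩)
      · rw [card_insert_of_notMem hL] at this
        omega
      · rcases mem_insert.1 hj with rfl | hj
        exacts [hi, h3 j hj]
      · rcases mem_insert.1 hj with rfl | hj' <;> rcases mem_insert.1 hl with rfl | hl'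
        · exact absurd rfl e
        · exact hc l hl'
        · simpa only [mul_comm] using hc j hj'
        · exact h4 j hj' l hl' e
  choose L h1 h2 using key
  refine ⟨univ.biUnion L, ?_, fun α i hi => ?_⟩
  · have b1 : ((univ.biUnion L).card : ℝ) ≤ ∑ α, ((L α).card : ℝ) := by
      exact_mod_cast card_biUnion_le
    have b2 := (sum_le_sum fun α (_ : α ∈ univ) => h1 α).trans hΦ
    rw [← sum_mul] at b2
    rw [le_div_iff₀ (by positivity)]
    have := mul_le_mul_of_nonneg_right b1 (sq_nonneg θ)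
    linarith
  · obtain ⟨j, j1, j2⟩ := h2 α i hi
    exact ⟨j, mem_biUnion.2 ⟨α, mem_univ _, j1⟩, j2⟩

end Vale.Agent.P339
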