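import Vale.Agent.P339.Marks
import Vale.Agent.P339N.Red

/-! Two-to-one maps, and left-regular instances. -/

namespace Vale.Agent.P339

open Finset Matrix Vale.Agent.P325 Function Vale.Agent.Lib.PCP
open scoped BigOperators

set_option linter.unusedSectionVars false

lemma cls_one {V : Type} [Fintype V] [AddCommGroup V] [Module F2 V] {q : ℕ}
    (h : Fintype.card V = 2 * q) {δ : V} (hδ : δ ≠ 0) : ∃ (c : V → Fin q) (r : Fin q → V),
      (∀ b, #{L | c L = b} = 2) ∧ (∀ L (b : F2), c (L + b • δ) = c L) ∧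
        ∀ L, ∃ b : F2, L = r (c L) + b • δ := by
  classical
  let W : Submodule F2 V := Submodule.span F2 {δ}
  have hW : ∀ L L' : V, W.mkQ L = W.mkQ L' ↔ ∃ b : F2, L = L' + b • δ := fun L L' => by
    rw [Submodule.mkQ_apply, Submodule.mkQ_apply, Submodule.Quotient.eq,
      Submodule.mem_span_singleton]
    exact ⟨fun ⟨b, hb⟩ => ⟨b, by rw [hb]; abel⟩, fun ⟨b, hb⟩ => ⟨b, by rw [hb]; abel⟩⟩
  have : Finite (V ⧸ W) := Finite.of_surjective _ W.mkQ_surjective
  let _ : Fintype (V ⧸ W) := Fintype.ofFinite _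
  have hf : ∀ x : V ⧸ W, #{L | W.mkQ L = x} = 2 := fun x => by
    obtain ⟨L0, rfl⟩ := W.mkQ_surjective x
    have e : ({L | W.mkQ L = W.mkQ L0} : Finset V) = {L0, L0 + δ} := by
      ext L
      simp only [mem_filter, mem_univ, true_and, mem_insert, mem_singleton, hW]
      constructor
      · rintro ⟨b, hb⟩
        rcases F2.cases b with rfl | rfl
        · left; simpa using hb
        · right; simpa using hb
      · rintro (rfl | rfl)
        · exact ⟨0, by simp⟩
        · exact ⟨1, by simp⟩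
    rw [e, card_pair]
    intro h0
    exact hδ (by simpa using h0)
  have hc : Fintype.card (V ⧸ W) = q := by
    have h1 := card_eq_sum_card_fiberwise (s := (univ : Finset V)) (t := (univ : Finset (V ⧸ W)))
      (f := W.mkQ) (fun _ _ => mem_coe.2 (mem_univ _))
    simp only [hf, sum_const, smul_eq_mul, card_univ] at h1
    omega
  let e : (V ⧸ W) ≃ Fin q := Fintype.equivFinOfCardEq hc
  refine ⟨fun L => e (W.mkQ L), fun b => surjInv W.mkQ_surjective (e.symm b), fun b => ?_,
    fun L b => ?_, fun L => ?_⟩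
  · refine Eq.trans (congrArg card ?_) (hf (e.symm b))
    ext L
    simp only [mem_filter, mem_univ, true_and, Equiv.eq_symm_apply]
  · exact congrArg e ((hW _ _).2 ⟨b, rfl⟩)
  · refine (hW _ _).1 ?_
    rw [surjInv_eq W.mkQ_surjective, Equiv.symm_apply_apply]

/-- For `δ ≠ 0` the classes `{L, L + δ}` have two points, so there are `q` of them
(for instance the quotient by `AddSubgroup.zmultiples δ` or the span of `δ`); number them. -/
theorem exists_cls {V : Type} [Fintype V] [AddCommGroup V] [Module F2 V] {q : ℕ} (hq : 0 < q)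
    (h : Fintype.card V = 2 * q) : ∃ (cls : V → V → Fin q) (rep : V → Fin q → V), ∀ δ ≠ 0,
      (∀ b, #{L | cls δ L = b} = 2) ∧ (∀ L (b : F2), cls δ (L + b • δ) = cls δ L) ∧
        ∀ L, ∃ b : F2, L = rep δ (cls δ L) + b • δ := by
  classical
  have H : ∀ δ : V, ∃ (c : V → Fin q) (r : Fin q → V), δ ≠ 0 →
      (∀ b, #{L | c L = b} = 2) ∧ (∀ L (b : F2), c (L + b • δ) = c L) ∧
        ∀ L, ∃ b : F2, L = r (c L) + b • δ := fun δ => by
    by_cases hδ : δ = 0
    · exact ⟨fun _ => ⟨0, hq⟩, fun _ => 0, fun h0 => absurd hδ h0⟩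
    · obtain ⟨c, r, hh⟩ := cls_one h hδ
      exact ⟨c, r, fun _ => hh⟩
  choose c r H using H
  exact ⟨c, r, H⟩

/-- The cardinality is a power of two (`Module.card_eq_pow_finrank`), and `M.dir p` is injective
(`pr_dir`), so it is at least four. -/
theorem exists_q {A : Type} [Fintype A] [DecidableEq A] {k : ℕ} {S : Sys A k} {M : Mark S}
    (h : M.Ok) (hl : 2 ≤ M.l) : ∃ q, 2 ≤ q ∧ Fintype.card S.Lab = 2 * q := by
  classical
  obtain ⟨p⟩ := S.nPa
  have hinj : Injective (M.dir p) := fun a b hab => by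
    rw [← h.pr_dir p a, hab, h.pr_dir]
  have h1 := Fintype.card_le_of_injective _ hinj
  have h2 : Fintype.card S.Lab = Fintype.card F2 ^ Module.finrank F2 S.Lab :=
    Module.card_eq_pow_finrank
  have h3 : Fintype.card (Fin M.l → F2) = 2 ^ M.l := by simp
  have h4 : 2 ^ 2 ≤ 2 ^ M.l := Nat.pow_le_pow_right (by norm_num) hl
  rw [ZMod.card] at h2
  generalize Module.finrank F2 S.Lab = n at h2
  rcases n with _ | n
  · omega
  · refine ⟨2 ^ n, ?_, by rw [h2, pow_succ']⟩
    rw [pow_succ'] at h2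
    omega

lemma cls_cnt {X : Type} (l : List X) (p : X → Bool) :
    #{i : Fin l.length | p (l.get i) = true} = l.countP p := by
  induction l with
  | nil => simp
  | cons a l ih =>
    rw [List.countP_cons, ← ih, card_filter, card_filter]
    exact (Fin.sum_univ_succ (n := l.length) _).trans (add_comm _ _)

/-- All fibres of the left end point have `dU` points (`Equiv.sigmaFiberEquiv`,
`Fintype.equivFinOfCardEq`, `List.countP` as a cardinality of a filter of `Fin`). -/
theorem exists_eqv {L R dU dV : ℕ} {G : LC} (h : G.WF L R) (hb : G.Bireg dU dV) :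
    ∃ e : Fin G.1 × Fin dU ≃ Fin G.2.2.length, ∀ x, (G.2.2.get (e x)).1 = x.1 := by
  classical
  let f : Fin G.2.2.length → Fin G.1 := fun i =>
    ⟨(G.2.2.get i).1, (h.2 _ (List.get_mem _ _)).1⟩
  have hc : ∀ u : Fin G.1, Fintype.card {i // f i = u} = dU := fun u => by
    rw [← hb.1 u u.2, Fintype.card_subtype, ← cls_cnt]
    congr 1
    ext i
    simp [f, Fin.ext_iff]
  let e : ∀ u : Fin G.1, Fin dU ≃ {i // f i = u} := fun u => (Fintype.equivFinOfCardEq (hc u)).symm
  refine ⟨(Equiv.sigmaEquivProd _ _).symm.trans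
    ((Equiv.sigmaCongrRight e).trans (Equiv.sigmaFiberEquiv f)), fun x => ?_⟩
  exact congrArg Fin.val (e x.1 x.2).2

end Vale.Agent.P339
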