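import Vale.Agent.P339.Defs2
import Vale.Agent.P325.SoundC

/-! The Fourier expansion on one orbit. -/

namespace Vale.Agent.P339

open Finset Matrix Vale.Agent.P325 Function
open scoped BigOperators

set_option linter.unusedSectionVars false

lemma core_mg {l : ℕ} {ι ι' C : Type} [Fintype ι] [Fintype ι'] [DecidableEq ι']
    (f : C → ι' → F2) (vw : ι → ι') (T : Matrix (Fin l) (Fin l) F2) (g : (Fin l → F2) → C)
    (S : Matrix ι (Fin l) F2) : chi S (Mg f vw T g) =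
      sgn (∑ c, if c ᵥ* T = 0 then push vw (S *ᵥ c) ⬝ᵥ f (g c) else 0) := by
  refine congrArg sgn ?_
  change ∑ i, ∑ j, S i j * (∑ c, if c ᵥ* T = 0 then f (g c) (vw i) * c j else 0) = _
  simp only [mul_sum]
  rw [funext fun i => sum_comm, sum_comm]
  refine sum_congr rfl fun c _ => ?_
  split_ifs with h
  · rw [push_dot]
    refine sum_congr rfl fun i _ => ?_
    simp only [mulVec, dotProduct, sum_mul, Function.comp_apply]
    exact sum_congr rfl fun j _ => by ring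
  · simp

lemma core_vec {l : ℕ} {ι : Type} [Fintype ι] [DecidableEq ι] (h : ι → F2) (χ : Fin l → F2)
    (N : Matrix ι (Fin l) F2) : chi χ (h ᵥ* N) = chi (vecMulVec h χ) N := by
  rw [chi_comm _ N, chi_vecMulVec, chi, chi, B_vec, B_vec, dotProduct_mulVec, dotProduct_comm]

/-- Follow `P325.Par.core`. Write `ind (p ∧ v = β) = ind p * 𝔼 χ, chi χ (v + β)`. The characters
with `(1 + T) *ᵥ χ = 0` have probability `≤ 2 ^ r / 2 ^ l` (`triv_le`) and each contributes at most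
the mass of the zoom. Otherwise expand `ind (Q * N = 0) = 𝔼 Y, chi Y (Q * N)`; with
`S = Qᵀ * Y + vecMulVec h χ` the term is a sign times
`𝔼 g, ind ((G g).2 = α') * chi χ (G g).1 * chi S (Mg g)` times `𝔼 ψ, sgn (additive in ψ)`
(`ex_sgn`); `chi S (Mg g) = sgn (∑ c, if .. then (S *ᵥ c) ⬝ᵥ (f (g c) ∘ vw) else 0)`, `push_dot`.
If the additive map vanishes test it on `fun y => ψ0 y • e χ`; `S *ᵥ (e χ ᵥ* (1 + T))` is
`Qᵀ *ᵥ (Y *ᵥ ..) + h` because `χ ⬝ᵥ e χ ᵥ* (1 + T) = 1`. -/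
theorem core {l r : ℕ} {ι ι' C Λ Λ' : Type} [Fintype ι] [DecidableEq ι] [Fintype ι']
    [DecidableEq ι'] [Fintype C] [Nonempty C] [Fintype Λ] [DecidableEq Λ] (f : C → ι' → F2)
    (vw : ι → ι') {T : Matrix (Fin l) (Fin l) F2} (rT : T.rank ≤ r)
    (e : (Fin l → F2) → Fin l → F2) (he : ∀ χ, (1 + T) *ᵥ χ ≠ 0 → χ ⬝ᵥ e χ ᵥ* (1 + T) = 1)
    (G : ((Fin l → F2) → C) → (Fin l → F2) × Λ') (Q : Matrix ι ι F2) (h : ι → F2)
    (M1 : Matrix ι (Fin l) F2) (lo : ι → Option Λ) (α : Λ) (β : Fin l → F2) (α' : Λ') {θ : ℝ}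
    (hθ : 0 ≤ θ) :
    𝔼 g : (Fin l → F2) → C, 𝔼 ψ : Λ → Fin l → F2, ind (Q * (M1 + Mg f vw T g + Fo lo T ψ) = 0) *
      (ind ((G g).2 = α' ∧ (G g).1 + ψ α ᵥ* (1 + T) + h ᵥ* (Mg f vw T g + Fo lo T ψ) = β) -
        2 ^ r / 2 ^ l) ≤
    θ + ind (∃ (χ : Fin l → F2) (S : Matrix ι (Fin l) F2), (1 + T) *ᵥ χ ≠ 0 ∧
      (∃ y, S *ᵥ (e χ ᵥ* (1 + T)) = Qᵀ *ᵥ y + h) ∧
      (∀ ψ : Λ → F2, ∑ i, (S *ᵥ (e χ ᵥ* (1 + T))) i * (lo i).elim 0 ψ = ψ α) ∧
      θ < |𝔼 g : (Fin l → F2) → C, (ind ((G g).2 = α') * chi χ (G g).1) *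
        sgn (∑ c, if c ᵥ* T = 0 then push vw (S *ᵥ c) ⬝ᵥ f (g c) else 0)|) := by
  have : Nonempty ((Fin l → F2) → C) := inferInstance
  set D : Prop := ∃ (χ : Fin l → F2) (S : Matrix ι (Fin l) F2), (1 + T) *ᵥ χ ≠ 0 ∧
      (∃ y, S *ᵥ (e χ ᵥ* (1 + T)) = Qᵀ *ᵥ y + h) ∧
      (∀ ψ : Λ → F2, ∑ i, (S *ᵥ (e χ ᵥ* (1 + T))) i * (lo i).elim 0 ψ = ψ α) ∧
      θ < |𝔼 g : (Fin l → F2) → C, (ind ((G g).2 = α') * chi χ (G g).1) *
        sgn (∑ c, if c ᵥ* T = 0 then push vw (S *ᵥ c) ⬝ᵥ f (g c) else 0)| with hD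
  set y := 𝔼 g : (Fin l → F2) → C, 𝔼 ψ : Λ → Fin l → F2,
    ind (Q * (M1 + Mg f vw T g + Fo lo T ψ) = 0) with hy
  have y1 : y ≤ 1 := ex_le fun _ => ex_le fun _ => ind_le_one _
  have y0 : 0 ≤ y := ex_nonneg fun _ => ex_nonneg fun _ => ind_nonneg _
  have k2 := mul_le_mul_of_nonneg_right (triv_le rT) y0
  rw [Fintype.card_fin] at k2
  suffices k : 𝔼 g : (Fin l → F2) → C, 𝔼 ψ : Λ → Fin l → F2,
      ind (Q * (M1 + Mg f vw T g + Fo lo T ψ) = 0) *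
      ind ((G g).2 = α' ∧ (G g).1 + ψ α ᵥ* (1 + T) + h ᵥ* (Mg f vw T g + Fo lo T ψ) = β) ≤
      (𝔼 χ, ind ((1 + T) *ᵥ χ = 0)) * y + (θ + ind D) by
    simp only [mul_sub, ex_sub, ex_mul', ← hy]
    linarith
  simp only [ind_and, ← add_eq_zero_iff _ β, ← ex_chi' (_ + β), ← ex_mul]
  rw [funext fun X => ex_comm _, ex_comm, ← ex_mul',
    ← Fintype.expect_const (ι := Fin l → F2) (θ + _), ← ex_add]
  refine ex_mono fun χ => ?_
  have c1 := ex_mono fun g : (Fin l → F2) → C => ex_mono fun ψ : Λ → Fin l → F2 =>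
    mul_le_of_le_one_right (ind_nonneg (Q * (M1 + Mg f vw T g + Fo lo T ψ) = 0))
      ((mul_le_mul_of_nonneg_left ((le_abs_self _).trans (abs_chi χ ((G g).1 + ψ α ᵥ* (1 + T) +
        h ᵥ* (Mg f vw T g + Fo lo T ψ) + β)).le) (ind_nonneg ((G g).2 = α'))).trans
        ((mul_one _).trans_le (ind_le_one _)))
  by_cases h1 : (1 + T) *ᵥ χ = 0
  · rw [ind_pos h1]; linarith [ind_nonneg D]
  by_cases h2 : D
  · rw [ind_pos h2, ind_neg h1]; linarith
  rw [ind_neg h1, ind_neg h2, zero_mul, zero_add, add_zero]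
  simp only [fun N : Matrix ι (Fin l) F2 => (ex_chi' (Q * N)).symm, ← ex_mul']
  rw [funext fun X => ex_comm _, ex_comm]
  refine ex_le fun Y => ?_
  set S : Matrix ι (Fin l) F2 := Qᵀ * Y + vecMulVec h χ with hS
  let φ : (Λ → Fin l → F2) → F2 := fun ψ => Pairing.B S (Fo lo T ψ) + Pairing.B χ (ψ α ᵥ* (1 + T))
  have hφ : ∀ s s', φ (s + s') = φ s + φ s' := fun s s' => by
    have e1 : Fo lo T (s + s') = Fo lo T s + Fo lo T s' := by
      ext i j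
      simp only [Fo, Matrix.add_apply, of_apply]
      cases lo i <;> simp [add_vecMul]
    simp only [φ, e1, Pi.add_apply, add_vecMul, Pairing.add]
    ring
  have e0 : ∀ (g : (Fin l → F2) → C) ψ, chi Y (Q * (M1 + Mg f vw T g + Fo lo T ψ)) *
      (ind ((G g).2 = α') *
        chi χ ((G g).1 + ψ α ᵥ* (1 + T) + h ᵥ* (Mg f vw T g + Fo lo T ψ) + β)) =
      chi (Qᵀ * Y) M1 * chi χ β * ((ind ((G g).2 = α') * chi χ (G g).1) *
        sgn (∑ c, if c ᵥ* T = 0 then push vw (S *ᵥ c) ⬝ᵥ f (g c) else 0) * sgn (φ ψ)) :=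
    fun g ψ => by
    rw [← core_mg, sgn_add]
    change _ = _ * (_ * (chi S _ * chi χ _))
    rw [chi_mul_left, chi_add, chi_add, chi_add, chi_add, chi_add, core_vec h, chi_add, hS,
      chi_add', chi_add']
    ring
  simp only [e0, ex_mul, ex_mul', ex_sgn hφ]
  refine (le_abs_self _).trans ?_
  rw [abs_mul, abs_mul, abs_chi, abs_chi, one_mul, one_mul]
  by_cases h3 : ∀ s, φ s = 0
  swap
  · rwa [ind_neg h3, mul_zero, abs_zero]
  rw [ind_pos h3, mul_one]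
  refine not_lt.1 fun h4 => h2 ⟨χ, S, h1, ⟨Y *ᵥ (e χ ᵥ* (1 + T)), ?_⟩, fun ψ => ?_, h4⟩
  · rw [hS, add_mulVec, mulVec_mulVec]
    refine congrArg _ (funext fun i => ?_)
    change ∑ j, h i * χ j * (e χ ᵥ* (1 + T)) j = h i
    simp only [mul_assoc, ← mul_sum]
    exact (congrArg _ (he χ h1)).trans (mul_one _)
  · have := h3 fun y => ψ y • e χ
    simp only [φ, add_eq_zero_iff] at this
    rw [B_vec, smul_vecMul, dotProduct_smul, he χ h1, smul_eq_mul, mul_one] at this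
    rw [← this]
    refine sum_congr rfl fun i _ => ?_
    change _ = S i ⬝ᵥ (lo i).elim 0 fun y => (ψ y • e χ) ᵥ* (1 + T)
    cases lo i with
    | none => simp
    | some a =>
      simp only [Option.elim_some]
      rw [smul_vecMul, dotProduct_smul, smul_eq_mul, mul_comm]
      rfl

end Vale.Agent.P339
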