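import Vale.Agent.P339.Bal
import Vale.Agent.P325.SoundC

/-! A product of many biases forces exact agreement. -/

namespace Vale.Agent.P339

open Finset Matrix Vale.Agent.P325 Function
open scoped BigOperators

set_option linter.unusedSectionVars false

lemma Exact_ker {l r : ℕ} (hr : r < l) {T : Matrix (Fin l) (Fin l) F2} (rT : T.rank ≤ r) :
    2 * 2 ^ (l - r - 1) ≤ #{c : Fin l → F2 | c ᵥ* T = 0} := by
  have h := ker_ge (P := Tᵀ) (r := r) (by rwa [rank_transpose])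
  simp only [mulVec_transpose] at h
  rw [ex_ind, Fintype.card_fun, ZMod.card, Fintype.card_fin, le_div_iff₀ (by positivity)] at h
  obtain ⟨m, rfl⟩ : ∃ m, l = r + 1 + m := ⟨l - r - 1, by omega⟩
  have e : r + 1 + m - r - 1 = m := by omega
  rw [e]
  have e2 : (2 ^ r : ℝ)⁻¹ * ((2 ^ (r + 1 + m) : ℕ) : ℝ) = ((2 * 2 ^ m : ℕ) : ℝ) := by
    push_cast
    field_simp
    ring
  rw [e2] at h
  exact_mod_cast h

lemma Exact_half {G : Type} [AddCommGroup G] [DecidableEq G] (K : Finset G) (b : G → Prop)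
    [DecidablePred b] (c0 : G) (hK : ∀ c ∈ K, c + c0 ∈ K) (hb : ∀ c ∈ K, ¬ b c → b (c + c0)) :
    #K ≤ 2 * #(K.filter b) := by
  have h1 := card_filter_add_card_filter_not (s := K) b
  have h2 : #(K.filter fun c => ¬ b c) ≤ #(K.filter b) :=
    card_le_card_of_injOn (fun c => c + c0)
      (fun c hc => by
        obtain ⟨k1, k2⟩ := mem_filter.1 (mem_coe.1 hc)
        exact mem_coe.2 (mem_filter.2 ⟨hK c k1, hb c k1 k2⟩))
      fun _ _ _ _ h => add_right_cancel h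
  omega

/-- The expectation is `∏ c, (if c ᵥ* T = 0 then 𝔼 x, sgn ((S *ᵥ c) ⬝ᵥ f x) else 1)` (`sgn_sum`,
`ex_pi_prod`). If some `c0` with `c0 ᵥ* T = 0` is bad (the conclusion fails), then for every `c`
with `c ᵥ* T = 0` one of `c`, `c + c0` is bad, so at least half of these `c` are bad; there are at
least `2 ^ (l - r)` of them (`ker_ge` for `Tᵀ`), and a bad factor is at most `1 - 2 τ`
(`Bal.bias`). -/
theorem exact_of_bias {C Ω : Type} [Fintype C] [Nonempty C] [Fintype Ω] {τ lam : ℝ} {f : C → Ω → F2}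
    (hf : Bal τ f) (h0 : 0 ≤ τ) (h1 : τ ≤ 1 / 2) {l r : ℕ} (hr : r < l)
    {T : Matrix (Fin l) (Fin l) F2} (rT : T.rank ≤ r) (hl : (1 - 2 * τ) ^ 2 ^ (l - r - 1) ≤ lam)
    (S : Matrix Ω (Fin l) F2)
    (h : lam < |𝔼 g : (Fin l → F2) → C,
      sgn (∑ c, if c ᵥ* T = 0 then (S *ᵥ c) ⬝ᵥ f (g c) else 0)|) :
    ∀ c, c ᵥ* T = 0 → ∀ x, (S *ᵥ c) ⬝ᵥ f x = 0 := by
  classical
  intro c0 hc0 x0
  by_contra hx0
  set K : Finset (Fin l → F2) := {c | c ᵥ* T = 0} with hK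
  have h2 := Exact_half K (fun c => ∃ x, (S *ᵥ c) ⬝ᵥ f x ≠ 0) c0
    (fun c hc => by
      rw [hK, mem_filter] at hc ⊢
      exact ⟨mem_univ _, by rw [add_vecMul, hc.2, hc0, add_zero]⟩)
    fun c _ hc => ⟨x0, by
      rw [mulVec_add, add_dotProduct, not_not.1 fun k => hc ⟨x0, k⟩, zero_add]
      exact hx0⟩
  have h3 := Exact_ker hr rT
  rw [← hK] at h3
  set B := K.filter fun c => ∃ x, (S *ᵥ c) ⬝ᵥ f x ≠ 0 with hB
  have h4 : 0 ≤ 1 - 2 * τ := by linarith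
  simp only [sgn_sum] at h
  rw [ex_pi_prod fun c x => sgn (if c ᵥ* T = 0 then (S *ᵥ c) ⬝ᵥ f x else 0), abs_prod] at h
  have h5 : ∏ c : Fin l → F2, |𝔼 x, sgn (if c ᵥ* T = 0 then (S *ᵥ c) ⬝ᵥ f x else 0)| ≤
      ∏ c : Fin l → F2, if c ∈ B then 1 - 2 * τ else 1 := by
    refine prod_le_prod (fun _ _ => abs_nonneg _) fun c _ => ?_
    by_cases hc : c ∈ B
    · obtain ⟨k1, k2⟩ := mem_filter.1 hc
      simp only [if_pos hc, if_pos (mem_filter.1 k1).2]
      exact hf.bias k2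
    · rw [if_neg hc, abs_le]
      refine ⟨?_, ex_le fun x => (le_abs_self _).trans (abs_sgn _).le⟩
      have := ex_mono (f := fun _ : C => (-1 : ℝ))
        (g := fun x => sgn (if c ᵥ* T = 0 then (S *ᵥ c) ⬝ᵥ f x else 0))
        fun x => (abs_le.1 (abs_sgn _).le).1
      rwa [Fintype.expect_const] at this
  rw [prod_ite_mem, univ_inter, prod_const] at h5
  have h6 : (1 - 2 * τ) ^ #B ≤ (1 - 2 * τ) ^ 2 ^ (l - r - 1) :=
    pow_le_pow_of_le_one h4 (by linarith) (by omega)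
  linarith

end Vale.Agent.P339
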