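import Vale.Agent.P339.Core
import Vale.Agent.P339.Bessel
import Vale.Agent.P339.Exact

/-! The list of the right prover. -/

namespace Vale.Agent.P339

open Finset Matrix Vale.Agent.P325 Function
open scoped BigOperators

set_option linter.unusedSectionVars false

/-- Choose `e` as in the proof of `P325.sound` (`ha`). For each `χ` apply `bessel` with
`I = Matrix ι' (Fin l) F2`, `X S' g = sgn (∑ c, if c ᵥ* T = 0 then (S' *ᵥ c) ⬝ᵥ f (g c) else 0)`,
`Φ α' g = ind ((G g).2 = α') * chi χ (G g).1`; `L` is the union over `χ` of the images under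
`S' ↦ S' *ᵥ (e χ ᵥ* (1 + T))`. Then `core`, with `S' = of fun i j => push vw (fun i' => S i' j) i`
(so `S' *ᵥ c = push vw (S *ᵥ c)`), `X S' * X S'' = X (S' + S'')` and `exact_of_bias` at
`c = e χ ᵥ* (1 + T)` (`(1 + T) * T = 0`). -/
theorem core_list {l r : ℕ} {ι' C Λ' : Type} [Fintype ι'] [DecidableEq ι'] [Fintype C]
    [Nonempty C] [Fintype Λ'] {τ θ : ℝ} {f : C → ι' → F2} (hf : Bal τ f) (h0 : 0 ≤ τ)
    (h1 : τ ≤ 1 / 2) (hr : r < l) {T : Matrix (Fin l) (Fin l) F2} (hT : T * T = T)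
    (rT : T.rank ≤ r) (hθ : 0 < θ) (hl : (1 - 2 * τ) ^ 2 ^ (l - r - 1) ≤ θ ^ 2 / 2)
    (G : ((Fin l → F2) → C) → (Fin l → F2) × Λ') :
    ∃ L : Finset (ι' → F2), (L.card : ℝ) ≤ 2 ^ l * (2 / θ ^ 2) ∧
      ∀ (ι Λ : Type) [Fintype ι] [DecidableEq ι] [Fintype Λ] [DecidableEq Λ] (vw : ι → ι')
        (Q : Matrix ι ι F2) (h : ι → F2) (M1 : Matrix ι (Fin l) F2) (lo : ι → Option Λ) (α : Λ)
        (β : Fin l → F2) (α' : Λ'),
        𝔼 g : (Fin l → F2) → C, 𝔼 ψ : Λ → Fin l → F2,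
          ind (Q * (M1 + Mg f vw T g + Fo lo T ψ) = 0) *
          (ind ((G g).2 = α' ∧ (G g).1 + ψ α ᵥ* (1 + T) + h ᵥ* (Mg f vw T g + Fo lo T ψ) = β) -
            2 ^ r / 2 ^ l) ≤
        θ + ind (∃ Z, (∃ y, Z = Qᵀ *ᵥ y + h) ∧ ∃ z ∈ L, (∀ x, (push vw Z + z) ⬝ᵥ f x = 0) ∧
          ∀ ψ : Λ → F2, ∑ i, Z i * (lo i).elim 0 ψ = ψ α) := by
  classical
  have ha : ∀ χ : Fin l → F2, ∃ a : Fin l → F2, (1 + T) *ᵥ χ ≠ 0 → χ ⬝ᵥ a ᵥ* (1 + T) = 1 :=
    fun χ => by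
      by_cases h : (1 + T) *ᵥ χ = 0
      · exact ⟨0, fun h' => (h' h).elim⟩
      · obtain ⟨a, ha⟩ := not_forall.1 fun h' => h (Pairing.nd _ h')
        refine ⟨a, fun _ => (F2.cases _).resolve_left ?_⟩
        rwa [dotProduct_comm, ← dotProduct_mulVec, dotProduct_comm]
  choose e he using ha
  obtain ⟨X, hX⟩ : ∃ X : Matrix ι' (Fin l) F2 → ((Fin l → F2) → C) → ℝ, X = fun S g =>
    sgn (∑ c, if c ᵥ* T = 0 then (S *ᵥ c) ⬝ᵥ f (g c) else 0) := ⟨_, rfl⟩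
  have hb := fun χ : Fin l → F2 => bessel X (fun S g => by rw [hX]; exact sgn_sq _)
    (fun α' g => ind ((G g).2 = α') * chi χ (G g).1) (by
      rw [← ex_sum]
      refine ex_le fun g => ?_
      simp only [mul_pow, chi_sq, mul_one]
      simp only [sq]
      rw [sum_ind_mul]
      exact ind_le_one _) hθ
  choose L hL using hb
  refine ⟨univ.biUnion fun χ => (L χ).image fun S => S *ᵥ (e χ ᵥ* (1 + T)), ?_, ?_⟩
  · refine (Nat.cast_le.2 (card_biUnion_le.trans (sum_le_sum fun χ _ => card_image_le))).trans ?_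
    rw [Nat.cast_sum]
    refine (sum_le_sum fun χ _ => (hL χ).1).trans (le_of_eq ?_)
    simp
  intro ι Λ _ _ _ _ vw Q h M1 lo α β α'
  refine (core f vw rT e he G Q h M1 lo α β α' hθ.le).trans (add_le_add le_rfl (ind_mono ?_))
  rintro ⟨χ, S, -, h2, h3, h4⟩
  obtain ⟨S', hS⟩ : ∃ S' : Matrix ι' (Fin l) F2, ∀ c, S' *ᵥ c = push vw (S *ᵥ c) :=
    ⟨of fun i j => push vw (fun i' => S i' j) i, fun c => funext fun i => by
      simp only [mulVec, dotProduct, push, of_apply, sum_mul, ite_mul, zero_mul]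
      rw [sum_comm]
      exact sum_congr rfl fun k _ => by split_ifs <;> simp⟩
  obtain ⟨J, hJ, h5⟩ := (hL χ).2 α' S' (by simpa only [hX, hS] using h4)
  refine ⟨_, h2, _, mem_biUnion.2 ⟨χ, mem_univ _, mem_image_of_mem _ hJ⟩, fun x => ?_, h3⟩
  rw [← hS, ← add_mulVec]
  refine exact_of_bias hf h0 h1 hr rT hl (S' + J) (h5.trans_eq ?_) _ ?_ x
  · refine congrArg (fun F : ((Fin l → F2) → C) → ℝ => |𝔼 g, F g|) (funext fun g => ?_)
    simp only [hX]
    rw [← sgn_add, ← sum_add_distrib]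
    refine congrArg sgn (sum_congr rfl fun c _ => ?_)
    split_ifs
    · rw [add_mulVec, add_dotProduct]
    · rw [add_zero]
  · rw [vecMul_vecMul, add_mul, one_mul, hT, mat_add_self, vecMul_zero]

end Vale.Agent.P339
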