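import Vale.Agent.P325.Four

/-! The tower of planted children: definitions. -/

namespace Vale.Agent.P339

open Finset Matrix Vale.Agent.P325 Function
open scoped BigOperators

set_option linter.unusedSectionVars false

/-- Non-zero vectors. -/
abbrev NZ (l : ℕ) := {a : Fin l → F2 // a ≠ 0}

/-- Push-forward of a functional along a map. -/
def push {X Y : Type} [Fintype X] [DecidableEq Y] (f : X → Y) (z : X → F2) : Y → F2 :=
  fun y => ∑ x, if f x = y then z x else 0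

lemma push_dot {X Y : Type} [Fintype X] [Fintype Y] [DecidableEq Y] (f : X → Y) (z : X → F2)
    (g : Y → F2) : push f z ⬝ᵥ g = z ⬝ᵥ (g ∘ f) := by
  simp only [dotProduct, push, sum_mul, ite_mul, zero_mul]
  rw [sum_comm]
  simp

/-- One level of the tower over the leaf alphabet `A`, with `k` bottom leaves on the path.
`Lf` leaves, `Lab` labels, `Pa` paths, `C` parameters of one function, `Xi` parameters of the
tables, `Ph` foldings. -/
structure Sys (A : Type) (k : ℕ) : Type 1 where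
  Lf : Type
  Lab : Type
  Pa : Type
  C : Type
  Xi : Type
  Ph : Type
  [fLf : Fintype Lf]
  [dLf : DecidableEq Lf]
  [fLab : Fintype Lab]
  [dLab : DecidableEq Lab]
  [gLab : AddCommGroup Lab]
  [mLab : Module F2 Lab]
  [fPa : Fintype Pa]
  [nPa : Nonempty Pa]
  [fC : Fintype C]
  [gC : AddCommGroup C]
  [fXi : Fintype Xi]
  [gXi : AddCommGroup Xi]
  [fPh : Fintype Ph]
  [nPh : Nonempty Ph]
  leaf : Pa → Fin k → Lf
  lv : Pa → Lf → Option (Fin k)
  el : Pa → C → (Lf → A) → F2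
  uf : Pa → Xi → (Lf → A) → Lab
  sh : Pa → Ph → Lab ≃ Lab
  emb : (Fin k → A → F2) → C
  lv_leaf : ∀ p x, lv p (leaf p x) = some x
  el_zero : ∀ p ω, el p 0 ω = 0
  el_emb : ∀ p c u ω, el p (c + emb u) ω = el p c ω + ∑ x, u x (ω (leaf p x))

attribute [instance] Sys.fLf Sys.dLf Sys.fLab Sys.dLab Sys.gLab Sys.mLab Sys.fPa Sys.nPa Sys.fC
  Sys.gC Sys.fXi Sys.gXi Sys.fPh Sys.nPh

variable {A : Type} [Fintype A] [DecidableEq A] {k : ℕ}

/-- Restriction of an assignment to a child. -/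
def res {T L B : Type} (ω : T × L → B) (τ : T) : L → B := fun l => ω (τ, l)

/-- The folding bijection of one level. -/
def shE {T L V : Type} [DecidableEq T] [AddCommGroup V] [Module F2 V] (τ : T) (e : L ≃ L)
    (φ : L → V) : V × (T → L) ≃ V × (T → L) where
  toFun x := (x.1 + φ (e (x.2 τ)), update x.2 τ (e (x.2 τ)))
  invFun x := (x.1 - φ (x.2 τ), update x.2 τ (e.symm (x.2 τ)))
  left_inv x := by simp
  right_inv x := by simp

namespace Sys

/-- Block sums on the bottom leaves of the path. -/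
def e0 (S : Sys A k) (p : S.Pa) (u : Fin k → A → F2) : (S.Lf → A) → F2 :=
  fun ω => ∑ x, u x (ω (S.leaf p x))

/-- Special functions `g h + d`. -/
def sp (S : Sys A k) (p : S.Pa) (σ : Fin 3 → S.C) : (S.Lf → A) → F2 :=
  S.el p (σ 0) * S.el p (σ 1) + S.el p (σ 2)

/-- Parameters of one function of the next level. -/
abbrev CC (S : Sys A k) (t : ℕ) := (Fin (t + 1) → (S.Lf → A) → F2) × (Fin 3 → S.C)

/-- One function per child: generic off the path, special on the path. -/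
def col (S : Sys A k) {t : ℕ} (p : Fin (t + 1) × S.Pa) (c : S.CC t) :
    Fin (t + 1) × (S.Lf → A) → F2 :=
  fun i => if i.1 = p.1 then S.sp p.2 c.2 i.2 else c.1 i.1 i.2

/-- The bottom level. -/
def base (A : Type) [Fintype A] [DecidableEq A] (k l : ℕ) : Sys A k where
  Lf := Fin k
  Lab := Fin l → F2
  Pa := Unit
  C := Fin k → A → F2
  Xi := (Fin l → F2) → Fin k → A → F2
  Ph := Unit
  leaf _ x := x
  lv _ x := some x
  el _ c ω := ∑ x, c x (ω x)
  uf _ ξ ω := ∑ c, (∑ x, ξ c x (ω x)) • c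
  sh _ _ := Equiv.refl _
  emb u := u
  lv_leaf _ _ := rfl
  el_zero _ _ := by simp
  el_emb _ _ _ _ := by simp [sum_add_distrib]

/-- The next level: `t + 1` children, tables with `l` columns. -/
def step (S : Sys A k) (t l : ℕ) : Sys A k where
  Lf := Fin (t + 1) × S.Lf
  Lab := (Fin l → F2) × (Fin (t + 1) → S.Lab)
  Pa := Fin (t + 1) × S.Pa
  C := S.CC t
  Xi := ((Fin l → F2) → S.CC t) × (Fin (t + 1) → (S.Lf → A) → S.Lab) × S.Xi
  Ph := (S.Lab → Fin l → F2) × S.Ph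
  leaf p x := (p.1, S.leaf p.2 x)
  lv p i := if i.1 = p.1 then S.lv p.2 i.2 else none
  el p c ω := ∑ τ, S.col p c (τ, res ω τ)
  uf p ξ ω := (∑ c, (∑ τ, S.col p (ξ.1 c) (τ, res ω τ)) • c,
    fun τ => if τ = p.1 then S.uf p.2 ξ.2.2 (res ω τ) else ξ.2.1 τ (res ω τ))
  sh p φ := shE p.1 (S.sh p.2 φ.2) φ.1
  emb u := (0, ![0, 0, S.emb u])
  lv_leaf p x := by simp [S.lv_leaf]
  el_zero p ω := by simp [col, sp, S.el_zero]
  el_emb p c u ω := by
    have : ∀ τ, S.col p (c + (0, ![0, 0, S.emb u])) (τ, res ω τ) = S.col p c (τ, res ω τ) +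
        if τ = p.1 then ∑ x, u x (ω (p.1, S.leaf p.2 x)) else 0 := fun τ => by
      by_cases h : τ = p.1
      · simp [col, sp, h, S.el_emb, res, add_assoc]
      · simp [col, h]
    simp [this, sum_add_distrib]

/-- The leaf is a bottom leaf of the path and its coin is zero. -/
def rel (S : Sys A k) {P : ℕ} (p : S.Pa) (co : Fin k → Fin (P + 1)) (l : S.Lf) : Bool :=
  (S.lv p l).any fun x => decide (co x = 0)

end Sys

/-- A distinguished level of the tower: the direction that is forgotten, the parameters without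
that direction, the label of the path node, and the refreshing translations. -/
structure Mark (S : Sys A k) where
  l : ℕ
  dir : S.Pa → (Fin l → F2) → S.Lab
  drop : (Fin l → F2) → S.Xi → S.Xi
  pr : S.Pa → S.Lab → Fin l → F2
  mv : (Fin l → F2) → (Fin k → A → F2) → S.Xi

namespace Mark

/-- Test functions of a marked level. -/
def tf {S : Sys A k} (M : Mark S) (p : S.Pa) (ξ : S.Xi)
    (x : (Fin k → A → F2) × (Fin M.l → F2)) : (S.Lf → A) → F2 :=
  fun ω => S.e0 p x.1 ω + x.2 ⬝ᵥ M.pr p (S.uf p ξ ω)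

/-- The properties of a marked level. -/
structure Ok {S : Sys A k} (M : Mark S) : Prop where
  pr_add : ∀ p L L', M.pr p (L + L') = M.pr p L + M.pr p L'
  pr_smul : ∀ p (b : F2) L, M.pr p (b • L) = b • M.pr p L
  pr_dir : ∀ p a, M.pr p (M.dir p a) = a
  drop_mv : ∀ a u ξ, M.drop a (ξ + M.mv a u) = M.drop a ξ
  uf_mv : ∀ p a u ξ ω, S.uf p (ξ + M.mv a u) ω = S.uf p ξ ω + S.e0 p u ω • M.dir p a
  uf_drop : ∀ p a ξ ω, ∃ b : F2, S.uf p ξ ω = S.uf p (M.drop a ξ) ω + b • M.dir p a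
  kill : ∀ p z, (∀ σ, z ⬝ᵥ S.sp p σ = 0) → ∀ ξ x y, z ⬝ᵥ (M.tf p ξ x * M.tf p ξ y) = 0

/-- The bottom level. -/
def base (A : Type) [Fintype A] [DecidableEq A] (k l : ℕ) : Mark (Sys.base A k l) where
  l := l
  dir _ a := a
  drop a ξ := update (β := fun _ => Fin k → A → F2) ξ a 0
  pr _ L := L
  mv a u := (Pi.single a u : (Fin l → F2) → Fin k → A → F2)

/-- The top level. -/
def top (S : Sys A k) (t l : ℕ) : Mark (S.step t l) where
  l := l
  dir _ a := (a, 0)
  drop a ξ := (update ξ.1 a 0, ξ.2)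
  pr _ L := L.1
  mv a u := ((Pi.single a ((S.step t l).emb u) : (Fin l → F2) → S.CC t), 0)

/-- A level of the path child. -/
def lift {S : Sys A k} (M : Mark S) (t l : ℕ) : Mark (S.step t l) where
  l := M.l
  dir p a := (0, (Pi.single p.1 (M.dir p.2 a) : Fin (t + 1) → S.Lab))
  drop a ξ := (ξ.1, ξ.2.1, M.drop a ξ.2.2)
  pr p L := M.pr p.2 (L.2 p.1)
  mv a u := (0, 0, M.mv a u)

end Mark

/-- A left-regular label cover instance. -/
structure LCd (Sg Gm : Type) : Type 1 where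
  U : Type
  Dp : Type
  [fU : Fintype U]
  [nU : Nonempty U]
  [fD : Fintype Dp]
  [nD : Nonempty Dp]
  v : U × Dp → ℕ
  π : U × Dp → Sg → Gm

attribute [instance] LCd.fU LCd.nU LCd.fD LCd.nD

variable {Sg Gm : Type} [Fintype Sg] [DecidableEq Sg] [Nonempty Sg] [Fintype Gm] [DecidableEq Gm]
  [Nonempty Gm]

/-- The value is at most `s`. -/
def LCd.Snd (O : LCd Sg Gm) (s : ℝ) : Prop :=
  ∀ (A : O.U → Sg) (B : ℕ → Gm), 𝔼 e : O.U × O.Dp, ind (O.π e (A e.1) = B (O.v e)) ≤ s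

/-- Released leaves are projected. -/
def Sys.view (S : Sys (Sg ⊕ Gm) k) {P : ℕ} (πs : S.Lf → Sg → Gm) (p : S.Pa)
    (co : Fin k → Fin (P + 1)) (ω : S.Lf → Sg) : S.Lf → Sg ⊕ Gm :=
  fun l => if S.rel p co l then .inr (πs l (ω l)) else .inl (ω l)

/-- The sample space, with extra functions indexed by `N`. -/
structure Smp (O : LCd Sg Gm) (P : ℕ) (S : Sys (Sg ⊕ Gm) k) (N : Type) where
  us : S.Lf → O.U
  ds : S.Lf → O.Dp
  p : S.Pa
  co : Fin k → Fin (P + 1)
  xi : S.Xi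
  ph : S.Ph
  ex : N → S.C

/-- What a left vertex knows. -/
abbrev LI (O : LCd Sg Gm) (S : Sys (Sg ⊕ Gm) k) (N : Type) :=
  (S.Lf → O.U) × ((S.Lf → Sg) → S.Lab) × (N → (S.Lf → Sg) → F2)

/-- What a right vertex knows. -/
abbrev RI (O : LCd Sg Gm) (P : ℕ) (S : Sys (Sg ⊕ Gm) k) (N : Type) :=
  S.Pa × (Fin k → Fin (P + 1)) × (S.Lf → O.U ⊕ ℕ) × S.Xi × (N → S.C)

variable {O : LCd Sg Gm} {P : ℕ} {S : Sys (Sg ⊕ Gm) k} {N : Type} [Fintype N] [DecidableEq N]

namespace Smp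

/-- Samples as tuples. -/
def eqv : Smp O P S N ≃ (S.Lf → O.U) × (S.Lf → O.Dp) × S.Pa × (Fin k → Fin (P + 1)) × S.Xi ×
    S.Ph × (N → S.C) where
  toFun s := (s.us, s.ds, s.p, s.co, s.xi, s.ph, s.ex)
  invFun x := ⟨x.1, x.2.1, x.2.2.1, x.2.2.2.1, x.2.2.2.2.1, x.2.2.2.2.2.1, x.2.2.2.2.2.2⟩
  left_inv _ := rfl
  right_inv _ := rfl

instance : Fintype (Smp O P S N) := Fintype.ofEquiv _ eqv.symm

instance : Nonempty (Smp O P S N) := eqv.nonempty

lemma ex_smp (f : Smp O P S N → ℝ) : 𝔼 s, f s =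
    𝔼 us, 𝔼 ds, 𝔼 p, 𝔼 co, 𝔼 xi, 𝔼 ph, 𝔼 ex, f ⟨us, ds, p, co, xi, ph, ex⟩ := by
  rw [← ex_equiv eqv.symm]
  simp only [ex_prod]
  rfl

/-- The view of an assignment. -/
def vw (s : Smp O P S N) : (S.Lf → Sg) → S.Lf → Sg ⊕ Gm :=
  S.view (fun l => O.π (s.us l, s.ds l)) s.p s.co

/-- The view at one bottom leaf. -/
def vx (s : Smp O P S N) (x : Fin k) (a : Sg) : Sg ⊕ Gm :=
  if s.co x = 0 then .inr (O.π (s.us (S.leaf s.p x), s.ds (S.leaf s.p x)) a) else .inl a

lemma vw_leaf (s : Smp O P S N) (ω : S.Lf → Sg) (x : Fin k) :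
    s.vw ω (S.leaf s.p x) = s.vx x (ω (S.leaf s.p x)) := by
  simp [vw, vx, Sys.view, Sys.rel, S.lv_leaf]

/-- The folded table of the left vertex. -/
def vis (s : Smp O P S N) (ω : S.Lf → Sg) : S.Lab := S.sh s.p s.ph (S.uf s.p s.xi (s.vw ω))

/-- The left vertex. -/
def li (s : Smp O P S N) : LI O S N := (s.us, s.vis, fun n ω => S.el s.p (s.ex n) (s.vw ω))

/-- The right vertex, before a direction is forgotten. -/
def ri (s : Smp O P S N) : RI O P S N :=
  (s.p, s.co, fun l => if S.rel s.p s.co l then .inr (O.v (s.us l, s.ds l)) else .inl (s.us l),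
    s.xi, s.ex)

/-- Forget a direction. -/
def dr (s : Smp O P S N) (M : Mark S) (a : Fin M.l → F2) : Smp O P S N :=
  { s with xi := M.drop a s.xi }

/-- The constraint of the marked level holds. -/
def pass (s : Smp O P S N) (M : Mark S) (F : LI O S N → S.Lab)
    (G : (Fin M.l → F2) → RI O P S N → S.Lab) (a : Fin M.l → F2) : Prop :=
  ∃ b : F2, (S.sh s.p s.ph).symm (F s.li) = G a (s.dr M a).ri + b • M.dir s.p a

end Smp

variable (O P) (N)

/-- Two marked levels are rarely passed together. -/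
def PairLe (M M' : Mark S) (η : ℝ) : Prop :=
  ∀ (F : LI O S N → S.Lab) (G : (Fin M.l → F2) → RI O P S N → S.Lab)
    (G' : (Fin M'.l → F2) → RI O P S N → S.Lab),
    𝔼 s : Smp O P S N, 𝔼 a : NZ M.l, 𝔼 a' : NZ M'.l, ind (s.pass M F G a ∧ s.pass M' F G' a') ≤ η

variable (S) in
/-- The game on the bottom leaves with small odd sets as answers. -/
def GameLe (K : ℕ) (v : ℝ) : Prop :=
  ∀ (nl : S.Pa → LI O S N → Fin k → Sg → F2) (nr : RI O P S N → Fin k → Sg ⊕ Gm → F2),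
    𝔼 s : Smp O P S N, ind (∀ x, nr s.ri x = push (s.vx x) (nl s.p s.li x) ∧
      #{b | nr s.ri x b ≠ 0} ≤ K ∧ ∑ a, nl s.p s.li x a = 1) ≤ v

/-- A left functional that respects the folding rarely agrees with a right functional on all
special functions. -/
def FinLe (M : Mark S) (v : ℝ) : Prop :=
  ∀ (Z : S.Pa → LI O S N → (S.Lf → Sg) → F2)
    (Z' : (Fin M.l → F2) → RI O P S N → (S.Lf → Sg ⊕ Gm) → F2),
    𝔼 s : Smp O P S N, 𝔼 a : NZ M.l,
      ind ((∀ σ, (push s.vw (Z s.p s.li) + Z' a (s.dr M a).ri) ⬝ᵥ S.sp s.p σ = 0) ∧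
        ∃ α, ∀ ψ : S.Lab → F2, Z s.p s.li ⬝ᵥ (ψ ∘ s.vis) = ψ α) ≤ v

variable {O P N}

/-- The extra functions one level down. -/
abbrev Nx (N : Type) (l : ℕ) := (N ⊕ (Fin l → F2)) × Fin 3

/-- Data of the children, and the table of the top node. -/
abbrev Amb (t : ℕ) (D Ω κ : Type) := (Fin t → D) × Matrix (Fin t × Ω) κ F2

variable (S N) in
/-- What the left vertex sees of one child, apart from the table of the top node. -/
abbrev D0 := ((S.Lf → Sg) → S.Lab) × (N → (S.Lf → Sg) → F2)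

namespace Smp

variable {t l : ℕ}

/-- Replace everything below the path child. -/
def patch (s0 : Smp O P (S.step t l) N) (s : Smp O P S (Nx N l)) : Smp O P (S.step t l) N where
  us i := if i.1 = s0.p.1 then s.us i.2 else s0.us i
  ds i := if i.1 = s0.p.1 then s.ds i.2 else s0.ds i
  p := (s0.p.1, s.p)
  co := s.co
  xi := (fun c => ((s0.xi.1 c).1, fun j => s.ex (.inr c, j)), s0.xi.2.1, s.xi)
  ph := (s0.ph.1, s.ph)
  ex n := ((s0.ex n).1, fun j => s.ex (.inl n, j))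

/-- The view, child by child. -/
def vwc (s : Smp O P (S.step t l) N) (i : Fin (t + 1) × (S.Lf → Sg)) :
    Fin (t + 1) × (S.Lf → Sg ⊕ Gm) :=
  (i.1, if i.1 = s.p.1 then
    S.view (fun j => O.π (s.us (i.1, j), s.ds (i.1, j))) s.p.2 s.co i.2 else Sum.inl ∘ i.2)

/-- The folded table of the path child. -/
def low (s : Smp O P (S.step t l) N) (w : S.Lf → Sg) : S.Lab :=
  S.sh s.p.2 s.ph.2 (S.uf s.p.2 s.xi.2.2 (s.vwc (s.p.1, w)).2)

/-- The left vertex, child by child. -/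
def mm (s : Smp O P (S.step t l) N) : Amb (t + 1) (D0 S N) (S.Lf → Sg) (Fin l) :=
  (fun τ => (fun w => if τ = s.p.1 then s.low w else s.xi.2.1 τ (Sum.inl ∘ w),
      fun n w => S.col s.p (s.ex n) (s.vwc (τ, w))),
    Matrix.of fun i j => ∑ c, S.col s.p (s.xi.1 c) (s.vwc i) * c j +
      if i.1 = s.p.1 then s.ph.1 (s.low i.2) j else 0)

end Smp

/-- The left vertex from the data of the children. -/
def asm {t l : ℕ} (us : (S.step t l).Lf → O.U) (x : Amb (t + 1) (D0 S N) (S.Lf → Sg) (Fin l)) :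
    LI O (S.step t l) N :=
  (us, fun ω => (fun j => ∑ τ, x.2 (τ, res ω τ) j, fun τ => (x.1 τ).1 (res ω τ)),
    fun n ω => ∑ τ, (x.1 τ).2 n (res ω τ))

end Vale.Agent.P339
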