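import Vale.Agent.P339.Defs
import Vale.Agent.P325.SoundA

/-! More definitions. -/

namespace Vale.Agent.P339

open Finset Matrix Vale.Agent.P325 Function
open scoped BigOperators

set_option linter.unusedSectionVars false

/-- Every functional that does not vanish on the family takes both values with probability at
least `τ`. -/
def Bal {C Ω : Type} [Fintype C] [Fintype Ω] (τ : ℝ) (f : C → Ω → F2) : Prop :=
  ∀ z : Ω → F2, (∃ c, z ⬝ᵥ f c ≠ 0) → ∀ b, τ ≤ 𝔼 c, ind (z ⬝ᵥ f c = b)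

/-- The law of `mm τ` is invariant under translations that vanish on the child `τ`. -/
def Inv {t : ℕ} {D Ω κ Z : Type} [AddCommGroup D] (mm : Fin t → Z → Amb t D Ω κ) : Prop :=
  ∀ τ (v : Amb t D Ω κ), v.1 τ = 0 → (∀ w j, v.2 (τ, w) j = 0) →
    ∃ e : Z ≃ Z, ∀ z, mm τ (e z) = mm τ z + v

/-- The defect of multiplicativity of a functional. -/
def cov {Ω : Type} [Fintype Ω] (z f g : Ω → F2) : F2 := z ⬝ᵥ (f * g) + (z ⬝ᵥ f) * (z ⬝ᵥ g)

/-- Some label is dense in a zoom inside the advice class of `x`. -/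
def Good' {ι κ D Λ : Type} [Fintype ι] [Fintype κ] [DecidableEq ι] [DecidableEq κ] (r : ℕ) (γ : ℝ)
    (w : Λ → D × Matrix ι κ F2 → ℝ) (T : Matrix κ κ F2) (x : D × Matrix ι κ F2) : Prop :=
  ∃ (P : Matrix ι ι F2) (α : Λ) (X : Matrix ι κ F2), P * P = P ∧ P.rank ≤ r ∧
    γ < 𝔼 X' : Matrix ι κ F2, w α (x.1, x.2 + X * (1 + T) + (1 + P) * X' * (1 + T))

/-- The advice. -/
def cl {ι κ D : Type} [Fintype κ] (T : Matrix κ κ F2) (x : D × Matrix ι κ F2) :
    D × Matrix ι κ F2 := (x.1, x.2 * T)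

/-- The part of the table that is resampled. -/
def Mg {ι ι' C : Type} {l : ℕ} (f : C → ι' → F2) (vw : ι → ι') (T : Matrix (Fin l) (Fin l) F2)
    (g : (Fin l → F2) → C) : Matrix ι (Fin l) F2 :=
  Matrix.of fun i j => ∑ c, if c ᵥ* T = 0 then f (g c) (vw i) * c j else 0

/-- The part of the folding that is resampled. -/
def Fo {ι Λ : Type} {l : ℕ} (lo : ι → Option Λ) (T : Matrix (Fin l) (Fin l) F2)
    (ψ : Λ → Fin l → F2) : Matrix ι (Fin l) F2 :=
  Matrix.of fun i => (lo i).elim 0 fun y => ψ y ᵥ* (1 + T)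

/-- The bound for the game on the bottom leaves: `q` functions per leaf, alphabets of sizes `a`
and `b`. -/
noncomputable def gv (q a b P k : ℕ) : ℝ :=
  2 ^ (q * a) / P + (1 - (2 * 2 ^ (q * b) : ℝ)⁻¹ ^ 2 / (50 * (P + 1))) ^ k

section
variable {A : Type} [Fintype A] [DecidableEq A]

/-- The tower. -/
def tower (A : Type) [Fintype A] [DecidableEq A] (k : ℕ) (l t : ℕ → ℕ) : ℕ → Sys A k
  | 0 => Sys.base A k (l 0)
  | j + 1 => (tower A k l t j).step (t j) (l (j + 1))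

/-- The levels of the tower, from the top. -/
def marks (A : Type) [Fintype A] [DecidableEq A] (k : ℕ) (l t : ℕ → ℕ) :
    (j : ℕ) → Fin (j + 1) → Mark (tower A k l t j)
  | 0, _ => Mark.base A k (l 0)
  | j + 1, i => Fin.cases (Mark.top (tower A k l t j) (t j) (l (j + 1)))
      (fun i => (marks A k l t j i).lift (t j) (l (j + 1))) i

end

variable {Sg Gm : Type} [Fintype Sg] [DecidableEq Sg] [Nonempty Sg] [Fintype Gm] [DecidableEq Gm]
  [Nonempty Gm] {k : ℕ} {O : LCd Sg Gm} {P : ℕ} {S : Sys (Sg ⊕ Gm) k} {N : Type} [Fintype N]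
  [DecidableEq N] {t l : ℕ}

variable (O P) in
/-- The value of the game is at most `δ`. -/
def AccLe {m : ℕ} (M : Fin (m + 1) → Mark S) (δ : ℝ) : Prop :=
  ∀ (F : LI O S Empty → S.Lab) (G : ∀ i, (Fin (M i).l → F2) → RI O P S Empty → S.Lab),
    𝔼 i, 𝔼 s : Smp O P S Empty, 𝔼 a : NZ (M i).l, ind (s.pass (M i) F (G i) a) ≤ δ

variable (O P S N t l) in
/-- A sample without the left vertices and the path child. -/
abbrev Zt := (Fin (t + 1) × S.Lf → O.Dp) × S.Pa × (Fin k → Fin (P + 1)) × (S.step t l).Xi ×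
  (S.step t l).Ph × (N → (S.step t l).C)

/-- The sample with given left vertices and path child. -/
def mkS (us : Fin (t + 1) × S.Lf → O.U) (τ : Fin (t + 1)) (z : Zt O P S N t l) :
    Smp O P (S.step t l) N :=
  ⟨us, z.1, (τ, z.2.1), z.2.2.1, z.2.2.2.1, z.2.2.2.2.1, z.2.2.2.2.2⟩

lemma ex_mkS (f : Smp O P (S.step t l) N → ℝ) :
    𝔼 s, f s = 𝔼 us, 𝔼 τ, 𝔼 z : Zt O P S N t l, f (mkS us τ z) := by
  rw [Smp.ex_smp]
  refine congrArg _ (funext fun us => ?_)
  simp only [ex_prod]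
  rw [ex_comm]
  exact (ex_prod fun p : Fin (t + 1) × S.Pa => _).trans (congrArg _ (funext fun τ => ex_comm _))

/-- The left labels of `x` and of `x` moved by `n` in the direction `a` agree modulo `a`. -/
def Ag (F : LI O (S.step t l) N → (Fin l → F2) × (Fin (t + 1) → S.Lab))
    (us : Fin (t + 1) × S.Lf → O.U) (x : Amb (t + 1) (D0 S N) (S.Lf → Sg) (Fin l))
    (a : Fin l → F2) (n : Fin (t + 1) × (S.Lf → Sg) → F2) : Prop :=
  ∃ b : F2, F (asm us (x.1, x.2 + vecMulVec n a)) = ((F (asm us x)).1 + b • a, (F (asm us x)).2)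

/-- The left label predicted by a right vertex of a lower level and one more bit. -/
def Smp.lb (s : Smp O P (S.step t l) N) (M : Mark S)
    (G : (Fin M.l → F2) → RI O P (S.step t l) N → (S.step t l).Lab) (a : Fin M.l → F2) (β : F2) :
    (Fin l → F2) × (Fin (t + 1) → S.Lab) :=
  (S.step t l).sh s.p s.ph (G a (s.dr (M.lift t l) a).ri + β • (M.lift t l).dir s.p a)

/-- The lists of the two provers contain consistent functionals. -/
def Smp.Dec (s : Smp O P (S.step t l) N) (h : Fin (t + 1) × (S.Lf → Sg) → F2)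
    (Q : Matrix (Fin (t + 1) × (S.Lf → Sg)) (Fin (t + 1) × (S.Lf → Sg)) F2)
    (L : Finset (Fin (t + 1) × (S.Lf → Sg ⊕ Gm) → F2)) : Prop :=
  ∃ Z, (∃ y, Z = Qᵀ *ᵥ y + h) ∧ ∃ z ∈ L, (∀ x, (push s.vwc Z + z) ⬝ᵥ S.col s.p x = 0) ∧
    ∃ α, ∀ ψ : S.Lab → F2, ∑ w, Z (s.p.1, w) * ψ (s.low w) = ψ α

end Vale.Agent.P339
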