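import Vale.Agent.P339.Defs2

/-! Small rank gives small supports on the leaves. -/

namespace Vale.Agent.P339

open Finset Matrix Vale.Agent.P325 Function
open scoped BigOperators

set_option linter.unusedSectionVars false

variable {A : Type} [Fintype A] [DecidableEq A] {k : ℕ}

lemma supp_sub {G H : Type} [Fintype G] [Fintype H] [AddCommGroup G] [AddCommGroup H] {φ : H → G}
    (hφ : ∀ x y, φ (x + y) = φ x + φ y) (R : G → Prop) (hR : ∀ u v, R u → R (u + v) → R v) :
    𝔼 u, ind (R u) ≤ 𝔼 g, ind (R (φ g)) := by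
  have k : 𝔼 u, ind (R u) = 𝔼 u, 𝔼 g, ind (R (u + φ g)) := by
    rw [ex_comm, funext fun g => ex_shift (φ g) fun u => ind (R u), Fintype.expect_const]
  rw [k]
  refine ex_le fun u => ?_
  by_cases h : ∃ g, R (u + φ g)
  · obtain ⟨g0, h0⟩ := h
    rw [← ex_shift' g0 fun g => ind (R (u + φ g))]
    exact ex_mono fun g => ind_mono fun hg => hR _ _ h0 (by rwa [hφ, ← add_assoc] at hg)
  · exact ex_mono fun g => ind_mono fun hg => absurd ⟨g, hg⟩ h

lemma supp_const (n : A → F2) :
    𝔼 g : A → F2, ind (∃ t, ∀ b, n b ≠ 0 → g b = t) ≤ 2 * (1 / 2) ^ #{b | n b ≠ 0} := by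
  refine (ex_mono fun g => ind_exists_le _).trans (le_of_eq ?_)
  have k : ∀ t : F2, 𝔼 g : A → F2, ind (∀ b, n b ≠ 0 → g b = t) = (1 / 2) ^ #{b | n b ≠ 0} :=
    fun t => by
      simp only [ind_forall fun b => n b ≠ 0 → _]
      rw [ex_pi_prod fun b a => ind (n b ≠ 0 → a = t), ← prod_const, prod_filter]
      refine prod_congr rfl fun b _ => ?_
      split_ifs with hb
      · simp [hb, ind_eq_ite]
      · simp [hb, ind_pos]
  rw [ex_sum]
  simp only [k]
  simp

lemma supp_e0 (S : Sys A k) (p : S.Pa) (x : Fin k) (g : A → F2) :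
    S.e0 p (Pi.single x g) = g ∘ fun ω => ω (S.leaf p x) := by
  funext ω
  rw [Sys.e0, sum_eq_single x (fun y _ hy => by rw [Pi.single_eq_of_ne hy]; rfl) (by simp),
    Pi.single_eq_same]
  rfl

lemma supp_add (S : Sys A k) (p : S.Pa) (z f : (S.Lf → A) → F2) (u v : Fin k → A → F2) :
    cov z f (S.e0 p (u + v)) = cov z f (S.e0 p u) + cov z f (S.e0 p v) := by
  have e : S.e0 p (u + v) = S.e0 p u + S.e0 p v := by
    funext ω
    simp [Sys.e0, sum_add_distrib]
  simp only [cov, e, mul_add, dotProduct_add]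
  ring

/-- Let `n = push (fun ω => ω (S.leaf p x)) z`; `S.e0 p (Pi.single x g) = g ∘ fun ω => ω (leaf)`.
The set `Rd` of `u` with `cov z (e0 (single x h)) (e0 u) = 0` for all `h` is a subgroup, so
`𝔼 u, ind (u ∈ Rd) = 𝔼 u, 𝔼 g, ind (u + single x g ∈ Rd) ≤ 𝔼 g, ind (single x g ∈ Rd)`; and
`single x g ∈ Rd` says `n b * g b = n b * (n ⬝ᵥ g)` for all `b` (test `h = single b 1`), so `g` is
constant `0` or constant `1` on the support, of probability `≤ 2 * (1 / 2) ^ m`
(`ind_forall`, `ex_pi_prod`). -/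
theorem supp_le (S : Sys A k) (p : S.Pa) (z : (S.Lf → A) → F2) {c : ℝ} (hc : 0 < c)
    (h : c ≤ 𝔼 u, ind (∀ u', cov z (S.e0 p u') (S.e0 p u) = 0)) (x : Fin k) :
    (2 : ℝ) ^ #{b | push (fun ω : S.Lf → A => ω (S.leaf p x)) z b ≠ 0} ≤ 2 / c := by
  have k1 := supp_sub (φ := fun g : A → F2 => (Pi.single x g : Fin k → A → F2))
    (fun g g' => Pi.single_add (f := fun _ : Fin k => A → F2) x g g')
    (fun u => ∀ u', cov z (S.e0 p u') (S.e0 p u) = 0)
    fun u v h1 h2 u' => by
      have := h2 u'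
      rwa [supp_add, h1, zero_add] at this
  have k2 := (h.trans k1).trans ((ex_mono fun g => ind_mono fun hg => ?_).trans
    (supp_const (push (fun ω : S.Lf → A => ω (S.leaf p x)) z)))
  · rw [le_div_iff₀ hc]
    have := mul_le_mul_of_nonneg_left k2
      (pow_nonneg zero_le_two #{b | push (fun ω : S.Lf → A => ω (S.leaf p x)) z b ≠ 0})
    rwa [mul_left_comm, ← mul_pow, mul_one_div_cancel two_ne_zero, one_pow, mul_one] at this
  · refine ⟨push (fun ω : S.Lf → A => ω (S.leaf p x)) z ⬝ᵥ g, fun b hb => ?_⟩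
    have k3 := hg (Pi.single x (Pi.single b 1))
    rw [supp_e0, supp_e0, cov, ← Pi.mul_comp, ← push_dot, ← push_dot, ← push_dot,
      ← Pi.single_mul_left, dotProduct_single, dotProduct_single, (F2.cases _).resolve_left hb,
      add_eq_zero_iff] at k3
    simpa using k3

end Vale.Agent.P339
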