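import Vale.Agent.P339.Rank
import Vale.Agent.P339.Supp

/-! From the game on the leaves to functionals. -/

namespace Vale.Agent.P339

open Finset Matrix Vale.Agent.P325 Function
open scoped BigOperators

set_option linter.unusedSectionVars false

variable {Sg Gm : Type} [Fintype Sg] [DecidableEq Sg] [Nonempty Sg] [Fintype Gm] [DecidableEq Gm]
  [Nonempty Gm] {k : ℕ} {O : LCd Sg Gm} {P : ℕ} {S : Sys (Sg ⊕ Gm) k} {N : Type} [Fintype N]
  [DecidableEq N] {t l : ℕ}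

section
variable {A W : Type} [Fintype A] [DecidableEq A] [Fintype W] {T : Sys A k}

lemma finB_cov_left (z f f' g : W → F2) : cov z (f + f') g = cov z f g + cov z f' g := by
  simp only [cov, add_mul, dotProduct_add]
  ring

lemma finB_cov_right (z f g g' : W → F2) : cov z f (g + g') = cov z f g + cov z f g' := by
  simp only [cov, mul_add, dotProduct_add]
  ring

lemma finB_mul_self (f : W → F2) : f * f = f := by
  funext w
  rcases F2.cases (f w) with h | h <;> simp [h]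

lemma finB_eq {a b : F2} (h : a + b = 0) : a = b := by
  rw [← add_zero a, ← F2.add_self b, ← add_assoc, h, zero_add]

lemma finB_tf_add (M : Mark T) (p : T.Pa) (ξ : T.Xi)
    (x y : (Fin k → A → F2) × (Fin M.l → F2)) : M.tf p ξ (x + y) = M.tf p ξ x + M.tf p ξ y := by
  funext ω
  simp only [Mark.tf, Sys.e0, Prod.fst_add, Prod.snd_add, Pi.add_apply, sum_add_distrib,
    add_dotProduct]
  ring

lemma finB_tf_zero (M : Mark T) (p : T.Pa) (ξ : T.Xi) (u : Fin k → A → F2) :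
    M.tf p ξ (u, 0) = T.e0 p u := by
  funext ω
  simp [Mark.tf]

lemma finB_tf_mv {M : Mark T} (hM : M.Ok) (p : T.Pa) (ξ : T.Xi) (a : Fin M.l → F2)
    (u : Fin k → A → F2) (x : (Fin k → A → F2) × (Fin M.l → F2)) :
    M.tf p (ξ + M.mv a u) x = M.tf p ξ (x.1 + (x.2 ⬝ᵥ a) • u, x.2) := by
  funext ω
  simp only [Mark.tf, hM.uf_mv, hM.pr_add, hM.pr_smul, hM.pr_dir, dotProduct_add,
    dotProduct_smul, Sys.e0, Pi.add_apply, Pi.smul_apply, smul_eq_mul, sum_add_distrib, ← mul_sum]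
  ring

lemma finB_e0_single (p : T.Pa) (x : Fin k) (h : A → F2) :
    T.e0 p (Pi.single x h) = h ∘ fun ω : T.Lf → A => ω (T.leaf p x) := by
  funext ω
  simp only [Sys.e0, Function.comp]
  rw [sum_eq_single x]
  · simp
  · intro y _ hy
    simp [Pi.single_eq_of_ne hy]
  · simp

lemma finB_kill {M : Mark T} (hM : M.Ok) {p : T.Pa} {z z' : (T.Lf → A) → F2}
    (h : ∀ σ, (z + z') ⬝ᵥ T.sp p σ = 0) (ξ : T.Xi) :
    (∀ x y, z ⬝ᵥ (M.tf p ξ x * M.tf p ξ y) = z' ⬝ᵥ (M.tf p ξ x * M.tf p ξ y)) ∧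
      ∀ x, z ⬝ᵥ M.tf p ξ x = z' ⬝ᵥ M.tf p ξ x := by
  have h1 : ∀ x y, z ⬝ᵥ (M.tf p ξ x * M.tf p ξ y) = z' ⬝ᵥ (M.tf p ξ x * M.tf p ξ y) :=
    fun x y => finB_eq (by rw [← add_dotProduct]; exact hM.kill p _ h ξ x y)
  refine ⟨h1, fun x => ?_⟩
  have := h1 x x
  rwa [finB_mul_self] at this

end

/-- Translation of the parameters of the tables. -/
def finBmv (c : S.Xi) : Smp O P S N ≃ Smp O P S N where
  toFun s := { s with xi := s.xi + c }
  invFun s := { s with xi := s.xi - c }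
  left_inv s := by simp
  right_inv s := by simp

lemma finB_fold (M : Mark S) (s : Smp O P S N) (w : Fin M.l → F2) :
    M.tf s.p s.xi (0, w) ∘ s.vw =
      (fun L => w ⬝ᵥ M.pr s.p ((S.sh s.p s.ph).symm L)) ∘ s.vis := by
  funext ω
  simp [Mark.tf, Sys.e0, Smp.vis]

/-- `rank_bound` with `Ω = Smp ..`, `V = Fin k → Sg ⊕ Gm → F2`,
`BL s x y = cov (push s.vw (Z s.p s.li)) (M.tf s.p s.xi x) (M.tf s.p s.xi y)`, `BR` the same with
`Z' a (s.dr M a).ri`, `mv a u s = {s with xi := s.xi + M.mv a u}` (`drop_mv`, `uf_mv`, `pr_*`).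
On the event: `BL = BR` by `kill` (use `f * f = f` for the linear terms); the folding tested on
`ψ L = (w ⬝ᵥ pr (sh.symm L)) * (w' ⬝ᵥ pr (sh.symm L))` and on the factors gives
`BL (0, w) (0, w') = 0`. On the rest of the event `supp_le` bounds the supports of
`nr r x = push (fun ω => ω (S.leaf r.1 x)) (Z' a (r with dropped xi))` by `K`,
`nl p i x = push (fun ω => ω (S.leaf p x)) (Z p i)` has sum one (`ψ = 1`), and
`nr = push (s.vx x) nl` by `kill` on `(Pi.single x h, 0)`, `push_dot`, `vw_leaf`. Use `hG` for each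
fixed `a` (`ex_comm`). -/
theorem fin_le {M : Mark S} (hM : M.Ok) {K : ℕ} {v ε : ℝ} (hv : 0 ≤ v) (hG : GameLe O P S N K v)
    (hε : 0 < ε) (h1 : 4 / ε ^ 2 ≤ 2 ^ M.l) (h2 : 2 * 2 ^ M.l / ε ≤ 2 ^ K) :
    FinLe O P N M (3 * ε + v) := by
  intro Z Z'
  have hr := rank_bound (Ω := Smp O P S N) (V := Fin k → Sg ⊕ Gm → F2)
    (fun s x y => cov (push s.vw (Z s.p s.li)) (M.tf s.p s.xi x) (M.tf s.p s.xi y))
    (fun s a x y => cov (Z' a (s.dr M a).ri) (M.tf s.p s.xi x) (M.tf s.p s.xi y))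
    (fun s a x x' y => by rw [finB_tf_add, finB_cov_left])
    (fun s a x y y' => by rw [finB_tf_add, finB_cov_right])
    (fun a u => finBmv (M.mv a u))
    (fun a u s x y => by
      have e1 : (finBmv (M.mv a u) s).dr M a = s.dr M a := by
        simp [finBmv, Smp.dr, hM.drop_mv]
      rw [e1]
      change cov _ (M.tf s.p (s.xi + M.mv a u) x) (M.tf s.p (s.xi + M.mv a u) y) = _
      rw [finB_tf_mv hM, finB_tf_mv hM])
    (fun s a => (∀ σ, (push s.vw (Z s.p s.li) + Z' a (s.dr M a).ri) ⬝ᵥ S.sp s.p σ = 0) ∧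
        ∃ α, ∀ ψ : S.Lab → F2, Z s.p s.li ⬝ᵥ (ψ ∘ s.vis) = ψ α)
    (fun s a ⟨hk, α, hα⟩ => by
      obtain ⟨k1, k2⟩ := finB_kill hM hk s.xi
      refine ⟨funext fun x => funext fun y => by simp only [cov, k1, k2], fun w w' => ?_⟩
      have e1 : (M.tf s.p s.xi (0, w) * M.tf s.p s.xi (0, w')) ∘ s.vw =
          (fun L => (w ⬝ᵥ M.pr s.p ((S.sh s.p s.ph).symm L)) *
            (w' ⬝ᵥ M.pr s.p ((S.sh s.p s.ph).symm L))) ∘ s.vis := by
        funext ω
        exact congrArg₂ (· * ·) (congrFun (finB_fold M s w) ω) (congrFun (finB_fold M s w') ω)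
      simp only [cov, push_dot]
      rw [e1, finB_fold, finB_fold, hα, hα, hα]
      exact F2.add_self _)
    hε h1
  have hg : ∀ a : NZ M.l, 𝔼 s : Smp O P S N,
      ind (((∀ σ, (push s.vw (Z s.p s.li) + Z' a (s.dr M a).ri) ⬝ᵥ S.sp s.p σ = 0) ∧
        ∃ α, ∀ ψ : S.Lab → F2, Z s.p s.li ⬝ᵥ (ψ ∘ s.vis) = ψ α) ∧
        ε / 2 ^ M.l ≤ 𝔼 u, ind (∀ u', cov (Z' a (s.dr M a).ri) (M.tf s.p s.xi (u', 0))
          (M.tf s.p s.xi (u, 0)) = 0)) ≤ v := fun a => by
    refine le_trans (ex_mono fun s => ind_mono ?_) (hG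
      (fun p i x => push (fun ω : S.Lf → Sg => ω (S.leaf p x)) (Z p i))
      (fun r x => push (fun ω : S.Lf → Sg ⊕ Gm => ω (S.leaf r.1 x))
        (Z' a (r.1, r.2.1, r.2.2.1, M.drop a r.2.2.2.1, r.2.2.2.2))))
    rintro ⟨⟨hk, α, hα⟩, hq⟩ x
    obtain ⟨-, k2⟩ := finB_kill hM hk s.xi
    simp only [finB_tf_zero] at hq
    refine ⟨funext fun b => ?_, ?_, ?_⟩
    · have e1 := k2 (Pi.single x (Pi.single b 1), 0)
      rw [finB_tf_zero, finB_e0_single, ← push_dot _ (Z' a (s.dr M a).ri), dotProduct_single_one,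
        push_dot] at e1
      refine e1.symm.trans ?_
      rw [← dotProduct_single_one (push (s.vx x) _) b, push_dot, push_dot]
      congr 1
      funext ω
      simp only [Function.comp, Smp.vw_leaf]
    · have e1 := supp_le S s.p (Z' a (s.dr M a).ri) (by positivity) hq x
      rw [div_div_eq_mul_div] at e1
      exact (pow_le_pow_iff_right₀ (by norm_num : (1 : ℝ) < 2)).1 (e1.trans h2)
    · have e1 := hα 1
      have e2 := push_dot (fun ω : S.Lf → Sg => ω (S.leaf s.p x)) (Z s.p s.li) 1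
      rw [dotProduct_one] at e2
      exact e2.trans e1
  have hne : ∀ f : NZ M.l → ℝ, (∀ a, f a ≤ v) → 𝔼 a, f a ≤ v := fun f hf => by
    rcases isEmpty_or_nonempty (NZ M.l) with h | h
    · simpa using hv
    · exact ex_le hf
  refine le_trans ?_ (add_le_add hr ((ex_comm _).trans_le (hne _ hg)))
  rw [← ex_add]
  refine ex_mono fun s => ?_
  rw [← ex_add]
  refine ex_mono fun a => le_trans (ind_mono fun h => ?_) (ind_or_le _ _)
  exact (lt_or_ge _ _).imp (fun h' => ⟨h, h'⟩) (fun h' => ⟨h, h'⟩)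

end Vale.Agent.P339
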