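import Vale.Agent.P339.Defs2
import Vale.Agent.P325.SoundC

/-! From a dense zoom to a positive correlation. -/

namespace Vale.Agent.P339

open Finset Matrix Vale.Agent.P325 Function
open scoped BigOperators

set_option linter.unusedSectionVars false

lemma zoom_class {ι κ : Type} [Fintype ι] [DecidableEq ι] [Fintype κ] [DecidableEq κ]
    {T : Matrix κ κ F2} (hT : T * T = T) {P : Matrix ι κ F2 → Matrix ι ι F2}
    (hP : ∀ M, P M * P M = P M) (X0 : Matrix ι κ F2 → Matrix ι κ F2)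
    (u : Matrix ι κ F2 → Matrix ι κ F2 → ℝ) :
    𝔼 M : Matrix ι κ F2,
        ind (P (M * T) * (M + (M * T + X0 (M * T) * (1 + T))) = 0) * u (M * T) M =
      𝔼 M : Matrix ι κ F2, (𝔼 X : Matrix ι κ F2, ind (P (M * T) * (X * (1 + T)) = 0)) *
        𝔼 X : Matrix ι κ F2, u (M * T)
          (M * T + X0 (M * T) * (1 + T) + (1 + P (M * T)) * X * (1 + T)) := by
  have h0 : (1 + T) * T = 0 := by rw [Matrix.add_mul, hT, Matrix.one_mul, mat_add_self]
  rw [← Fintype.expect_const (ι := Matrix ι κ F2) (𝔼 M, _ * u _ M),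
    funext fun X : Matrix ι κ F2 => (ex_shift (X * (1 + T)) _).symm, ex_comm]
  refine congrArg _ (funext fun M => ?_)
  rw [← zoom_ex (hP _) (1 + T) fun N => u (M * T) (M * T + X0 (M * T) * (1 + T) + N),
    ← ex_shift' (M + X0 (M * T))]
  refine congrArg _ (funext fun X => ?_)
  have e0 : ∀ Y : Matrix ι κ F2, (M + Y * (1 + T)) * T = M * T := fun Y => by
    rw [Matrix.add_mul, Matrix.mul_assoc, h0, Matrix.mul_zero, add_zero]
  have e : M + (M + X0 (M * T) + X) * (1 + T) =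
      M * T + X0 (M * T) * (1 + T) + X * (1 + T) := by
    rw [Matrix.add_mul, Matrix.add_mul, Matrix.mul_add M, Matrix.mul_one, ← add_assoc, ← add_assoc,
      ← add_assoc, mat_add_self, zero_add]
  rw [e0, e, add_right_comm, mat_add_self, zero_add]

/-- Copy steps `d0 d1 d2` of `P325.Par.decode` and `class_ex` (file P325/SoundC) with `U = 1 + T`,
`cl T x = (x.1, x.2 * T)` (note `M * T = M + M * (1 + T)`). Choose `P α X0` from `Good'` at the
point `c` (or `0` if it fails), `H = Good' r γ (dens mm lb) T`, `M0 c = c.2 + X0 c * (1 + T)`.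
With `Z = 𝔼 x, ζ x * ind (H (cl T x))`: `(2 ^ r)⁻¹ ^ l * (Pr Good' - τ) ≤ Z` (`zeta_ge`,
`rho_dev`), `γ * Z ≤ 𝔼 h * ind (lb = α)`, `𝔼 h ≤ Z + τ`. -/
theorem zoom {l r : ℕ} {γ τ : ℝ} {ι D Ξ Λ : Type} [Fintype ι] [DecidableEq ι] [Fintype D]
    [Nonempty D] [Fintype Ξ] [Nonempty Ξ] [Fintype Λ] (mm : Ξ → D × Matrix ι (Fin l) F2)
    (lb : Ξ → Λ) {T : Matrix (Fin l) (Fin l) F2} (hT : T * T = T)
    (h1 : (2 : ℝ) ^ r / 2 ^ l ≤ γ / 2) (h2 : (2 : ℝ) ^ r / 2 ^ l ≤ 1) (hτ : 0 ≤ τ)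
    (hc : 𝔼 x, (rho mm x - 1) ^ 2 ≤ τ ^ 2) :
    ∃ (Q : D × Matrix ι (Fin l) F2 → Matrix ι ι F2)
      (M0 : D × Matrix ι (Fin l) F2 → Matrix ι (Fin l) F2) (α : D × Matrix ι (Fin l) F2 → Λ)
      (H : D × Matrix ι (Fin l) F2 → Prop), (∀ x, (Q x).rank ≤ r) ∧
      γ / 2 * (2 ^ r : ℝ)⁻¹ ^ l * (𝔼 ξ, ind (Good' r γ (dens mm lb) T (mm ξ)) - τ) - τ ≤
        𝔼 ξ, ind (H (cl T (mm ξ)) ∧ Q (cl T (mm ξ)) * ((mm ξ).2 + M0 (cl T (mm ξ))) = 0) *
          (ind (lb ξ = α (cl T (mm ξ))) - 2 ^ r / 2 ^ l) := by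
  set w := dens mm lb with hw
  have hch : ∀ x : D × Matrix ι (Fin l) F2, ∃ (P : Matrix ι ι F2) (α : Λ)
      (X : Matrix ι (Fin l) F2), P * P = P ∧ P.rank ≤ r ∧ (Good' r γ w T x →
        γ < 𝔼 X' : Matrix ι (Fin l) F2,
          w α (x.1, x.2 + X * (1 + T) + (1 + P) * X' * (1 + T))) := fun x => by
    by_cases h : Good' r γ w T x
    · obtain ⟨P, α, X, k1, k2, k3⟩ := h
      exact ⟨P, α, X, k1, k2, fun _ => k3⟩
    · exact ⟨0, lb (Classical.arbitrary Ξ), 0, by simp, by simp, fun h' => absurd h' h⟩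
  choose P α X0 hP1 hP2 hP3 using hch
  refine ⟨P, fun c => c.2 + X0 c * (1 + T), α, Good' r γ w T, hP2, ?_⟩
  have hγ : 0 ≤ γ / 2 := le_trans (by positivity) h1
  have hs : √(𝔼 x, (rho mm x - 1) ^ 2) ≤ τ := Real.sqrt_le_iff.2 ⟨hτ, hc⟩
  let ζ : D × Matrix ι (Fin l) F2 → ℝ := fun x =>
    𝔼 X : Matrix ι (Fin l) F2, ind (P (cl T x) * (X * (1 + T)) = 0)
  let h : D × Matrix ι (Fin l) F2 → ℝ := fun x =>
    ind (P (cl T x) * (x.2 + ((cl T x).2 + X0 (cl T x) * (1 + T))) = 0) *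
      ind (Good' r γ w T (cl T x))
  let Z := 𝔼 x, ζ x * ind (Good' r γ w T (cl T x))
  have hcl : ∀ u : D × Matrix ι (Fin l) F2 → D × Matrix ι (Fin l) F2 → ℝ,
      𝔼 x : D × Matrix ι (Fin l) F2,
        ind (P (cl T x) * (x.2 + ((cl T x).2 + X0 (cl T x) * (1 + T))) = 0) * u (cl T x) x =
      𝔼 x : D × Matrix ι (Fin l) F2, ζ x * 𝔼 X : Matrix ι (Fin l) F2, u (cl T x)
        (x.1, (cl T x).2 + X0 (cl T x) * (1 + T) + (1 + P (cl T x)) * X * (1 + T)) := fun u => by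
    rw [ex_prod, ex_prod]
    exact congrArg _ (funext fun d => zoom_class hT (P := fun M => P (d, M)) (fun M => hP1 _)
      (fun M => X0 (d, M)) fun M0 M => u (d, M0) (d, M))
  have d0 : (2 ^ r : ℝ)⁻¹ ^ l * (𝔼 ξ, ind (Good' r γ w T (mm ξ)) - τ) ≤ Z := by
    have e1 := (rho_dev mm (h := fun x => ind (Good' r γ w T x)) (fun _ => ind_nonneg _)
      fun _ => ind_le_one _).trans (add_le_add_right hs _)
    refine (mul_le_mul_of_nonneg_left (sub_le_iff_le_add.2 e1) (by positivity)).trans ?_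
    rw [← ex_mul]
    refine ex_mono fun x => mul_le_mul ((congrArg _ (Fintype.card_fin l)).ge.trans (zeta_ge (hP2 _) (1 + T)))
      (ind_mono fun ⟨P, α, X, k⟩ => ⟨P, α, x.2 + X, ?_⟩) (ind_nonneg _)
      (ex_nonneg fun _ => ind_nonneg _)
    have e : (cl T x).2 + (x.2 + X) * (1 + T) = x.2 + X * (1 + T) := by
      rw [cl, Matrix.add_mul, Matrix.mul_add x.2, Matrix.mul_one, ← add_assoc, add_comm x.2,
        ← add_assoc, mat_add_self, zero_add]
    rw [e]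
    exact k
  have d1 : γ * Z ≤ 𝔼 ξ, h (mm ξ) * ind (lb ξ = α (cl T (mm ξ))) := by
    rw [dens_ex mm lb fun x β => h x * ind (β = α (cl T x)), ← hw, ← ex_mul]
    have e : ∀ x, ∑ β, w β x * (h x * ind (β = α (cl T x))) = h x * w (α (cl T x)) x :=
      fun x => by
        rw [← sum_ind_mul (α (cl T x)) fun β => h x * w β x]
        exact sum_congr rfl fun β _ => by rw [ind_congr eq_comm]; ring
    simp only [e]
    simp only [h, mul_assoc]
    rw [hcl fun c x => ind (Good' r γ w T c) * w (α c) x]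
    refine ex_mono fun x => ?_
    rw [mul_left_comm, ex_mul]
    refine mul_le_mul_of_nonneg_left ?_ (ex_nonneg fun _ => ind_nonneg _)
    by_cases hG : Good' r γ w T (cl T x)
    · rw [ind_pos hG, mul_one, one_mul]; exact (hP3 _ hG).le
    · rw [ind_neg hG, mul_zero, zero_mul]
  have d2 : 𝔼 ξ, h (mm ξ) ≤ Z + τ := by
    refine (rho_dev mm (h := h) (fun x => mul_nonneg (ind_nonneg _) (ind_nonneg _)) fun x =>
      mul_le_one₀ (ind_le_one _) (ind_nonneg _) (ind_le_one _)).trans (add_le_add (le_of_eq ?_) hs)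
    rw [hcl fun c _ => ind (Good' r γ w T c)]
    simp only [Fintype.expect_const]
    rfl
  have d3 : 𝔼 ξ, ind (Good' r γ w T (cl T (mm ξ)) ∧ P (cl T (mm ξ)) *
      ((mm ξ).2 + ((cl T (mm ξ)).2 + X0 (cl T (mm ξ)) * (1 + T))) = 0) *
        (ind (lb ξ = α (cl T (mm ξ))) - 2 ^ r / 2 ^ l) =
      𝔼 ξ, h (mm ξ) * ind (lb ξ = α (cl T (mm ξ))) - 2 ^ r / 2 ^ l * 𝔼 ξ, h (mm ξ) := by
    rw [← ex_mul, ← ex_sub]
    refine congrArg _ (funext fun ξ => ?_)
    rw [ind_and]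
    simp only [h]
    ring
  have hZ : 0 ≤ Z := ex_nonneg fun _ => mul_nonneg (ex_nonneg fun _ => ind_nonneg _) (ind_nonneg _)
  have k1 := mul_le_mul_of_nonneg_left d0 hγ
  have k2 := mul_le_mul_of_nonneg_left d2 (by positivity : (0 : ℝ) ≤ 2 ^ r / 2 ^ l)
  have k3 := mul_le_mul_of_nonneg_right h1 hZ
  have k4 := mul_le_mul_of_nonneg_right h2 hτ
  rw [mul_assoc, d3]
  linarith

end Vale.Agent.P339
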