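import Vale.Agent.P339.Spec
import Vale.Agent.P339.Zoom

/-! Global decoding of the two-to-two test. -/

namespace Vale.Agent.P339

open Finset Matrix Vale.Agent.P325 Function
open scoped BigOperators

set_option linter.unusedSectionVars false

lemma gd_half {ι : Type} [Fintype ι] [DecidableEq ι] (n : ι → F2) (b : F2) (h : n = 0 → b = 0) :
    1 / 2 ≤ 𝔼 g : ι → F2, ind (g ⬝ᵥ n = b) := by
  by_cases hn : n = 0
  · rw [h hn, hn]
    simp only [dotProduct_zero]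
    rw [Fintype.expect_const, ind_pos trivial]
    norm_num
  · have e : ∀ g : ι → F2, ind (g ⬝ᵥ n = b) = 1 / 2 + sgn b / 2 * sgn (g ⬝ᵥ n) := fun g => by
      rw [ind_congr (add_eq_zero_iff (g ⬝ᵥ n) b).symm, ind_eq_zero, sgn_add]
      ring
    simp only [e]
    rw [ex_add, ex_mul, Fintype.expect_const, ex_sgn (φ := fun g : ι → F2 => g ⬝ᵥ n)
      fun x y => add_dotProduct x y n, ind_neg, mul_zero, add_zero]
    intro h0
    exact hn (funext fun i => by simpa using h0 (Pi.single i 1))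

lemma gd_pt {l : ℕ} {ι D Λ : Type} [Fintype ι] [DecidableEq ι] (x : D × Matrix ι (Fin l) F2)
    (y : (Fin l → F2) × Λ) (F : D × Matrix ι (Fin l) F2 → (Fin l → F2) × Λ) (c : Fin l → F2)
    (n : ι → F2) :
    1 / 2 * ind (F x = y ∧ ∃ b : F2, F (x.1, x.2 + vecMulVec n c) = ((F x).1 + b • c, (F x).2)) ≤
      𝔼 g : ι → F2, ind (((F (x.1, x.2 + vecMulVec n c)).1 + g ᵥ* (x.2 + vecMulVec n c),
        (F (x.1, x.2 + vecMulVec n c)).2) = (y.1 + g ᵥ* x.2, y.2)) := by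
  by_cases hE : F x = y ∧ ∃ b : F2, F (x.1, x.2 + vecMulVec n c) = ((F x).1 + b • c, (F x).2)
  · rw [ind_pos hE, mul_one]
    obtain ⟨rfl, b0, hb0⟩ := hE
    obtain ⟨b, hb, hb'⟩ : ∃ b : F2, (n = 0 → b = 0) ∧
        F (x.1, x.2 + vecMulVec n c) = ((F x).1 + b • c, (F x).2) := by
      by_cases hn : n = 0
      · exact ⟨0, fun _ => rfl, by simp [hn]⟩
      · exact ⟨b0, fun h => absurd h hn, hb0⟩
    refine (gd_half n b hb).trans (ex_mono fun g => ind_mono fun hg => ?_)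
    have e : b • c + b • c = 0 := by rw [← add_smul, F2.add_self, zero_smul]
    rw [hb', vecMul_add, vecMul_vecMulVec, hg, add_add_add_comm, add_assoc (F x).1, e,
      add_zero]
  · rw [ind_neg hE, mul_zero]
    exact ex_nonneg fun _ => ind_nonneg _

lemma gd_pick {l r : ℕ} {U Ξ : Type} [Fintype U] [Fintype Ξ]
    (G : Matrix (Fin l) (Fin l) F2 → U → Ξ → Prop) {s : ℝ}
    (hs : s ≤ ∑ T : Matrix (Fin l) (Fin l) F2, 𝔼 u, 𝔼 ξ, ind (T * T = T ∧ T.rank ≤ r ∧ G T u ξ)) :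
    ∃ T : Matrix (Fin l) (Fin l) F2, T * T = T ∧ T.rank ≤ r ∧
      s / 2 ^ (l * l) ≤ 𝔼 u, 𝔼 ξ, ind (G T u ξ) := by
  obtain ⟨T, hT⟩ := ex_exists_ge fun T : Matrix (Fin l) (Fin l) F2 =>
    𝔼 u, 𝔼 ξ, ind (T * T = T ∧ T.rank ≤ r ∧ G T u ξ)
  have hc : (Fintype.card (Matrix (Fin l) (Fin l) F2) : ℝ) = 2 ^ (l * l) := by
    have : Nat.card (Fin l → Fin l → F2) = 2 ^ (l * l) := by
      simp [pow_mul]
    rw [← Nat.card_eq_fintype_card]
    exact_mod_cast this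
  rw [ex_eq, hc] at hT
  have h1 := (div_le_div_of_nonneg_right hs (by positivity : (0 : ℝ) ≤ 2 ^ (l * l))).trans hT
  by_cases h : T * T = T ∧ T.rank ≤ r
  · exact ⟨T, h.1, h.2, h1.trans (ex_mono fun u => ex_mono fun ξ => ind_mono fun h' => h'.2.2)⟩
  · exact ⟨0, mul_zero _, by simp, h1.trans (ex_mono fun u => ex_mono fun ξ =>
      ind_mono fun h' => absurd ⟨h'.1, h'.2.1⟩ h)⟩

/-- Take `r` with `2 * (1 / 2) ^ r ≤ η / 8` and `γ` from `spec r (a := η / 8)`. For uniform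
`h : ι → F2` put `F_h x = ((F x).1 + h ᵥ* x.2, (F x).2)` and
`lb_h ξ = ((lb ξ).1 + h ᵥ* (mm ξ).2, (lb ξ).2)`. On the event, `F_h (moved x) = lb_h ξ` as soon as
`h ⬝ᵥ n = b` (`h ᵥ* vecMulVec n c = (h ⬝ᵥ n) • c`), which has probability `1 / 2` if `n ≠ 0`; if
`n = 0` it holds for all `h`. Fix `h` (`ex_exists_ge`) with average `≥ η / 2`, apply `spec` for
each `u`, average, pick `T` among `2 ^ (l * l)` matrices (if no `T` has positive mass take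
`T = 0`; simplest: choose `T` maximising the mass among those with `T * T = T ∧ T.rank ≤ r`),
and apply `zoom` for each `u` (`choose`). -/
theorem gd {η : ℝ} (hη : 0 < η) : ∃ (r : ℕ) (γ : ℝ), 0 < γ ∧ ∀ (l : ℕ), 0 < l →
    (2 : ℝ) ^ r / 2 ^ l ≤ γ / 2 → (2 : ℝ) ^ r / 2 ^ l ≤ 1 →
    ∀ (Uo ι D Ξ Λ : Type) [Fintype Uo] [Nonempty Uo] [Fintype ι] [DecidableEq ι] [Fintype D]
      [Nonempty D] [Fintype Ξ] [Nonempty Ξ] [Fintype Λ]
      (mm : Uo → Ξ → D × Matrix ι (Fin l) F2) (lb : Uo → Ξ → (Fin l → F2) × Λ)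
      (F : Uo → D × Matrix ι (Fin l) F2 → (Fin l → F2) × Λ) (τ : ℝ), 0 ≤ τ →
      (∀ u, 𝔼 x, (rho (mm u) x - 1) ^ 2 ≤ τ ^ 2) →
      η ≤ 𝔼 u, 𝔼 ξ, 𝔼 c : NZ l, 𝔼 n : ι → F2, ind (F u (mm u ξ) = lb u ξ ∧ ∃ b : F2,
        F u ((mm u ξ).1, (mm u ξ).2 + vecMulVec n c.1) =
          ((F u (mm u ξ)).1 + b • c.1, (F u (mm u ξ)).2)) →
      ∃ (h : ι → F2) (T : Matrix (Fin l) (Fin l) F2)
        (Q : Uo → D × Matrix ι (Fin l) F2 → Matrix ι ι F2)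
        (M0 : Uo → D × Matrix ι (Fin l) F2 → Matrix ι (Fin l) F2)
        (α : Uo → D × Matrix ι (Fin l) F2 → (Fin l → F2) × Λ)
        (H : Uo → D × Matrix ι (Fin l) F2 → Prop),
        T * T = T ∧ T.rank ≤ r ∧ (∀ u x, (Q u x).rank ≤ r) ∧
        γ / 2 * (2 ^ r : ℝ)⁻¹ ^ l * ((η / 4 - 2 * τ ^ 2) / 2 ^ (l * l) - τ) - τ ≤
          𝔼 u, 𝔼 ξ, ind (H u (cl T (mm u ξ)) ∧
            Q u (cl T (mm u ξ)) * ((mm u ξ).2 + M0 u (cl T (mm u ξ))) = 0) *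
            (ind (((lb u ξ).1 + h ᵥ* (mm u ξ).2, (lb u ξ).2) = α u (cl T (mm u ξ))) -
              2 ^ r / 2 ^ l) := by
  obtain ⟨r, hr⟩ := exists_pow_lt_of_lt_one (show 0 < η / 16 by positivity)
    (show (1 / 2 : ℝ) < 1 by norm_num)
  obtain ⟨γ, hγ, hs⟩ := spec r (a := η / 8) (by positivity)
  refine ⟨r, γ, hγ, fun l hl h1 h2 Uo ι D Ξ Λ _ _ _ _ _ _ _ _ _ mm lb F τ hτ hc hE => ?_⟩
  let A : (ι → F2) → Uo → ℝ := fun g u => 𝔼 ξ, 𝔼 c : NZ l, 𝔼 n : ι → F2,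
    ind (((F u ((mm u ξ).1, (mm u ξ).2 + vecMulVec n c.1)).1 + g ᵥ* ((mm u ξ).2 + vecMulVec n c.1),
      (F u ((mm u ξ).1, (mm u ξ).2 + vecMulVec n c.1)).2) =
        ((lb u ξ).1 + g ᵥ* (mm u ξ).2, (lb u ξ).2))
  have e1 : 1 / 2 * η ≤ 𝔼 g, 𝔼 u, A g u := by
    refine (mul_le_mul_of_nonneg_left hE (by norm_num)).trans ?_
    rw [ex_comm fun g u => A g u, ← ex_mul]
    refine ex_mono fun u => le_of_le_of_eq ?_ (ex_comm _)
    rw [← ex_mul]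
    refine ex_mono fun ξ => le_of_le_of_eq ?_ (ex_comm _)
    rw [← ex_mul]
    refine ex_mono fun c => le_of_le_of_eq ?_ (ex_comm _)
    rw [← ex_mul]
    exact ex_mono fun n => gd_pt (mm u ξ) (lb u ξ) (F u) c.1 n
  obtain ⟨g, hg⟩ := ex_exists_ge fun g => 𝔼 u, A g u
  let lb' : Uo → Ξ → (Fin l → F2) × Λ := fun u ξ => ((lb u ξ).1 + g ᵥ* (mm u ξ).2, (lb u ξ).2)
  have e2 : ∀ u, A g u ≤ ∑ T : Matrix (Fin l) (Fin l) F2,
      𝔼 ξ, ind (T * T = T ∧ T.rank ≤ r ∧ Good' r γ (dens (mm u) (lb' u)) T (mm u ξ)) +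
        (2 * τ ^ 2 + η / 4) := fun u => by
    have h3 := hs l hl ι D Ξ _ (mm u) (lb' u) fun x => ((F u x).1 + g ᵥ* x.2, (F u x).2)
    have h4 := hc u
    exact h3.trans (by linarith)
  have e3 := (e1.trans hg).trans (ex_mono e2)
  rw [ex_add, Fintype.expect_const, ex_sum] at e3
  obtain ⟨T, hT, hT', e4⟩ := gd_pick (r := r) (s := η / 4 - 2 * τ ^ 2)
    (fun T u ξ => Good' r γ (dens (mm u) (lb' u)) T (mm u ξ)) (by linarith)
  choose Q M0 α H hQ hz using fun u => zoom (mm u) (lb' u) hT h1 h2 hτ (hc u)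
  refine ⟨g, T, Q, M0, α, H, hT, hT', hQ, le_trans ?_ (ex_mono hz)⟩
  simp only [ex_sub, ex_mul, Fintype.expect_const]
  exact sub_le_sub_right (mul_le_mul_of_nonneg_left (sub_le_sub_right e4 _) (by positivity)) _

end Vale.Agent.P339
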