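import Vale.Agent.P339.Game00

/-! The game on the bottom leaves for the bottom level. -/

namespace Vale.Agent.P339

open Finset Matrix Vale.Agent.P325 Function
open scoped BigOperators

set_option linter.unusedSectionVars false

variable {Sg Gm : Type} [Fintype Sg] [DecidableEq Sg] [Nonempty Sg] [Fintype Gm] [DecidableEq Gm]
  [Nonempty Gm] {k : ℕ} {O : LCd Sg Gm} {P : ℕ} {S : Sys (Sg ⊕ Gm) k} {N : Type} [Fintype N]
  [DecidableEq N] {t l : ℕ}

theorem game0_e (n P : ℕ) : 0 < (2 * 2 ^ n : ℝ)⁻¹ ^ 2 / (50 * (P + 1)) ∧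
    (2 * 2 ^ n : ℝ)⁻¹ ^ 2 / (50 * (P + 1)) ≤ 1 := by
  refine ⟨by positivity, div_le_one_of_le₀ ?_ (by positivity)⟩
  have h1 : (1 : ℝ) ≤ 2 ^ n := one_le_pow₀ one_le_two
  have h2 : (2 * 2 ^ n : ℝ)⁻¹ ^ 2 ≤ 1 :=
    pow_le_one₀ (by positivity) (inv_le_one_of_one_le₀ (by linarith))
  linarith [(Nat.cast_nonneg P : (0 : ℝ) ≤ P)]

theorem gv_nonneg (q a b P k : ℕ) : 0 ≤ gv q a b P k := by
  exact add_nonneg (by positivity) (pow_nonneg (sub_nonneg.2 (game0_e _ _).2) _)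

theorem gv_mono {q q' : ℕ} (h : q ≤ q') (a b P k : ℕ) : gv q a b P k ≤ gv q' a b P k := by
  refine add_le_add ?_ (pow_le_pow_left₀ (sub_nonneg.2 (game0_e _ _).2) ?_ _)
  · gcongr
    exact one_le_two
  · gcongr
    exact one_le_two

/-- First `P` large, then `k` large (`exists_pow_lt_of_lt_one`). -/
theorem gv_small (q a b : ℕ) {v : ℝ} (hv : 0 < v) :
    ∃ P k : ℕ, 0 < P ∧ 0 < k ∧ gv q a b P k ≤ v := by
  obtain ⟨P, hP⟩ := exists_nat_gt (2 ^ (q * a) / (v / 2) : ℝ)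
  have h0 : (0 : ℝ) < P := lt_trans (by positivity) hP
  obtain ⟨h1, h2⟩ := game0_e (q * b) P
  obtain ⟨k, hk⟩ := exists_pow_lt_of_lt_one (half_pos hv) (sub_lt_self 1 h1)
  have h3 := pow_le_pow_of_le_one (sub_nonneg.2 h2) (sub_le_self 1 h1.le) (Nat.le_succ k)
  refine ⟨P, k + 1, by exact_mod_cast h0, k.succ_pos, ?_⟩
  rw [div_lt_comm₀ (half_pos hv) h0] at hP
  exact (add_le_add hP.le (h3.trans hk.le)).trans_eq (add_halves v)

/-- Samples of the bottom level, leaf by leaf. -/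
def game0_E : (Fin k → Fin (P + 1) × (O.U × O.Dp) × ((Fin l → F2) ⊕ N → Sg ⊕ Gm → F2)) ≃
    Smp O P (Sys.base (Sg ⊕ Gm) k l) N where
  toFun x := ⟨fun y => (x y).2.1.1, fun y => (x y).2.1.2, (), fun y => (x y).1,
    fun c y => (x y).2.2 (.inl c), (), fun n y => (x y).2.2 (.inr n)⟩
  invFun s y := (s.co y, (s.us y, s.ds y), Sum.elim (fun c => s.xi c y) fun n => s.ex n y)
  left_inv _ := funext fun _ => Prod.ext rfl (Prod.ext rfl (funext fun q => by cases q <;> rfl))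
  right_inv _ := rfl

/-- `game00` with `Q = (Fin l → F2) ⊕ N`: a sample of the bottom level is the same as
`x : Fin k → Fin (P + 1) × (O.U × O.Dp) × (Q → Sg ⊕ Gm → F2)` (build the `Equiv`, `ex_equiv`:
`xi c y = (x y).2.2 (inl c)`, `ex n y = (x y).2.2 (inr n)`), and `li`, `ri` are functions of the
two views: `vis ω = ∑ c, (∑ y, (i y).2 (inl c) (ω y)) • c`. Then `gv_mono`. -/
theorem game_base (hk : 0 < k) (hP : 0 < P) {K n : ℕ} (hK : 0 < K) {s : ℝ} (hO : O.Snd s)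
    (hs : (K : ℝ) ^ 2 * s ≤ 1 / 2) (hn : Fintype.card N ≤ n) :
    GameLe O P (Sys.base (Sg ⊕ Gm) k l) N K
      (gv (2 ^ l + n) (Fintype.card Sg) (Fintype.card Gm) P k) := by
  intro nl nr
  have h := game00 hk hP (Q := (Fin l → F2) ⊕ N) hK hO hs
    (fun i => nl () (fun y => (i y).1, fun ω => ∑ c, (∑ y, (i y).2 (.inl c) (ω y)) • c,
      fun n ω => ∑ y, (i y).2 (.inr n) (ω y)))
    fun r => nr ((), fun y => (r y).1, fun y => (r y).2.1, fun c y => (r y).2.2 (.inl c),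
      fun n y => (r y).2.2 (.inr n))
  refine le_trans (le_of_eq ?_) (h.trans (gv_mono (by simpa using hn) _ _ _ _))
  rw [← ex_equiv game0_E]
  refine congrArg _ (funext fun x => ?_)
  have e0 : ∀ ω, (game0_E x).vw ω = fun y => vx1 (x y).1 (x y).2.1 (ω y) := fun ω =>
    funext fun y => (game0_E x).vw_leaf ω y
  have e1 : (game0_E x).li = (fun y => (x y).2.1.1,
      fun ω => ∑ c, (∑ y, (x y).2.2 (.inl c) (vx1 (x y).1 (x y).2.1 (ω y))) • c,
      fun n ω => ∑ y, (x y).2.2 (.inr n) (vx1 (x y).1 (x y).2.1 (ω y))) := by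
    unfold Smp.li Smp.vis
    simp only [e0]
    rfl
  have e2 : (game0_E x).ri = ((), fun y => (x y).1,
      fun y => if (x y).1 = 0 then .inr (O.v (x y).2.1) else .inl (x y).2.1.1,
      fun c y => (x y).2.2 (.inl c), fun n y => (x y).2.2 (.inr n)) :=
    Prod.ext rfl (Prod.ext rfl (Prod.ext (funext fun y => if_congr decide_eq_true_iff rfl rfl) rfl))
  rw [e1, e2]
  rfl

end Vale.Agent.P339
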