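import Vale.Agent.P339.SetG
import Vale.Agent.P339.BadCo

/-! The game on the bottom leaves, leaf by leaf. -/

namespace Vale.Agent.P339

open Finset Matrix Vale.Agent.P325 Function Vale.Agent.Lib.PCP
open scoped BigOperators

set_option linter.unusedSectionVars false

variable {Sg Gm : Type} [Fintype Sg] [DecidableEq Sg] [Nonempty Sg] [Fintype Gm] [DecidableEq Gm]
  [Nonempty Gm] {k : ℕ} {O : LCd Sg Gm} {P : ℕ} {S : Sys (Sg ⊕ Gm) k} {N : Type} [Fintype N]
  [DecidableEq N] {t l : ℕ}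

/-- The view at one leaf. -/
def vx1 (c : Fin (P + 1)) (e : O.U × O.Dp) (a : Sg) : Sg ⊕ Gm :=
  if c = 0 then .inr (O.π e a) else .inl a

lemma Game00_supp {X Y : Type} [Fintype X] [Fintype Y] [DecidableEq X] [DecidableEq Y] {f : X → Y}
    (hf : Injective f) (z : X → F2) : #{a | z a ≠ 0} ≤ #{b | push f z b ≠ 0} := by
  refine card_le_card_of_injOn f (fun a ha => ?_) hf.injOn
  simp only [coe_filter, mem_univ, true_and, Set.mem_ofPred_eq] at ha ⊢
  have h : push f z (f a) = z a := by simp [push, hf.eq_iff]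
  rwa [h]

lemma Game00_odd {K : ℕ} (hK : 0 < K) : Nonempty (Odd' Sg K) := by
  obtain ⟨a⟩ := (inferInstance : Nonempty Sg)
  refine ⟨⟨Pi.single a 1, le_trans (card_le_card (t := {a}) fun b hb => ?_)
    (by rw [card_singleton]; exact hK), by simp⟩⟩
  simp only [mem_filter, mem_univ, true_and] at hb
  by_contra h
  exact hb (Pi.single_eq_of_ne (by simpa using h) _)

lemma Game00_dom {Q : Type} [Fintype Q] [DecidableEq Q] (p : (Q → Sg → F2) → Prop)
    (f : (Q → Sg ⊕ Gm → F2) → Q → Sg → F2) :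
    𝔼 b, ind (p (f b)) ≤ 2 ^ (Fintype.card Q * Fintype.card Sg) *
      𝔼 b : Q → Sg ⊕ Gm → F2, ind (p fun q a => b q (.inl a)) := by
  have h1 := ex_hom (α := Q → Sg ⊕ Gm → F2) (β := Q → Sg → F2) (φ := fun b q a => b q (.inl a))
    (fun _ _ => rfl) (fun w => ⟨fun q => Sum.elim (w q) 0, rfl⟩) fun w => ind (p w)
  rw [h1, ex_eq fun w => ind (p w)]
  have h2 : (Fintype.card (Q → Sg → F2) : ℝ) = 2 ^ (Fintype.card Q * Fintype.card Sg) := by
    simp only [Fintype.card_fun, ZMod.card]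
    push_cast
    rw [← pow_mul, mul_comm]
  rw [h2, mul_div_cancel₀ _ (by positivity)]
  exact ex_le fun b => single_le_sum (f := fun w => ind (p w)) (fun _ _ => ind_nonneg _)
    (mem_univ (f b))

/-- Call `x` bad if `K < #{a | nl .. x a ≠ 0}`; this depends on the left view only. On the event a
bad leaf has coin zero (else `vx1 = inl` is injective and the supports have the same size). So the
event is contained in (some leaf is bad, and a chosen bad leaf has coin zero) or (no leaf is bad,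
and `setG` is won on all leaves with coin zero). First: `bad_co` with
`B = 2 ^ (card Q * card Sg)` (for `c ≠ 0` the left view is `(u, b ∘ inl)`, uniform). Second:
`smooth_val` for `setG O Q K` with `A x c = ⟨nl .. c, _⟩` if that is small and odd, else a fixed
point mass, and `B x c = nr .. c ∘ inr`; `setG_val`. -/
theorem game00 (hk : 0 < k) (hP : 0 < P) {Q : Type} [Fintype Q] [DecidableEq Q] {K : ℕ}
    (hK : 0 < K) {s : ℝ} (hO : O.Snd s) (hs : (K : ℝ) ^ 2 * s ≤ 1 / 2)
    (nl : (Fin k → O.U × (Q → Sg → F2)) → Fin k → Sg → F2)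
    (nr : (Fin k → Fin (P + 1) × (O.U ⊕ ℕ) × (Q → Sg ⊕ Gm → F2)) → Fin k → Sg ⊕ Gm → F2) :
    𝔼 x : Fin k → Fin (P + 1) × (O.U × O.Dp) × (Q → Sg ⊕ Gm → F2),
      (fun (i : Fin k → O.U × (Q → Sg → F2))
        (r : Fin k → Fin (P + 1) × (O.U ⊕ ℕ) × (Q → Sg ⊕ Gm → F2)) =>
        ind (∀ c, nr r c = push (vx1 (x c).1 (x c).2.1) (nl i c) ∧ #{b | nr r c b ≠ 0} ≤ K ∧
          ∑ a, nl i c a = 1))
      (fun c => ((x c).2.1.1, fun q a => (x c).2.2 q (vx1 (x c).1 (x c).2.1 a)))
      (fun c => ((x c).1, if (x c).1 = 0 then .inr (O.v (x c).2.1) else .inl (x c).2.1.1,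
        (x c).2.2)) ≤ gv (Fintype.card Q) (Fintype.card Sg) (Fintype.card Gm) P k := by
  classical
  have := Game00_odd (Sg := Sg) hK
  let Y := (O.U × O.Dp) × (Q → Sg ⊕ Gm → F2)
  let m : Fin (P + 1) × Y → O.U × (Q → Sg → F2) := fun z =>
    (z.2.1.1, fun q a => z.2.2 q (vx1 z.1 z.2.1 a))
  let r : Fin (P + 1) × Y → Fin (P + 1) × (O.U ⊕ ℕ) × (Q → Sg ⊕ Gm → F2) := fun z =>
    (z.1, if z.1 = 0 then .inr (O.v z.2.1) else .inl z.2.1.1, z.2.2)
  let cs : (Fin k → O.U × (Q → Sg → F2)) → Fin k := fun i =>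
    if h : ∃ c, K < #{a | nl i c a ≠ 0} then h.choose else ⟨0, hk⟩
  let A0 : (Fin k → O.U × (Q → Sg → F2)) → Fin k → Odd' Sg K := fun i c =>
    if h : #{a | nl i c a ≠ 0} ≤ K ∧ ∑ a, nl i c a = 1 then ⟨nl i c, h⟩ else Classical.arbitrary _
  have h1 := bad_co (k := k) hP m (B := 2 ^ (Fintype.card Q * Fintype.card Sg))
    (fun c hc p => by
      rw [ex_prod fun y : Y => ind (p (m (0, y))), ex_prod fun y : Y => ind (p (m (c, y))),
        ← ex_mul]
      refine ex_mono fun e => ?_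
      have h := Game00_dom (Sg := Sg) (Gm := Gm) (Q := Q) (fun w => p (e.1, w))
        fun b q a => b q (vx1 (0 : Fin (P + 1)) e a)
      simpa only [m, vx1, if_neg hc] using h) cs
  have hp : (1 : ℝ) ≤ 2 ^ (Fintype.card Q * Fintype.card Gm) := one_le_pow₀ one_le_two
  have h2 := smooth_val (setG O Q K) (by positivity) (inv_le_one_of_one_le₀ (by linarith))
    (setG_val (Q := Q) hO hs) k P (fun x => A0 (m ∘ x)) (fun x c => nr (r ∘ x) c ∘ Sum.inr)
    (fun x y h => by
      have e : m ∘ x = m ∘ y := funext fun i => by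
        by_cases h0 : (x i).1 = 0
        · have h3 := (h i).2.1 h0
          simp only [Function.comp_apply, m, vx1, if_pos h0, if_pos ((h i).1.symm.trans h0)]
          exact h3
        · rw [Function.comp_apply, Function.comp_apply, Prod.ext (h i).1 ((h i).2.2 h0)]
      simp only [e])
    (fun x y h => by
      have e : r ∘ x = r ∘ y := funext fun i => by
        by_cases h0 : (x i).1 = 0
        · have h3 := (h i).2.1 h0
          simp only [setG, Prod.mk.injEq] at h3
          simp only [Function.comp_apply, r, if_pos ((h i).1.symm.trans h0), h3.1, h3.2, (h i).1]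
        · rw [Function.comp_apply, Function.comp_apply, Prod.ext (h i).1 ((h i).2.2 h0)]
      simp only [e])
  refine le_trans ?_ (add_le_add h1 h2)
  rw [← ex_add]
  refine ex_mono fun x => le_trans (ind_mono fun hx => ?_) (ind_or_le _ _)
  change ∀ c, nr (r ∘ x) c = push (vx1 (x c).1 (x c).2.1) (nl (m ∘ x) c) ∧
    #{b | nr (r ∘ x) c b ≠ 0} ≤ K ∧ ∑ a, nl (m ∘ x) c a = 1 at hx
  by_cases hb : ∃ c, K < #{a | nl (m ∘ x) c a ≠ 0}
  · left
    have hc : K < #{a | nl (m ∘ x) (cs (m ∘ x)) a ≠ 0} := by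
      simp only [cs, dif_pos hb]
      exact hb.choose_spec
    by_contra h0
    obtain ⟨e1, e2, -⟩ := hx (cs (m ∘ x))
    have hi : Injective (vx1 (x (cs (m ∘ x))).1 (x (cs (m ∘ x))).2.1) := fun a a' h => by
      simpa only [vx1, if_neg h0, Sum.inl.injEq] using h
    have h4 := Game00_supp hi (nl (m ∘ x) (cs (m ∘ x)))
    rw [← e1] at h4
    omega
  · right
    intro c h0
    obtain ⟨e1, -, e3⟩ := hx c
    have h5 : #{a | nl (m ∘ x) c a ≠ 0} ≤ K ∧ ∑ a, nl (m ∘ x) c a = 1 :=
      ⟨not_lt.1 fun h => hb ⟨c, h⟩, e3⟩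
    simp only [A0, dif_pos h5, setG, e1]
    funext g
    simp [push, vx1, h0]

end Vale.Agent.P339
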