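import Vale.Agent.P339.RedA
import Vale.Agent.P339.Cls

/-! The value of the output. -/

namespace Vale.Agent.P339

open Finset Matrix Vale.Agent.P325 Function Vale.Agent.Lib.PCP Vale.Agent.Lib.TM
open Vale.Agent.P325.Lin Vale.Agent.P339N
open scoped BigOperators

set_option linter.unusedSectionVars false

variable {L R k m P q : ℕ} {S : Sys (Fin L ⊕ Fin R) k} (M : Fin (m + 1) → Mark S) (d : Fin R)
  (cls : S.Lab → S.Lab → Fin q) (eV : S.Lab ≃ Fin (2 * q))


theorem redc_eval {ι : Type} [Fintype ι] [DecidableEq ι] {β : ι → Type} [∀ i, Fintype (β i)]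
    [∀ i, Nonempty (β i)] (i : ι) (g : β i → ℝ) : 𝔼 f : ∀ j, β j, g (f i) = 𝔼 b, g b := by
  rw [← ex_equiv (Equiv.piSplitAt i β).symm, ex_prod]
  simp

/-- The instance as a left-regular one. -/
abbrev redcO {G : LC} {dU : ℕ} [Nonempty (Fin G.1)] [Nonempty (Fin dU)] (L : ℕ)
    (e0 : Fin G.1 × Fin dU ≃ Fin G.2.2.length) : LCd (Fin L) (Fin R) :=
  ⟨Fin G.1, Fin dU, fun x => (G.2.2.get (e0 x)).2.1, fun x => prj d (G.2.2.get (e0 x))⟩

theorem redc_snd [Nonempty (Fin L)] {G : LC} {dU : ℕ} [Nonempty (Fin G.1)] [Nonempty (Fin dU)]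
    {e0 : Fin G.1 × Fin dU ≃ Fin G.2.2.length} (he : ∀ x, (G.2.2.get (e0 x)).1 = x.1)
    (h : G.WF L R) {s : ℝ} (hG : G.ValLe L s) : (redcO d L e0).Snd s := by
  intro A B
  have h0 : (0 : ℝ) < G.2.2.length := by exact_mod_cast List.length_pos_iff.2 h.1
  obtain ⟨A', hA⟩ : ∃ A' : ℕ → Fin L, ∀ u : Fin G.1, A' u = A u :=
    ⟨extend Fin.val A fun _ => Classical.arbitrary _, Fin.val_injective.extend_apply _ _⟩
  have h1 := hG (fun u => A' u) (fun v => B v) fun u => (A' u).2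
  rw [LC.good, countP_eq, ← sum_get] at h1
  simp only [beq_iff_eq, ← prj_val d h (List.get_mem _ _), Fin.val_inj] at h1
  refine le_trans (le_of_eq ?_) (((ex_equiv e0 _).trans (ex_eq _)).trans_le
    ((div_le_iff₀ (by rwa [Fintype.card_fin])).2 (h1.trans_eq (by rw [Fintype.card_fin]))))
  simp only [he, hA]

/-- Take `e0` from `exists_eqv` and `O = ⟨Fin G.1, Fin dU, v, π⟩` with
`v x = (G.2.2.get (e0 x)).2.1`, `π x = prj d (G.2.2.get (e0 x))`; `O.Snd s` from `hG` (as in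
`P339N.snd_of`: `countP_eq`, `sum_get`, `prj_val`; extend the left labelling to `ℕ`; replace the
right labelling by its values). Put `F (us, f, _) = eV.symm ⟨A (code (fun j => us ((eL S).symm j),
f)), _⟩` and `G i a r = rep δ ⟨B (code (fun j => Sum.elim (↑) id (r.2.2.1 ((eL S).symm j)),
r.1, r.2.1, r.2.2.2.1, δ)), _⟩` with `δ = (M i).dir r.1 a`. A satisfied constraint gives `pass` by
`hr`. Transport the averages: tuples of edges are pairs `(us, ds)` (`ex_equiv`), `ex_smp`, and the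
marginal of `x.2.1 i` is uniform (`Equiv.piSplitAt`). Finish as `P339N.red_val`. -/
theorem red_val [Nonempty (Fin L)] [Nonempty (Fin R)] (hl : ∀ i, 0 < (M i).l)
    (hd : ∀ i p a, a ≠ 0 → (M i).dir p a ≠ 0) (rep : S.Lab → Fin q → S.Lab)
    (hr : ∀ δ ≠ 0, ∀ y, ∃ b : F2, y = rep δ (cls δ y) + b • δ) {dU dV : ℕ} (hU : 0 < dU)
    {G : LC} (h : G.WF L R) (hb : G.Bireg dU dV) {s δ : ℝ} (hG : G.ValLe L s)
    (hs : ∀ O : LCd (Fin L) (Fin R), O.Snd s → AccLe O P M δ) :
    (red P M d cls eV G).ValLe q δ := by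
  obtain ⟨e0, he⟩ := exists_eqv h hb
  have : Nonempty (Fin G.2.2.length) := ⟨⟨0, List.length_pos_iff.2 h.1⟩⟩
  have : Nonempty (Fin G.1) := ⟨(e0.symm (Classical.arbitrary _)).1⟩
  have : Nonempty (Fin dU) := ⟨⟨0, hU⟩⟩
  have : ∀ i, Nonempty (NZ (M i).l) := fun i =>
    ⟨⟨fun _ => 1, fun h => one_ne_zero (congrFun h ⟨0, hl i⟩)⟩⟩
  intro A B hA hB
  have k1 := hs (redcO d L e0) (redc_snd d he h hG)
    (fun x => eV.symm ⟨A (P339N.code (fun j => (x.1 ((eL S).symm j)).val, x.2.1)), hA _⟩)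
    fun i a r => rep ((M i).dir r.1 a) ⟨B (P339N.code (fun j => Sum.elim Fin.val id
      (r.2.2.1 ((eL S).symm j)), r.1, r.2.1, r.2.2.2.1, (M i).dir r.1 a)), hB _⟩
  have k2 : 𝔼 e : Fin (Fintype.card S.Lf) → Fin G.2.2.length, 𝔼 x : Cel P M,
      ind ((con M d cls eV (G.2.2.get ∘ e) x).2.2.getD (A (con M d cls eV (G.2.2.get ∘ e) x).1) 0 =
        B (con M d cls eV (G.2.2.get ∘ e) x).2.1) ≤ δ := by
    refine le_trans ?_ k1
    rw [ex_comm, ex_prod]
    refine ex_mono fun i => ?_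
    rw [ex_prod, ex_comm (α := Smp _ _ _ _), ← redc_eval (β := fun i => NZ (M i).l) i]
    refine ex_mono fun as => ?_
    rw [ex_comm, Smp.ex_smp, ← ex_equiv ((Equiv.arrowProdEquivProdArrow _ _ _).symm.trans
      (Equiv.arrowCongr (eL S) e0)), ex_prod]
    simp only [ex_prod]
    refine ex_mono fun us => ex_mono fun ds => ex_mono fun p => ex_mono fun co => ex_mono fun xi =>
      ex_mono fun ph => (Fintype.expect_const _).symm.trans_le (ex_mono fun ex =>
        ind_mono fun hc => ?_)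
    have e1 : ∀ j, (G.2.2.get ∘ ((Equiv.arrowProdEquivProdArrow _ _ _).symm.trans
        (Equiv.arrowCongr (eL S) e0)) (us, ds)) j =
        G.2.2.get (e0 (us ((eL S).symm j), ds ((eL S).symm j))) := fun _ => rfl
    simp only [con, e1, he, Equiv.symm_apply_apply, tb] at hc
    rw [List.getD_eq_getElem _ _ (by rw [List.length_ofFn]; exact hA _), List.getElem_ofFn] at hc
    refine (hr _ (hd i p _ (as i).2) _).imp fun b hb' => hb'.trans ?_
    refine congrArg (fun y => rep _ y + _) (Fin.ext (hc.trans (congrArg (fun y => B (P339N.code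
      (y, _))) (funext fun j => ?_))))
    exact (apply_ite (Sum.elim Fin.val id : Fin G.1 ⊕ ℕ → ℕ) (S.rel p co ((eL S).symm j) = true)
      (.inr _) (.inl _)).symm
  rw [Game.good, countP_eq, sum_red, length_red]
  simp only [beq_iff_eq]
  rw [ex_eq, div_le_iff₀ (by positivity)] at k2
  simp only [ex_eq, ← sum_div] at k2
  rwa [div_le_iff₀ (by positivity), mul_assoc] at k2

end Vale.Agent.P339
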