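import Vale.Agent.P339.Patch
import Vale.Agent.P325.SoundD

/-! Bounds pass from the path child to the next level. -/

namespace Vale.Agent.P339

open Finset Matrix Vale.Agent.P325 Function
open scoped BigOperators

set_option linter.unusedSectionVars false

variable {Sg Gm : Type} [Fintype Sg] [DecidableEq Sg] [Nonempty Sg] [Fintype Gm] [DecidableEq Gm]
  [Nonempty Gm] {k : ℕ} {O : LCd Sg Gm} {P : ℕ} {S : Sys (Sg ⊕ Gm) k} {N : Type} [Fintype N]
  [DecidableEq N] {t l : ℕ}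

theorem lift_pass (up : Smp O P (S.step t l) N → LI O S (Nx N l) → LI O (S.step t l) N)
    (up' : Smp O P (S.step t l) N → RI O P S (Nx N l) → RI O P (S.step t l) N)
    (hup : ∀ s0 s, (s0.patch s).li = up s0 s.li) (hup' : ∀ s0 s, (s0.patch s).ri = up' s0 s.ri)
    (M : Mark S) (F : LI O (S.step t l) N → (S.step t l).Lab)
    (G : (Fin M.l → F2) → RI O P (S.step t l) N → (S.step t l).Lab)
    (s0 : Smp O P (S.step t l) N) (s : Smp O P S (Nx N l)) (a : Fin M.l → F2)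
    (h : (s0.patch s).pass (M.lift t l) F G a) :
    s.pass M (fun i => (F (up s0 i)).2 s0.p.1) (fun a r => (G a (up' s0 r)).2 s0.p.1) a := by
  obtain ⟨b, hb⟩ := h
  refine ⟨b, ?_⟩
  rw [Smp.dr_patch, hup, hup'] at hb
  have h1 : update (F (up s0 s.li)).2 s0.p.1 ((S.sh s.p s.ph).symm ((F (up s0 s.li)).2 s0.p.1))
      s0.p.1 = (G a (up' s0 (s.dr M a).ri)).2 s0.p.1 +
        b • (Pi.single s0.p.1 (M.dir s.p a) : Fin (t + 1) → S.Lab) s0.p.1 :=
    congrFun (congrArg Prod.snd hb) s0.p.1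
  rwa [update_self, Pi.single_eq_same] at h1

theorem lift_sum {T X : Type} [Fintype T] [DecidableEq T] [Fintype X] (τ : T) (Z f : T × X → F2)
    (g : X → F2) (h1 : ∀ σ w, σ ≠ τ → f (σ, w) = 0) (h2 : ∀ w, f (τ, w) = g w) :
    Z ⬝ᵥ f = (fun w => Z (τ, w)) ⬝ᵥ g := by
  simp only [dotProduct, Fintype.sum_prod_type]
  rw [sum_eq_single τ (fun σ _ hσ => by simp [h1 σ _ hσ]) (by simp)]
  simp only [h2]

theorem lift_dot (s0 : Smp O P (S.step t l) N) (s : Smp O P S (Nx N l))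
    (Z : Fin (t + 1) × (S.Lf → Sg) → F2) (z : Fin (t + 1) × (S.Lf → Sg ⊕ Gm) → F2)
    (y : Fin 3 → S.C) :
    (push (s0.patch s).vwc Z + z) ⬝ᵥ S.col (s0.patch s).p (0, y) =
      (push s.vw (fun w => Z (s0.p.1, w)) + fun w => z (s0.p.1, w)) ⬝ᵥ S.sp s.p y := by
  rw [add_dotProduct, add_dotProduct, push_dot, push_dot]
  congr 1
  · refine lift_sum _ _ _ _ (fun σ w hσ => if_neg hσ) fun w => ?_
    show S.col (s0.patch s).p (0, y) ((s0.patch s).vwc (s0.p.1, w)) = _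
    rw [Smp.vwc_patch]
    exact if_pos rfl
  · exact lift_sum _ _ _ _ (fun σ w hσ => if_neg hσ) fun w => if_pos rfl

open Classical in
theorem lift_card {ι : Type} [Fintype ι] [DecidableEq ι] {r : ℕ} (Q : Matrix ι ι F2)
    (hQ : Q.rank ≤ r) (h : ι → F2) :
    ((univ.filter fun y => ∃ x, Qᵀ *ᵥ x = y).image fun y => y + h).card ≤ 2 ^ r := by
  refine card_image_le.trans (le_trans (le_of_eq ?_) (Nat.pow_le_pow_right two_pos
    ((rank_transpose _).trans_le hQ)))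
  convert P325.card_range Qᵀ

theorem lift_fin (s0 : Smp O P (S.step t l) N) (s : Smp O P S (Nx N l))
    {Z Z1 : Fin (t + 1) × (S.Lf → Sg) → F2} {z z1 : Fin (t + 1) × (S.Lf → Sg ⊕ Gm) → F2}
    (e1 : Z = Z1) (e2 : z = z1)
    (h : (∀ y, (push (s0.patch s).vwc Z + z) ⬝ᵥ S.col (s0.patch s).p y = 0) ∧
      ∃ α, ∀ ψ : S.Lab → F2, ∑ w, Z ((s0.patch s).p.1, w) * ψ ((s0.patch s).low w) = ψ α) :
    (∀ σ, (push s.vw (fun w => Z1 (s0.p.1, w)) + fun w => z1 (s0.p.1, w)) ⬝ᵥ S.sp s.p σ = 0) ∧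
      ∃ α, ∀ ψ : S.Lab → F2, (fun w => Z1 (s0.p.1, w)) ⬝ᵥ (ψ ∘ s.vis) = ψ α := by
  subst e1 e2
  obtain ⟨h1, α, h2⟩ := h
  rw [Smp.low_patch] at h2
  exact ⟨fun y => (lift_dot s0 s _ _ y).symm.trans (h1 (0, y)), α, h2⟩

/-- `ex_patch`, `li_patch`, `ri_patch`, `vx_patch`; fix `s0`. -/
theorem game_step {K : ℕ} {v : ℝ} (h : GameLe O P S (Nx N l) K v) :
    GameLe O P (S.step t l) N K v := by
  intro nl nr
  obtain ⟨up, hup⟩ := Smp.li_patch (O := O) (P := P) (S := S) (N := N) (t := t) (l := l)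
  obtain ⟨up', hup'⟩ := Smp.ri_patch (O := O) (P := P) (S := S) (N := N) (t := t) (l := l)
  rw [Smp.ex_patch]
  refine ex_le fun s0 => le_trans (le_of_eq ?_)
    (h (fun p x => nl (s0.p.1, p) (up s0 x)) (fun r => nr (up' s0 r)))
  refine congrArg _ (funext fun s => ?_)
  rw [hup, hup']
  simp only [Smp.vx_patch]
  rfl

/-- As above with `dr_patch`; take the component at the path child: `F' i = (F (up s0 i)).2 τ`,
`G' a r = (G a (up s0 r)).2 τ` with `τ = s0.p.1`. -/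
theorem pair_lift {M M' : Mark S} {η : ℝ} (h : PairLe O P (Nx N l) M M' η) :
    PairLe O P N (M.lift t l) (M'.lift t l) η := by
  intro F G G'
  obtain ⟨up, hup⟩ := Smp.li_patch (O := O) (P := P) (S := S) (N := N) (t := t) (l := l)
  obtain ⟨up', hup'⟩ := Smp.ri_patch (O := O) (P := P) (S := S) (N := N) (t := t) (l := l)
  rw [Smp.ex_patch]
  refine ex_le fun s0 => le_trans ?_
    (h (fun i => (F (up s0 i)).2 s0.p.1) (fun a r => (G a (up' s0 r)).2 s0.p.1)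
      (fun a r => (G' a (up' s0 r)).2 s0.p.1))
  exact ex_mono fun s => ex_mono fun a => ex_mono fun a' => ind_mono fun hh =>
    ⟨lift_pass up up' hup hup' M F G s0 s a.1 hh.1, lift_pass up up' hup hup' M' F G' s0 s a'.1 hh.2⟩

theorem PairLe.symm {M M' : Mark S} {η : ℝ} (h : PairLe O P N M M' η) : PairLe O P N M' M η := by
  intro F G G'
  refine le_trans (le_of_eq ?_) (h F G' G)
  refine congrArg _ (funext fun s => ?_)
  rw [ex_comm]
  simp only [and_comm]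

/-- `list_val` (P325/SoundD) on `Smp × NZ M.l` with the lists `{Qᵀ *ᵥ y + h}` (at most `2 ^ r`
points, `card_range`) and `L ..`; for selections `σ σ'` use `ex_patch`, fix `s0`, and apply `hF`
with `Z _ i w = σ (left list computed from mm_patch) (τ, w)` and
`Z' a r w = σ' (L a (up s0 r)) (τ, w)`. Test `col` on `(0, σ)`: it is `sp` on the child `τ` and
zero elsewhere, and `push s.vwc Z (τ, ·) = push vw (Z (τ, ·))` (`vwc_patch`, `low_patch`). -/
theorem dec_le {M : Mark S} {v : ℝ} (hF : FinLe O P (Nx N l) M v) {r n : ℕ}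
    (h : Fin (t + 1) × (S.Lf → Sg) → F2)
    (Q : (Fin (t + 1) × S.Lf → O.U) → Amb (t + 1) (D0 S N) (S.Lf → Sg) (Fin l) →
      Matrix (Fin (t + 1) × (S.Lf → Sg)) (Fin (t + 1) × (S.Lf → Sg)) F2)
    (hQ : ∀ u x, (Q u x).rank ≤ r)
    (L : (Fin M.l → F2) → RI O P (S.step t l) N → Finset (Fin (t + 1) × (S.Lf → Sg ⊕ Gm) → F2))
    (hL : ∀ a x, (L a x).card ≤ n) :
    𝔼 s : Smp O P (S.step t l) N, 𝔼 a : NZ M.l,
      ind (s.Dec h (Q s.us s.mm) (L a.1 (s.dr (M.lift t l) a.1).ri)) ≤ (2 ^ r : ℕ) * n * v := by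
  classical
  obtain ⟨up, hup⟩ := Smp.mm_patch (O := O) (P := P) (S := S) (N := N) (t := t) (l := l)
  obtain ⟨up', hup'⟩ := Smp.ri_patch (O := O) (P := P) (S := S) (N := N) (t := t) (l := l)
  let L0 : (Fin (t + 1) × S.Lf → O.U) × Amb (t + 1) (D0 S N) (S.Lf → Sg) (Fin l) →
      Finset (Fin (t + 1) × (S.Lf → Sg) → F2) := fun u =>
    (univ.filter fun y => ∃ x, (Q u.1 u.2)ᵀ *ᵥ x = y).image fun y => y + h
  rw [← ex_prod fun x : Smp O P (S.step t l) N × NZ M.l =>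
    ind (x.1.Dec h (Q x.1.us x.1.mm) (L x.2.1 (x.1.dr (M.lift t l) x.2.1).ri))]
  refine le_trans (ex_mono fun x => ind_mono ?_)
    (list_val (fun x : Smp O P (S.step t l) N × NZ M.l => L0 (x.1.us, x.1.mm))
      (fun x => L x.2.1 (x.1.dr (M.lift t l) x.2.1).ri) (fun x => ?_) (fun x => hL _ _)
      (fun x Z z => (∀ y, (push x.1.vwc Z + z) ⬝ᵥ S.col x.1.p y = 0) ∧
        ∃ α, ∀ ψ : S.Lab → F2, ∑ w, Z (x.1.p.1, w) * ψ (x.1.low w) = ψ α) fun σ σ' => ?_)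
  · rintro ⟨Z, ⟨y, hy⟩, z, hz, h1⟩
    exact ⟨Z, mem_image.2 ⟨_, mem_filter.2 ⟨mem_univ _, y, rfl⟩, hy.symm⟩, z, hz, h1⟩
  · convert lift_card _ (hQ x.1.us x.1.mm) h
  rw [ex_prod, Smp.ex_patch]
  refine ex_le fun s0 => le_trans ?_
    (hF (fun _ i w => σ (L0 (up s0 i)) (s0.p.1, w)) (fun a x w => σ' (L a (up' s0 x)) (s0.p.1, w)))
  exact ex_mono fun s => ex_mono fun a => ind_mono fun hh => lift_fin s0 s
    (congrArg (fun u => σ (L0 u)) (hup s0 s))
    (congrArg (fun u => σ' (L a.1 u)) (hup' s0 (s.dr M a.1))) hh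

end Vale.Agent.P339
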