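import Vale.Agent.P339.Marks
import Vale.Agent.P339.Lift
import Vale.Agent.P339.FinB

/-! Induction along the tower, and the tournament. -/

namespace Vale.Agent.P339

open Finset Matrix Vale.Agent.P325 Function
open scoped BigOperators

set_option linter.unusedSectionVars false

variable {Sg Gm : Type} [Fintype Sg] [DecidableEq Sg] [Nonempty Sg] [Fintype Gm] [DecidableEq Gm]
  [Nonempty Gm] {k : ℕ} {O : LCd Sg Gm} {P : ℕ} {S : Sys (Sg ⊕ Gm) k} {N : Type} [Fintype N]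
  [DecidableEq N] {t l : ℕ}

theorem marks_ok {A : Type} [Fintype A] [DecidableEq A] (k : ℕ) (l t : ℕ → ℕ) (j : ℕ)
    (i : Fin (j + 1)) : (marks A k l t j i).Ok ∧ ∃ i' ≤ j, (marks A k l t j i).l = l i' := by
  induction j with
  | zero => exact ⟨Mark.base_ok k _, 0, le_rfl, rfl⟩
  | succ j ih =>
    refine Fin.cases ⟨Mark.top_ok _ _ _, j + 1, le_rfl, rfl⟩ (fun i => ?_) i
    obtain ⟨h1, i', h2, h3⟩ := ih i
    exact ⟨Mark.lift_ok h1 _ _, i', h2.trans (Nat.le_succ j), h3⟩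

lemma tour_le_one {α : Type} [Fintype α] {f : α → ℝ} (h : ∀ a, f a ≤ 1) : 𝔼 a, f a ≤ 1 := by
  rw [ex_eq]
  refine div_le_one_of_le₀ ?_ (Nat.cast_nonneg _)
  simpa using sum_le_card_nsmul univ f 1 fun a _ => h a

lemma tour_sq {Z : Type} [Fintype Z] [Nonempty Z] {m : ℕ} (p : Fin (m + 1) → Z → ℝ) {η : ℝ}
    (hη : 0 ≤ η) (h0 : ∀ i s, 0 ≤ p i s) (h1 : ∀ i s, p i s ≤ 1)
    (h : ∀ i i', i ≠ i' → 𝔼 s, p i s * p i' s ≤ η) :
    (𝔼 i, 𝔼 s, p i s) ^ 2 ≤ 1 / (m + 1) + η := by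
  rw [ex_comm]
  refine (ex_sq_le _).trans ?_
  have e : ∀ s, (𝔼 i, p i s) ^ 2 = 𝔼 i, 𝔼 i', p i s * p i' s := fun s => by
    simp only [ex_mul, ex_mul', sq]
  simp only [e]
  rw [ex_comm]
  refine ex_le fun i => ?_
  rw [ex_comm]
  refine (ex_mono (g := fun i' => ind (i' = i) + η) fun i' => ?_).trans (le_of_eq ?_)
  · by_cases k : i' = i
    · rw [ind_pos k]
      exact (ex_le fun s => mul_le_one₀ (h1 i s) (h0 i' s) (h1 i' s)).trans
        (le_add_of_nonneg_right hη)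
    · rw [ind_neg k, zero_add]
      exact h i i' (Ne.symm k)
  · rw [ex_add, ex_ind, filter_eq', expect_const univ_nonempty]
    simp

/-- `p i s = 𝔼 a, ind (pass)` lies in `[0, 1]`, `𝔼 s, p i s * p i' s ≤ η` for `i ≠ i'` (`ind_and`),
and `(𝔼 i, 𝔼 s, p i s) ^ 2 ≤ 𝔼 s, (𝔼 i, p i s) ^ 2 = 𝔼 i, 𝔼 i', 𝔼 s, p i s * p i' s
≤ 𝔼 i, 𝔼 i', (ind (i' = i) + η)`. -/
theorem acc_le {m : ℕ} (M : Fin (m + 1) → Mark S) {η δ : ℝ} (hη : 0 ≤ η) (hδ : 0 ≤ δ)
    (h : ∀ i i', i ≠ i' → PairLe O P Empty (M i) (M i') η) (hm : 1 / (m + 1) + η ≤ δ ^ 2) :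
    AccLe O P M δ := by
  intro F G
  refine (abs_le_of_sq_le_sq' ((tour_sq
    (fun i (s : Smp O P S Empty) => 𝔼 a : NZ (M i).l, ind (s.pass (M i) F (G i) a)) hη
    (fun i s => ex_nonneg fun a => ind_nonneg _) (fun i s => tour_le_one fun a => ind_le_one _)
    fun i i' k => ?_).trans hm) hδ).2
  have h1 := h i i' k F (G i) (G i')
  simpa only [ind_and, ex_mul, ex_mul'] using h1

lemma tour_card (N : Type) [Fintype N] (l : ℕ) :
    Fintype.card (Nx N l) = 3 * (Fintype.card N + 2 ^ l) := by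
  simp [mul_comm]

/-- First `GameLe O P (tower j) N K v` for `j ≤ m`, `card N ≤ nx j` by induction (`game_step`,
`card (Nx N l) = (card N + 2 ^ l) * 3`). Then induction on `j` for all `N`; `Fin.cases` on `i, i'`:
both successors `pair_lift`; one zero `htop` with `fin_le` (`ε = vv j / 4`, `marks_ok`; `FinLe` is
monotone in the bound) and `PairLe.symm`. -/
theorem tower_pair (l t nx : ℕ → ℕ) (m K : ℕ) {η v : ℝ} (vv : ℕ → ℝ) (hv : 0 ≤ v)
    (hl : ∀ j, 0 < l j) (hn : ∀ j < m, 3 * (nx (j + 1) + 2 ^ l (j + 1)) ≤ nx j)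
    (h0 : ∀ (N : Type) [Fintype N] [DecidableEq N], Fintype.card N ≤ nx 0 →
      GameLe O P (Sys.base (Sg ⊕ Gm) k (l 0)) N K v)
    (hf : ∀ i j, i ≤ j → j < m → 0 < vv j ∧ v ≤ vv j / 4 ∧ 4 / (vv j / 4) ^ 2 ≤ 2 ^ l i ∧
      2 * 2 ^ l i / (vv j / 4) ≤ 2 ^ K)
    (htop : ∀ j < m, ∀ (N : Type) [Fintype N] [DecidableEq N], Fintype.card N ≤ nx (j + 1) →
      ∀ M : Mark (tower (Sg ⊕ Gm) k l t j), 0 < M.l → FinLe O P (Nx N (l (j + 1))) M (vv j) →
        PairLe O P N (M.lift (t j) (l (j + 1))) (Mark.top _ (t j) (l (j + 1))) η) :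
    ∀ j ≤ m, ∀ (N : Type) [Fintype N] [DecidableEq N], Fintype.card N ≤ nx j →
      ∀ i i', i ≠ i' → PairLe O P N (marks (Sg ⊕ Gm) k l t j i) (marks (Sg ⊕ Gm) k l t j i') η := by
  have hc : ∀ j < m, ∀ (N : Type) [Fintype N], Fintype.card N ≤ nx (j + 1) →
      Fintype.card (Nx N (l (j + 1))) ≤ nx j := fun j hj N _ hN => by
    rw [tour_card]
    exact (Nat.mul_le_mul_left 3 (Nat.add_le_add_right hN _)).trans (hn j hj)
  have hG : ∀ j ≤ m, ∀ (N : Type) [Fintype N] [DecidableEq N], Fintype.card N ≤ nx j →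
      GameLe O P (tower (Sg ⊕ Gm) k l t j) N K v := by
    intro j
    induction j with
    | zero => exact fun _ => h0
    | succ j ih => exact fun hj N _ _ hN => game_step (ih (Nat.le_of_succ_le hj) _ (hc j hj N hN))
  intro j
  induction j with
  | zero => exact fun _ N _ _ _ i i' h => absurd (Subsingleton.elim (α := Fin 1) i i') h
  | succ j ih =>
    intro hj N _ _ hN
    have ht : ∀ i, PairLe O P N ((marks (Sg ⊕ Gm) k l t j i).lift (t j) (l (j + 1)))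
        (Mark.top _ (t j) (l (j + 1))) η := fun i => by
      obtain ⟨h1, i', h2, h3⟩ := marks_ok (A := Sg ⊕ Gm) k l t j i
      obtain ⟨k1, k2, k3, k4⟩ := hf i' j h2 hj
      refine htop j hj N hN _ (h3 ▸ hl i') fun Z Z' => ?_
      refine (fin_le h1 hv (hG j (Nat.le_of_succ_le hj) _ (hc j hj N hN)) (ε := vv j / 4)
        (by positivity) (h3 ▸ k3) (h3 ▸ k4) Z Z').trans ?_
      linarith
    intro i i'
    refine Fin.cases ?_ (fun i => ?_) i <;> refine Fin.cases ?_ (fun i' => ?_) i'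
    · exact fun h => absurd rfl h
    · exact fun _ => (ht i').symm
    · exact fun _ => ht i
    · exact fun h => pair_lift (ih (Nat.le_of_succ_le hj) _ (hc j hj N hN) i i'
        fun e => h (congrArg _ e))

end Vale.Agent.P339
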