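import Vale.Agent.P339.Pair
import Vale.Agent.P339.Tour
import Vale.Agent.P339.Game0
import Vale.Agent.P339.Bal

/-! Soundness. -/

namespace Vale.Agent.P339

open Finset Matrix Vale.Agent.P325 Function
open scoped BigOperators

set_option linter.unusedSectionVars false

lemma card_le {Sg Gm : Type} [Fintype Sg] [DecidableEq Sg] [Fintype Gm] [DecidableEq Gm] {k : ℕ}
    (S : Sys (Sg ⊕ Gm) k) (N : Type) [Fintype N] [DecidableEq N] {n : ℕ} (l : ℕ)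
    (hn : Fintype.card N ≤ n) :
    Fintype.card (D0 S N) * Fintype.card ((S.Lf → Sg) → Fin l → F2) *
      Fintype.card ((S.Lf → Sg) → F2) ≤
    (fun x => Fintype.card S.Lab ^ x * (2 ^ x) ^ n * (2 ^ l) ^ x * 2 ^ x)
      (Fintype.card Sg ^ Fintype.card S.Lf) := by
  simp only [Fintype.card_prod, Fintype.card_fun, ZMod.card, Fintype.card_fin]
  gcongr
  exact Nat.one_le_two_pow

lemma le_sqrt_of {x c : ℝ} {t : ℕ} (hc : 0 < c) (h : ⌈(x / c) ^ 2⌉₊ ≤ t) :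
    x ≤ c * √(t + 1 : ℕ) := by
  rw [← div_le_iff₀' hc]
  refine Real.le_sqrt_of_sq_le ((Nat.le_ceil _).trans ?_)
  exact_mod_cast h.trans t.le_succ

lemma exists_min (m : ℕ) (f : ℕ → ℝ) (hf : ∀ j, 0 < f j) : ∃ v, 0 < v ∧ ∀ j ≤ m, v ≤ f j := by
  obtain ⟨j, -, hj⟩ := exists_min_image (range (m + 1)) f ⟨0, by simp⟩
  exact ⟨f j, hf j, fun i hi => hj i (mem_range.2 (by omega))⟩

theorem sound {δ : ℝ} (hδ : 0 < δ) : ∃ (m : ℕ) (l : ℕ → ℕ) (s : ℝ), 0 < s ∧ (∀ j, 2 ≤ l j) ∧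
    ∀ (Sg Gm : Type) [Fintype Sg] [DecidableEq Sg] [Nonempty Sg] [Fintype Gm] [DecidableEq Gm]
      [Nonempty Gm], ∃ (k P : ℕ) (t : ℕ → ℕ), ∀ O : LCd Sg Gm, O.Snd s →
        AccLe O P (marks (Sg ⊕ Gm) k l t m) δ := by
  obtain ⟨m, hm⟩ := exists_nat_one_div_lt (by positivity : 0 < δ ^ 2 / 2)
  have hτ : ∀ j, ((1 : ℝ) / 2) ^ 2 ^ j ≤ 1 / 2 := fun j =>
    pow_le_of_le_one (by norm_num) (by norm_num) (by positivity)
  obtain ⟨l0, h0⟩ := pair_top (η := δ ^ 2 / 2) (τ := (1 / 2) ^ 2 ^ m) (by positivity)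
    (by positivity) (hτ m)
  choose! τ0 vv τp vp htop using h0
  have hg : ∀ x : ℕ, ∃ y : ℕ, 4 / (vv x / 4) ^ 2 ≤ 2 ^ y := fun x =>
    (pow_unbounded_of_one_lt _ one_lt_two).imp fun _ => le_of_lt
  choose g hg using hg
  obtain ⟨sq, s0, s1⟩ := exists_seq g (max l0 2)
  let l : ℕ → ℕ := fun j => sq (m - j)
  have l1 : ∀ j, l0 ≤ l j := fun j => (le_max_left _ _).trans (s0 _)
  have l2 : ∀ j, 2 ≤ l j := fun j => (le_max_right _ _).trans (s0 _)
  obtain ⟨v, v0, hv⟩ := exists_min m (fun j => vv (l j) / 4) fun j => by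
    have := vp _ (l1 j)
    positivity
  obtain ⟨w, w0, hw⟩ := exists_min m (fun j => (2 ^ l j : ℝ)⁻¹) fun j => by positivity
  obtain ⟨K0, hK⟩ := pow_unbounded_of_one_lt (2 * w⁻¹ / v) one_lt_two
  let nn : ℕ → ℕ := fun i => Nat.rec 0 (fun i x => 3 * (x + 2 ^ sq i)) i
  let nx : ℕ → ℕ := fun j => nn (m - j)
  have hn : ∀ j < m, 3 * (nx (j + 1) + 2 ^ l (j + 1)) ≤ nx j := fun j hj => by
    have e : m - j = m - (j + 1) + 1 := by omega
    simp only [nx, l]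
    rw [e]
  refine ⟨m, l, 1 / (2 * (K0 + 1 : ℕ) ^ 2), by positivity, l2, fun Sg Gm _ _ _ _ _ _ => ?_⟩
  obtain ⟨P, k, hP, hk, hgv⟩ := gv_small (2 ^ l 0 + nx 0) (Fintype.card Sg) (Fintype.card Gm) v0
  obtain ⟨t, ht⟩ := exists_t (Sg ⊕ Gm) k l fun j a b => ⌈((((fun x =>
    b ^ x * (2 ^ x) ^ nx (j + 1) * (2 ^ l (j + 1)) ^ x * 2 ^ x) (Fintype.card Sg ^ a) : ℕ) : ℝ) /
      τ0 (l (j + 1))) ^ 2⌉₊
  refine ⟨k, P, t, fun O hO => acc_le _ (η := δ ^ 2 / 2) (by positivity) hδ.le ?_ (by linarith)⟩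
  refine tower_pair l t nx m (K0 + 1) (fun j => vv (l (j + 1))) v0.le
    (fun j => by have := l2 j; omega) hn (fun N _ _ hN nl nr => ?_) (fun i j hi hj => ?_)
    (fun j hj N _ _ hN M hM hF => ?_) m le_rfl Empty (by simp)
  · refine (game_base hk hP K0.succ_pos hO (le_of_eq ?_) hN nl nr).trans hgv
    field_simp
  · have p1 := vp _ (l1 (j + 1))
    have p2 := hv (j + 1) hj
    refine ⟨p1, p2, (hg _).trans (pow_le_pow_right₀ one_le_two (s1 _ _ (by omega))), ?_⟩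
    refine le_trans ?_ (hK.le.trans (pow_le_pow_right₀ one_le_two K0.le_succ))
    have p3 := le_inv_of_le_inv₀ w0 (hw i (by omega))
    gcongr
  · refine htop _ (l1 (j + 1)) Sg Gm k O P _ N (t j) M hM (fun p => ?_) ?_ hF
    · refine (bal_col _ p (by positivity) (hτ j) (bal_tower l t j p.2)).mono ?_
      rw [← pow_mul, ← pow_succ]
      exact pow_le_pow_of_le_one (by norm_num) (by norm_num)
        (Nat.pow_le_pow_right two_pos (by omega))
    · refine le_trans ?_ (le_sqrt_of (τp _ (l1 (j + 1))) (ht j))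
      exact_mod_cast card_le _ N (l (j + 1)) hN

end Vale.Agent.P339
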