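import Vale.Agent.P339.RedB
import Vale.Agent.P339.RedC
import Vale.Agent.P339.Sound

/-! The theorem. -/

namespace Vale.Agent.P339

open Finset Matrix Vale.Agent.P325 Function Vale.Agent.Lib.PCP Vale.Agent.Lib.TM
open Vale.Agent.P325.Lin Vale.Agent.P339N
open scoped BigOperators

set_option linter.unusedSectionVars false

theorem hard {δ : ℝ} (hδ : 0 < δ) : ∃ q : ℕ, 2 ≤ q ∧ ∃ f : CNF3 → P339N.Game, PolyTime f ∧
    ∀ φ, (f φ).TwoToOne q ∧ (Sat φ → (f φ).Perfect q) ∧ (¬ Sat φ → (f φ).ValLe q δ) := by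
  obtain ⟨m, l, s, hs, hl, hS⟩ := sound hδ
  obtain ⟨L, R, dU, dV, lc, hL, hU, -, hc, h⟩ := labelCover_hard hs
  obtain ⟨e, he⟩ := List.exists_mem_of_ne_nil _ (h []).1.1
  obtain ⟨-, -, h1, h2⟩ := (h []).1.2 e he
  have hR : Nonempty (Fin R) := ⟨⟨_, h2 _ (List.getElem_mem (h1 ▸ hL))⟩⟩
  have hL' : Nonempty (Fin L) := ⟨⟨0, hL⟩⟩
  obtain ⟨d⟩ := id hR
  obtain ⟨k, P, t, hA⟩ := hS (Fin L) (Fin R)
  have ok := fun i => (marks_ok (A := Fin L ⊕ Fin R) k l t m i).1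
  have l2 : ∀ i, 2 ≤ (marks (Fin L ⊕ Fin R) k l t m i).l := fun i => by
    obtain ⟨i', -, e⟩ := (marks_ok (A := Fin L ⊕ Fin R) k l t m i).2
    exact e ▸ hl i'
  have l0 : ∀ i, 0 < (marks (Fin L ⊕ Fin R) k l t m i).l := fun i => by
    have := l2 i
    omega
  obtain ⟨q, hq, hcard⟩ := exists_q (ok 0) (l2 0)
  have q0 : 0 < q := by omega
  obtain ⟨cls, rep, hcl⟩ := exists_cls q0 hcard
  have hd := fun i p a (ha : a ≠ 0) => (ok i).dir_ne p ha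
  let eV := Fintype.equivFinOfCardEq hcard
  exact ⟨q, hq, fun φ => red P _ d cls eV (lc φ), ((ct_red _ d cls eV).comp hc).polyTime, fun φ =>
    ⟨red_wf _ d cls eV l0 hd (fun δ hδ => (hcl δ hδ).1) (h φ).1,
      fun hs => red_perfect _ d cls eV q0 ok (fun δ hδ => (hcl δ hδ).2.1) (h φ).1 ((h φ).2.2.1 hs),
      fun hs => red_val _ d cls eV l0 hd rep (fun δ hδ => (hcl δ hδ).2.2) hU (h φ).1 (h φ).2.1
        ((h φ).2.2.2 hs) hA⟩⟩

end Vale.Agent.P339
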