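import Vale.Agent.P339.Defs

/-! The three ways to mark a level. -/

namespace Vale.Agent.P339

open Finset Matrix Vale.Agent.P325 Function
open scoped BigOperators

set_option linter.unusedSectionVars false

variable {A : Type} [Fintype A] [DecidableEq A] {k : ℕ}

lemma marks_kill (S : Sys A k) (p : S.Pa) (z : (S.Lf → A) → F2) (hz : ∀ σ, z ⬝ᵥ S.sp p σ = 0)
    {f g : (S.Lf → A) → F2} (hf : f ∈ Submodule.span F2 (Set.range (S.el p)))
    (hg : g ∈ Submodule.span F2 (Set.range (S.el p))) : z ⬝ᵥ (f * g) = 0 := by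
  induction hf using Submodule.span_induction with
  | zero => simp
  | add a b _ _ ha hb => rw [add_mul, dotProduct_add, ha, hb, add_zero]
  | smul c a _ ha => rw [smul_mul_assoc, dotProduct_smul, ha, smul_zero]
  | mem a ha =>
    obtain ⟨a, rfl⟩ := ha
    induction hg using Submodule.span_induction with
    | zero => simp
    | add a b _ _ ha hb => rw [mul_add, dotProduct_add, ha, hb, add_zero]
    | smul c a _ ha => rw [mul_smul_comm, dotProduct_smul, ha, smul_zero]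
    | mem b hb =>
      obtain ⟨b, rfl⟩ := hb
      have h := hz ![a, b, 0]
      have h0 : S.el p 0 = 0 := funext (S.el_zero p)
      simpa [Sys.sp, h0] using h

lemma marks_e0 (S : Sys A k) (p : S.Pa) (u : Fin k → A → F2) : S.e0 p u = S.el p (S.emb u) := by
  funext ω
  have h := S.el_emb p 0 u ω
  rw [zero_add, S.el_zero, zero_add] at h
  exact h.symm

lemma marks_mem (S : Sys A k) (p : S.Pa) (u : Fin k → A → F2) {l : ℕ} (a : Fin l → F2)
    (ξ : (Fin l → F2) → S.C) :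
    (fun ω => S.e0 p u ω + a ⬝ᵥ ∑ c, S.el p (ξ c) ω • c) ∈
      Submodule.span F2 (Set.range (S.el p)) := by
  have h : (fun ω => S.e0 p u ω + a ⬝ᵥ ∑ c, S.el p (ξ c) ω • c) =
      S.el p (S.emb u) + ∑ c, (a ⬝ᵥ c) • S.el p (ξ c) := by
    funext ω
    rw [marks_e0, dotProduct_sum]
    simp [Finset.sum_apply, mul_comm]
  rw [h]
  exact add_mem (Submodule.subset_span ⟨_, rfl⟩) (Submodule.sum_mem _ fun c _ =>
    Submodule.smul_mem _ _ (Submodule.subset_span ⟨_, rfl⟩))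

lemma marks_mv (S : Sys A k) (p : S.Pa) (u : Fin k → A → F2) {l : ℕ} (a : Fin l → F2)
    (ξ : (Fin l → F2) → S.C) (ω : S.Lf → A) :
    ∑ c, S.el p ((ξ + (Pi.single a (S.emb u) : (Fin l → F2) → S.C)) c) ω • c =
      ∑ c, S.el p (ξ c) ω • c + S.e0 p u ω • a := by
  have h : ∀ c, S.el p ((ξ + (Pi.single a (S.emb u) : (Fin l → F2) → S.C)) c) ω • c =
      S.el p (ξ c) ω • c + if c = a then S.e0 p u ω • a else 0 := fun c => by
    by_cases hc : c = a
    · subst hc
      simp [S.el_emb, Sys.e0, add_smul]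
    · simp [hc]
  simp [-Pi.add_apply, h, sum_add_distrib]

lemma marks_drop (S : Sys A k) (p : S.Pa) {l : ℕ} (a : Fin l → F2)
    (ξ : (Fin l → F2) → S.C) (ω : S.Lf → A) :
    ∑ c, S.el p (ξ c) ω • c = ∑ c, S.el p (update ξ a 0 c) ω • c + S.el p (ξ a) ω • a := by
  have h : ∀ c, S.el p (ξ c) ω • c =
      S.el p (update ξ a 0 c) ω • c + if c = a then S.el p (ξ a) ω • a else 0 := fun c => by
    by_cases hc : c = a
    · subst hc
      simp [S.el_zero]
    · simp [hc]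
  rw [sum_congr rfl fun c _ => h c]
  simp [sum_add_distrib]

lemma marks_upd {I X : Type} [DecidableEq I] [AddCommGroup X] (ξ : I → X) (a : I) (u : X) :
    update (ξ + (Pi.single a u : I → X)) a 0 = update ξ a 0 := by
  funext c
  by_cases hc : c = a
  · subst hc; simp
  · simp [hc]

/-- Hint for `kill`: `tf p ξ x` is `el p x.1 + ∑ c, (x.2 ⬝ᵥ c) • el p (ξ c)` (here `emb = id`), so
it lies in the span of the range of `el p`; `sp p ![g, h, 0] = el g * el h` (`el_zero`); use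
bilinearity (`Submodule.span_induction` twice, or one general lemma for any `Sys` saying that
`z` kills `f * g` for `f g` in the span of the range of `S.el p`). -/
theorem Mark.base_ok (k l : ℕ) : (Mark.base A k l).Ok where
  pr_add _ _ _ := rfl
  pr_smul _ _ _ := rfl
  pr_dir _ _ := rfl
  drop_mv a u ξ := marks_upd ξ a u
  uf_mv p a u ξ ω := marks_mv (Sys.base A k l) p u a ξ ω
  uf_drop p a ξ ω := ⟨_, marks_drop (Sys.base A k l) p a ξ ω⟩
  kill p z hz ξ x y := marks_kill _ p z hz (marks_mem (Sys.base A k l) p x.1 x.2 ξ)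
    (marks_mem (Sys.base A k l) p y.1 y.2 ξ)

/-- Same as `base_ok`; `e0 p u = el p (emb u)` by `el_emb` with `c = 0` and `el_zero`;
`uf_mv`, `uf_drop`: split the sum over `c` at `c = a` (`el p 0 = 0`). -/
theorem Mark.top_ok (S : Sys A k) (t l : ℕ) : (Mark.top S t l).Ok where
  pr_add _ _ _ := rfl
  pr_smul _ _ _ := rfl
  pr_dir _ _ := rfl
  drop_mv a u ξ := Prod.ext (marks_upd ξ.1 a _) (add_zero ξ.2)
  uf_mv p a u ξ ω := by
    refine Prod.ext (marks_mv (S.step t l) p u a ξ.1 ω) ?_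
    change (fun τ => if τ = p.1 then S.uf p.2 (ξ.2.2 + 0) (res ω τ) else (ξ.2.1 + 0) τ (res ω τ)) =
      (fun τ => if τ = p.1 then S.uf p.2 ξ.2.2 (res ω τ) else ξ.2.1 τ (res ω τ)) +
        (S.step t l).e0 p u ω • (0 : Fin (t + 1) → S.Lab)
    rw [add_zero, add_zero, smul_zero, add_zero]
  uf_drop p a ξ ω := by
    refine ⟨(S.step t l).el p (ξ.1 a) ω, Prod.ext (marks_drop (S.step t l) p a ξ.1 ω) ?_⟩
    change (fun τ => if τ = p.1 then S.uf p.2 ξ.2.2 (res ω τ) else ξ.2.1 τ (res ω τ)) =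
      (fun τ => if τ = p.1 then S.uf p.2 ξ.2.2 (res ω τ) else ξ.2.1 τ (res ω τ)) +
        (S.step t l).el p (ξ.1 a) ω • (0 : Fin (t + 1) → S.Lab)
    rw [smul_zero, add_zero]
  kill p z hz ξ x y := marks_kill _ p z hz (marks_mem (S.step t l) p x.1 x.2 ξ.1)
    (marks_mem (S.step t l) p y.1 y.2 ξ.1)

/-- `kill`: `(S.step t l).sp p ![0, 0, (0, σ)] ω = S.sp p.2 σ (res ω p.1)`, and
`(M.lift t l).tf p ξ x ω = M.tf p.2 ξ.2.2 x (res ω p.1)`; apply `h.kill` to
`push (fun ω => res ω p.1) z` and use `push_dot`. -/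
theorem Mark.lift_ok {S : Sys A k} {M : Mark S} (h : M.Ok) (t l : ℕ) : (M.lift t l).Ok where
  pr_add p L L' := h.pr_add p.2 (L.2 p.1) (L'.2 p.1)
  pr_smul p b L := h.pr_smul p.2 b (L.2 p.1)
  pr_dir p a := by
    change M.pr p.2 ((Pi.single p.1 (M.dir p.2 a) : Fin (t + 1) → S.Lab) p.1) = a
    rw [Pi.single_eq_same]
    exact h.pr_dir p.2 a
  drop_mv a u ξ := Prod.ext (add_zero ξ.1) (Prod.ext (add_zero ξ.2.1) (h.drop_mv a u ξ.2.2))
  uf_mv p a u ξ ω := by
    refine Prod.ext ?_ (funext fun τ => ?_)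
    · change ∑ c, (∑ τ, S.col p ((ξ.1 + 0) c) (τ, res ω τ)) • c =
        ∑ c, (∑ τ, S.col p (ξ.1 c) (τ, res ω τ)) • c + (S.step t l).e0 p u ω • (0 : Fin l → F2)
      rw [add_zero, smul_zero, add_zero]
    · change (if τ = p.1 then S.uf p.2 (ξ.2.2 + M.mv a u) (res ω τ) else (ξ.2.1 + 0) τ (res ω τ)) =
        (if τ = p.1 then S.uf p.2 ξ.2.2 (res ω τ) else ξ.2.1 τ (res ω τ)) +
          S.e0 p.2 u (res ω p.1) • (Pi.single p.1 (M.dir p.2 a) : Fin (t + 1) → S.Lab) τ
      by_cases hτ : τ = p.1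
      · subst hτ
        rw [if_pos rfl, if_pos rfl, Pi.single_eq_same]
        exact h.uf_mv p.2 a u ξ.2.2 _
      · rw [if_neg hτ, if_neg hτ, Pi.single_eq_of_ne hτ, smul_zero, add_zero, add_zero]
  uf_drop p a ξ ω := by
    obtain ⟨b, hb⟩ := h.uf_drop p.2 a ξ.2.2 (res ω p.1)
    refine ⟨b, Prod.ext ?_ (funext fun τ => ?_)⟩
    · change ∑ c, (∑ τ, S.col p (ξ.1 c) (τ, res ω τ)) • c =
        ∑ c, (∑ τ, S.col p (ξ.1 c) (τ, res ω τ)) • c + b • (0 : Fin l → F2)
      rw [smul_zero, add_zero]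
    · change (if τ = p.1 then S.uf p.2 ξ.2.2 (res ω τ) else ξ.2.1 τ (res ω τ)) =
        (if τ = p.1 then S.uf p.2 (M.drop a ξ.2.2) (res ω τ) else ξ.2.1 τ (res ω τ)) +
          b • (Pi.single p.1 (M.dir p.2 a) : Fin (t + 1) → S.Lab) τ
      by_cases hτ : τ = p.1
      · subst hτ
        rw [if_pos rfl, if_pos rfl, Pi.single_eq_same, hb]
      · rw [if_neg hτ, if_neg hτ, Pi.single_eq_of_ne hτ, smul_zero, add_zero]
  kill p z hz ξ x y := by
    have htf : ∀ x, (M.lift t l).tf p ξ x = M.tf p.2 ξ.2.2 x ∘ fun ω => res ω p.1 := fun x => by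
      funext ω
      change S.e0 p.2 x.1 (res ω p.1) + x.2 ⬝ᵥ M.pr p.2
        (if p.1 = p.1 then S.uf p.2 ξ.2.2 (res ω p.1) else ξ.2.1 p.1 (res ω p.1)) = _
      rw [if_pos rfl]
      rfl
    have hk := h.kill p.2 (push (fun ω : (S.step t l).Lf → A => res ω p.1) z) (fun σ => by
      rw [push_dot, ← hz ![0, 0, ((0, σ) : S.CC t)]]
      congr 1
      funext ω
      have h0 := (S.step t l).el_zero p ω
      change _ = (S.step t l).el p 0 ω * (S.step t l).el p 0 ω +
        ∑ τ, S.col p ((0, σ) : S.CC t) (τ, res ω τ)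
      rw [h0, mul_zero, zero_add]
      simp [Sys.col]) ξ.2.2 x y
    rw [push_dot] at hk
    rw [htf, htf]
    exact hk

/-- `pr p 0 = 0` by `pr_add`, and `pr_dir`. -/
theorem Mark.Ok.dir_ne {S : Sys A k} {M : Mark S} (h : M.Ok) (p : S.Pa) {a : Fin M.l → F2}
    (ha : a ≠ 0) : M.dir p a ≠ 0 := by
  intro h0
  have h1 := h.pr_add p 0 0
  rw [add_zero] at h1
  have h2 : M.pr p 0 = 0 := by simpa using h1
  exact ha (by rw [← h.pr_dir p a, h0, h2])

end Vale.Agent.P339
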