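import Vale.Agent.P339.Planted

/-! The path child is hidden in the left vertex. -/

namespace Vale.Agent.P339

open Finset Matrix Vale.Agent.P325 Function
open scoped BigOperators

set_option linter.unusedSectionVars false

variable {Sg Gm : Type} [Fintype Sg] [DecidableEq Sg] [Nonempty Sg] [Fintype Gm] [DecidableEq Gm]
  [Nonempty Gm] {k : ℕ} {O : LCd Sg Gm} {P : ℕ} {S : Sys (Sg ⊕ Gm) k} {N : Type} [Fintype N]
  [DecidableEq N] {t l : ℕ}

lemma MmInv_col {A : Type} [Fintype A] [DecidableEq A] (S : Sys A k) (p : Fin (t + 1) × S.Pa)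
    (c : S.CC t) (x : Fin (t + 1) → (S.Lf → A) → F2) (i : Fin (t + 1) × (S.Lf → A)) :
    S.col p (c + (x, 0)) i = S.col p c i + if i.1 = p.1 then 0 else x i.1 i.2 := by
  by_cases h : i.1 = p.1 <;> simp [Sys.col, h]

lemma MmInv_sum (x : Fin l → F2) (j : Fin l) :
    ∑ c : Fin l → F2, (∑ j', if c = Pi.single j' 1 then x j' else 0) * c j = x j := by
  simp only [sum_mul, ite_mul, zero_mul]
  rw [sum_comm]
  simp [Pi.single_apply]

/-- Let `ρ : Sg ⊕ Gm → Sg := Sum.elim id fun _ => Classical.arbitrary _`. Translate the parameters: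
add `((v.1 τ').1 (ρ ∘ w))` to `xi.2.1 τ' w`, add `(fun τ' w => (v.1 τ').2 n (ρ ∘ w), 0)` to `ex n`,
and add `∑ j, Pi.single (Pi.single j 1) (fun τ' w => v.2 (τ', ρ ∘ w) j, 0)` to `xi.1`
(`Equiv.addRight` in these two components). Use
`S.col p (c + (x, 0)) i = S.col p c i + if i.1 = p.1 then 0 else x i.1 i.2`. -/
theorem mm_inv (us : Fin (t + 1) × S.Lf → O.U) :
    Inv fun τ (z : Zt O P S N t l) => (mkS us τ z).mm := by
  intro τ v h1 h2
  let ρ : Sg ⊕ Gm → Sg := Sum.elim id fun _ => Classical.arbitrary _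
  let a : (Fin l → F2) → S.CC t := fun c =>
    (fun τ' w => ∑ j, if c = Pi.single j 1 then v.2 (τ', ρ ∘ w) j else 0, 0)
  let b : Fin (t + 1) → (S.Lf → Sg ⊕ Gm) → S.Lab := fun τ' w => (v.1 τ').1 (ρ ∘ w)
  let d : N → S.CC t := fun n => (fun τ' w => (v.1 τ').2 n (ρ ∘ w), 0)
  refine ⟨(Equiv.refl _).prodCongr ((Equiv.refl _).prodCongr ((Equiv.refl _).prodCongr
    (((Equiv.addRight a).prodCongr ((Equiv.addRight b).prodCongr (Equiv.refl S.Xi))).prodCongr
      ((Equiv.refl _).prodCongr (Equiv.addRight d))))), fun z => ?_⟩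
  refine Prod.ext (funext fun τ' => Prod.ext (funext fun w => ?_)
    (funext fun n => funext fun w => ?_)) (Matrix.ext fun i j => ?_)
  · change (if τ' = τ then (mkS us τ z).low w else z.2.2.2.1.2.1 τ' (Sum.inl ∘ w) + (v.1 τ').1 w) =
      (if τ' = τ then (mkS us τ z).low w else z.2.2.2.1.2.1 τ' (Sum.inl ∘ w)) + (v.1 τ').1 w
    split_ifs with h
    · simp [h, h1]
    · rfl
  · refine (MmInv_col S _ _ _ _).trans (congrArg _ ?_)
    change (if τ' = τ then 0 else (v.1 τ').2 n (ρ ∘ if τ' = τ then _ else Sum.inl ∘ w)) =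
      (v.1 τ').2 n w
    split_ifs with h
    · simp [h, h1]
    · rfl
  · change ∑ c, S.col (τ, z.2.1) (z.2.2.2.1.1 c + a c) ((mkS us τ z).vwc i) * c j + _ =
      ∑ c, S.col (τ, z.2.1) (z.2.2.2.1.1 c) ((mkS us τ z).vwc i) * c j + _ + v.2 i j
    simp only [a, MmInv_col, add_mul, sum_add_distrib]
    rw [add_right_comm]
    refine congrArg₂ _ rfl ?_
    change ∑ c : Fin l → F2, (if i.1 = τ then 0 else ∑ j', if c = Pi.single j' 1 then
      v.2 (i.1, ρ ∘ if i.1 = τ then _ else Sum.inl ∘ i.2) j' else 0) * c j = _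
    by_cases h : i.1 = τ
    · obtain ⟨i, w⟩ := i
      subst h
      simp [h2]
    · simp only [if_neg h]
      exact MmInv_sum (v.2 i) j

theorem ex_mkS' {Y : Type} [Fintype Y] (f : Smp O P (S.step t l) N → Y → ℝ) :
    𝔼 us, 𝔼 ξ : Fin (t + 1) × (Zt O P S N t l × Y), f (mkS us ξ.1 ξ.2.1) ξ.2.2 =
      𝔼 s, 𝔼 y, f s y := by
  rw [ex_mkS]
  simp only [ex_prod]

end Vale.Agent.P339
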