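import Vale.Agent.P339.Defs2

/-! Choice of parameters. -/

namespace Vale.Agent.P339

open Finset Matrix Vale.Agent.P325 Function
open scoped BigOperators

set_option linter.unusedSectionVars false

theorem num_sq (K : ℕ) : ∃ l0 : ℕ, ∀ l ≥ l0, K * l ^ 2 ≤ 2 ^ l := by
  have h := (tendsto_pow_const_div_const_pow_of_one_lt 2 (one_lt_two (α := ℝ))).const_mul (K : ℝ)
  rw [mul_zero] at h
  obtain ⟨l0, h0⟩ := Filter.eventually_atTop.1 (h.eventually (ge_mem_nhds one_pos))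
  refine ⟨l0, fun l hl => ?_⟩
  have h1 := h0 l hl
  rw [← mul_div_assoc, div_le_one (by positivity)] at h1
  exact_mod_cast h1

/-- `(1 - 2 τ) ^ n ≤ 2⁻¹` for some `n`; so it suffices that `2 ^ (l - r - 1)` is at least
`n * (c0 + 2 * (r * l + l * l))` where `2⁻¹ ^ c0 ≤ c ^ 2`, which holds for large `l`
(for instance from `tendsto_pow_const_div_const_pow_of_one_lt`, or `l ^ 3 ≤ 6 * 2 ^ l`-type bounds). -/
theorem exists_l0 {τ c : ℝ} (h0 : 0 < τ) (h1 : τ ≤ 1 / 2) (hc : 0 < c) (r : ℕ) :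
    ∃ l0 : ℕ, ∀ l ≥ l0, (1 - 2 * τ) ^ 2 ^ (l - r - 1) ≤ (c * (2 ^ r : ℝ)⁻¹ ^ l / 2 ^ (l * l)) ^ 2 := by
  have x0 : 0 ≤ 1 - 2 * τ := by linarith
  have x1 : 1 - 2 * τ < 1 := by linarith
  obtain ⟨n, hn⟩ := exists_pow_lt_of_lt_one (by norm_num : (0 : ℝ) < 2⁻¹) x1
  obtain ⟨c0, hc0⟩ := exists_pow_lt_of_lt_one (pow_pos hc 2) (by norm_num : (2 : ℝ)⁻¹ < 1)
  obtain ⟨l0, hl0⟩ := num_sq (2 ^ (r + 1) * (n * (c0 + 4)))
  refine ⟨max l0 (r + 1), fun l hl => ?_⟩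
  have h2 := hl0 l (le_of_max_le_left hl)
  obtain ⟨m, rfl⟩ : ∃ m, l = r + 1 + m := ⟨l - (r + 1), by have := le_of_max_le_right hl; omega⟩
  rw [show r + 1 + m - r - 1 = m by omega]
  rw [pow_add 2 (r + 1) m, mul_assoc] at h2
  have h3 := Nat.le_of_mul_le_mul_left h2 (by positivity)
  have h4 : r ≤ r + 1 + m := by omega
  have h5 : 1 ≤ r + 1 + m := by omega
  generalize r + 1 + m = l at h3 h4 h5
  have h6 : n * (c0 + 2 * (r * l + l * l)) ≤ 2 ^ m := by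
    refine le_trans ?_ h3
    rw [mul_assoc]
    refine Nat.mul_le_mul_left n ?_
    have a1 : r * l ≤ l * l := Nat.mul_le_mul_right l h4
    have a2 : c0 * 1 ≤ c0 * (l * l) := Nat.mul_le_mul_left c0 (Nat.mul_pos h5 h5)
    nlinarith
  calc (1 - 2 * τ) ^ 2 ^ m ≤ (1 - 2 * τ) ^ (n * (c0 + 2 * (r * l + l * l))) :=
        pow_le_pow_of_le_one x0 x1.le h6
    _ ≤ (2⁻¹ : ℝ) ^ (c0 + 2 * (r * l + l * l)) := by
        rw [pow_mul]
        exact pow_le_pow_left₀ (pow_nonneg x0 n) hn.le _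
    _ = 2⁻¹ ^ c0 * ((2 ^ r : ℝ)⁻¹ ^ l / 2 ^ (l * l)) ^ 2 := by
        rw [pow_add, mul_comm 2, pow_mul, pow_add, div_eq_mul_inv, ← inv_pow, ← inv_pow, ← pow_mul]
    _ ≤ c ^ 2 * ((2 ^ r : ℝ)⁻¹ ^ l / 2 ^ (l * l)) ^ 2 := by gcongr
    _ = _ := by rw [mul_div_assoc, mul_pow]

/-- Iterate `x ↦ max x ((range (x + 1)).sup g)` from `l0`. -/
theorem exists_seq (g : ℕ → ℕ) (l0 : ℕ) :
    ∃ s : ℕ → ℕ, (∀ n, l0 ≤ s n) ∧ ∀ n n', n < n' → g (s n) ≤ s n' := by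
  let s : ℕ → ℕ := fun n => Nat.rec l0 (fun _ x => max x (g x)) n
  have hs : Monotone s := monotone_nat_of_le_succ fun n => le_max_left _ _
  exact ⟨s, fun n => hs (Nat.zero_le n), fun n n' h =>
    (le_max_right (s n) (g (s n))).trans (hs (Nat.succ_le_of_lt h))⟩

/-- Define `st 0 = (k, 2 ^ l 0)`,
`st (j + 1) = ((g j a b + 1) * a, 2 ^ l (j + 1) * b ^ (g j a b + 1))` for `(a, b) = st j`, put
`t j = g j (st j).1 (st j).2`, and show by induction that `st j` is the pair of cardinalities. -/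
theorem exists_t (A : Type) [Fintype A] [DecidableEq A] (k : ℕ) (l : ℕ → ℕ) (g : ℕ → ℕ → ℕ → ℕ) :
    ∃ t : ℕ → ℕ, ∀ j,
      g j (Fintype.card (tower A k l t j).Lf) (Fintype.card (tower A k l t j).Lab) ≤ t j := by
  let st : ℕ → ℕ × ℕ := fun j => Nat.rec (k, 2 ^ l 0)
    (fun j x => ((g j x.1 x.2 + 1) * x.1, 2 ^ l (j + 1) * x.2 ^ (g j x.1 x.2 + 1))) j
  let t : ℕ → ℕ := fun j => g j (st j).1 (st j).2
  have hF : ∀ n, Nat.card (Fin n → F2) = 2 ^ n := fun n => by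
    rw [Nat.card_fun, Nat.card_zmod, Nat.card_fin]
  have key : ∀ j, Nat.card (tower A k l t j).Lf = (st j).1 ∧
      Nat.card (tower A k l t j).Lab = (st j).2 := by
    intro j
    induction j with
    | zero => exact ⟨Nat.card_fin k, hF _⟩
    | succ j ih =>
      constructor
      · change Nat.card (Fin (t j + 1) × (tower A k l t j).Lf) = (t j + 1) * (st j).1
        rw [Nat.card_prod, Nat.card_fin, ih.1]
      · change Nat.card ((Fin (l (j + 1)) → F2) × (Fin (t j + 1) → (tower A k l t j).Lab)) =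
          2 ^ l (j + 1) * (st j).2 ^ (t j + 1)
        rw [Nat.card_prod, hF, Nat.card_fun, Nat.card_fin, ih.2]
  refine ⟨t, fun j => ?_⟩
  rw [← Nat.card_eq_fintype_card, ← Nat.card_eq_fintype_card, (key j).1, (key j).2]

end Vale.Agent.P339
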