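import Vale.Agent.P339.Defs2

/-! Noise with a planted child is as good as uniform noise. -/

namespace Vale.Agent.P339

open Finset Matrix Vale.Agent.P325 Function
open scoped BigOperators

set_option linter.unusedSectionVars false

section
variable {T X Y Z : Type} [Fintype T] [DecidableEq T] [Fintype X] [Nonempty X] [Fintype Y]
  [Nonempty Y] [Fintype Z]

lemma plant_res (τ : T) (F : (T → Y) → ℝ) : 𝔼 n, F n = 𝔼 n, 𝔼 y, F (update n τ y) := by
  have h := ex_equiv (Involutive.toPerm (fun p : (T → Y) × Y => (update p.1 τ p.2, p.1 τ))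
    fun p => by simp) fun p => F p.1
  simp only [ex_prod, Fintype.expect_const] at h
  exact h.symm

lemma plant_pt (x : X) (h : X → ℝ) : 𝔼 x', Fintype.card X * (ind (x = x') * h x') = h x := by
  rw [ex_mul, ex_eq, sum_ind_mul, mul_div_cancel₀ _ (by positivity)]

lemma plant_push (m : Z → X) (h : Z → ℝ) (a : X → ℝ) :
    𝔼 z, h z * a (m z) = 𝔼 x, (Fintype.card X * 𝔼 z, ind (m z = x) * h z) * a x := by
  simp only [← ex_mul, ← ex_mul']
  rw [ex_comm]
  refine congrArg _ (funext fun z => ?_)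
  rw [← plant_pt (m z) fun x => h z * a x]
  simp only [mul_assoc]

lemma plant_var [Nonempty T] (D : T → Y → ℝ) {M : ℝ} (h0 : ∀ τ, 𝔼 y, D τ y = 0)
    (h1 : ∀ τ y, |D τ y| ≤ M) :
    𝔼 n : T → Y, (𝔼 τ, D τ (n τ)) ^ 2 ≤ M ^ 2 / Fintype.card T := by
  have hT : (0 : ℝ) < Fintype.card T := by positivity
  simp only [sq, ← ex_mul, ← ex_mul']
  rw [ex_comm]
  refine ex_le fun τ => ?_
  rw [ex_comm, le_div_iff₀' hT, ← ex_mul, ← plant_pt τ fun _ => M * M]
  refine ex_mono fun τ' => mul_le_mul_of_nonneg_left ?_ hT.le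
  by_cases h : τ = τ'
  · rw [ind_pos h, one_mul, h]
    exact ex_le fun n => (abs_mul_abs_self _).ge.trans
      (mul_self_le_mul_self (abs_nonneg _) (h1 _ _))
  · rw [ind_neg h, zero_mul, plant_res τ']
    simp only [update_self, update_of_ne h, ex_mul', h0, zero_mul, le_refl,
      Fintype.expect_const]

lemma plant_cur [Nonempty T] [Nonempty Z] {Sd : Type} [Fintype Sd] [Nonempty Sd] (mm : T → Z → X)
    {B : ℝ} (hB : ∀ τ x, rho (mm τ) x ≤ B) (w : T → Z → Sd → Y) (g : T → Z → ℝ)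
    (g0 : ∀ τ z, 0 ≤ g τ z) (g1 : ∀ τ z, g τ z ≤ 1) (a : X → (T → Y) → ℝ)
    (a0 : ∀ x n, 0 ≤ a x n) (a1 : ∀ x n, a x n ≤ 1) :
    𝔼 τ, 𝔼 z, 𝔼 n : T → Y, 𝔼 σ, g τ z * a (mm τ z) (update n τ (w τ z σ)) ≤
      𝔼 τ, 𝔼 z, 𝔼 n : T → Y, g τ z * a (mm τ z) n +
        B * Fintype.card Y / √(Fintype.card T) := by
  have hY : (1 : ℝ) ≤ Fintype.card Y := by exact_mod_cast Fintype.card_pos
  have r0 : ∀ τ z y, 0 ≤ rho (w τ z) y := fun τ z y =>
    mul_nonneg (Nat.cast_nonneg _) (ex_nonneg fun _ => ind_nonneg _)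
  have r1 : ∀ τ z y, rho (w τ z) y ≤ Fintype.card Y := fun τ z y =>
    mul_le_of_le_one_right (Nat.cast_nonneg _) (ex_le fun _ => ind_le_one _)
  obtain ⟨D, hD⟩ : ∃ D : X → T → Y → ℝ, D = fun x τ y => Fintype.card X *
    𝔼 z, ind (mm τ z = x) * (g τ z * (rho (w τ z) y - 1)) := ⟨_, rfl⟩
  have d0 : ∀ x τ, 𝔼 y, D x τ y = 0 := fun x τ => by
    simp only [hD, ex_mul]
    rw [ex_comm]
    simp only [ex_mul, ex_sub, ex_rho, Fintype.expect_const, sub_self, mul_zero]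
  have d1 : ∀ x τ y, |D x τ y| ≤ B * Fintype.card Y := fun x τ y => by
    refine le_trans ?_ (mul_le_mul_of_nonneg_right (hB τ x) (Nat.cast_nonneg _))
    simp only [hD]
    rw [rho, abs_mul, Nat.abs_cast, mul_assoc, ← ex_mul']
    refine mul_le_mul_of_nonneg_left ((abs_expect_le _ _).trans (ex_mono fun z => ?_))
      (Nat.cast_nonneg _)
    rw [abs_mul, abs_of_nonneg (ind_nonneg _), abs_mul, abs_of_nonneg (g0 τ z)]
    refine mul_le_mul_of_nonneg_left ((mul_le_of_le_one_left (abs_nonneg _) (g1 τ z)).trans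
      (abs_le.2 ⟨?_, ?_⟩)) (ind_nonneg _) <;> linarith [r0 τ z y, r1 τ z y]
  have e1 : ∀ τ z, 𝔼 n : T → Y, 𝔼 σ, g τ z * a (mm τ z) (update n τ (w τ z σ)) =
      𝔼 n : T → Y, g τ z * a (mm τ z) n +
        𝔼 n : T → Y, g τ z * (rho (w τ z) (n τ) - 1) * a (mm τ z) n := fun τ z => by
    rw [← ex_add, plant_res τ fun n => g τ z * a (mm τ z) n + _]
    refine congrArg _ (funext fun n => ?_)
    rw [rho_ex (w τ z) fun y => g τ z * a (mm τ z) (update n τ y)]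
    refine congrArg _ (funext fun y => ?_)
    rw [update_self]
    ring
  have e2 : 𝔼 τ, 𝔼 z, 𝔼 n : T → Y, g τ z * (rho (w τ z) (n τ) - 1) * a (mm τ z) n =
      𝔼 x, 𝔼 n : T → Y, (𝔼 τ, D x τ (n τ)) * a x n := by
    have e3 : ∀ τ, 𝔼 z, 𝔼 n : T → Y, g τ z * (rho (w τ z) (n τ) - 1) * a (mm τ z) n =
        𝔼 x, 𝔼 n : T → Y, D x τ (n τ) * a x n := fun τ => by
      rw [hD]
      exact (ex_comm _).trans ((congrArg _ (funext fun n =>
        plant_push (mm τ) _ fun x => a x n)).trans (ex_comm _))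
    simp only [e3, ← ex_mul']
    rw [ex_comm]
    exact congrArg _ (funext fun x => ex_comm _)
  simp only [e1, ex_add, e2]
  refine add_le_add_right (ex_le fun x => (ex_mul_le _ _).trans ?_) _
  have hM : 0 ≤ B * Fintype.card Y :=
    (abs_nonneg _).trans (d1 x (Classical.arbitrary T) (Classical.arbitrary Y))
  refine (mul_le_of_le_one_right (Real.sqrt_nonneg _) (Real.sqrt_le_one.2
    (ex_le fun n => pow_le_one₀ (a0 x n) (a1 x n)))).trans
      ((Real.sqrt_le_sqrt (plant_var (D x) (d0 x) (d1 x))).trans_eq ?_)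
  rw [Real.sqrt_div (sq_nonneg _), Real.sqrt_sq hM]

end

/-- Put `Δ τ x y = card X * 𝔼 z, ind (mm τ z = x) * g τ z * (card Y * 𝔼 σ, ind (w τ z σ = y) - 1)`
with `Y = Ω → F2`. Then left minus right is `𝔼 x, 𝔼 n, Ag x n * 𝔼 τ, Δ τ x (fun i => n (τ, i))`;
`𝔼 y, Δ τ x y = 0`, `|Δ| ≤ B * card Y`, different `τ` are orthogonal over `n`, so
`𝔼 n, (𝔼 τ, Δ ..) ^ 2 ≤ (B * card Y) ^ 2 / t`; finish with `ex_mul_le`. It may be easier to curry
`n` first (`ex_equiv (Equiv.curry ..)`, `n : Fin t → Y`, planting is `update n τ`). -/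
theorem plant {t : ℕ} (ht : 0 < t) {X Z Ω Sd : Type} [Fintype X] [Nonempty X] [Fintype Z]
    [Nonempty Z] [Fintype Ω] [DecidableEq Ω] [Fintype Sd] [Nonempty Sd] (mm : Fin t → Z → X)
    {B : ℝ} (hB : ∀ τ x, rho (mm τ) x ≤ B) (w : Fin t → Z → Sd → Ω → F2) (g : Fin t → Z → ℝ)
    (g0 : ∀ τ z, 0 ≤ g τ z) (g1 : ∀ τ z, g τ z ≤ 1) (a : X → (Fin t × Ω → F2) → ℝ)
    (a0 : ∀ x n, 0 ≤ a x n) (a1 : ∀ x n, a x n ≤ 1) :
    𝔼 τ, 𝔼 z, 𝔼 n : Fin t × Ω → F2, 𝔼 σ,
        g τ z * a (mm τ z) (fun i => if i.1 = τ then w τ z σ i.2 else n i) ≤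
      𝔼 τ, 𝔼 z, 𝔼 n : Fin t × Ω → F2, g τ z * a (mm τ z) n +
        B * Fintype.card (Ω → F2) / √t := by
  have : Nonempty (Fin t) := ⟨⟨0, ht⟩⟩
  have h := plant_cur mm hB w g g0 g1 (fun x n => a x (uncurry n)) (fun _ _ => a0 _ _)
    fun _ _ => a1 _ _
  have e : ∀ τ (n : Fin t → Ω → F2) (y : Ω → F2), uncurry (update n τ y) =
      fun i => if i.1 = τ then y i.2 else uncurry n i := fun τ n y => by
    funext i
    by_cases hi : i.1 = τ
    · rw [if_pos hi, ← hi, uncurry, update_self]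
    · rw [if_neg hi, uncurry, update_of_ne hi, uncurry]
  simp only [e, Fintype.card_fin] at h
  simp only [← ex_equiv (Equiv.curry (Fin t) Ω F2).symm]
  exact h

end Vale.Agent.P339
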