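import Vale.Agent.P339.Patch
import Vale.Agent.P339.MmInv
import Vale.Agent.P339.Plant

/-! Uniform noise and one guessed bit. -/

namespace Vale.Agent.P339

open Finset Matrix Vale.Agent.P325 Function
open scoped BigOperators

set_option linter.unusedSectionVars false

variable {Sg Gm : Type} [Fintype Sg] [DecidableEq Sg] [Nonempty Sg] [Fintype Gm] [DecidableEq Gm]
  [Nonempty Gm] {k : ℕ} {O : LCd Sg Gm} {P : ℕ} {S : Sys (Sg ⊕ Gm) k} {N : Type} [Fintype N]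
  [DecidableEq N] {t l : ℕ}

lemma pairA2_nz {m : ℕ} (h : 0 < m) : Nonempty (NZ m) :=
  ⟨⟨fun _ => 1, fun e => one_ne_zero (congrFun e ⟨0, h⟩)⟩⟩

lemma pairA2_pt (s : Smp O P (S.step t l) N) (c₀ : S.CC t)
    (a : (Fin (t + 1) × (S.Lf → Sg) → F2) → ℝ) :
    𝔼 c : (S.step t l).C, a (fun i => S.col s.p c₀ (s.vwc i) + S.col s.p c (s.vwc i)) =
      𝔼 n : Fin (t + 1) × (S.Lf → Sg) → F2, 𝔼 σ : Fin 3 → S.C, a (fun i => if i.1 = s.p.1 then
        S.col s.p c₀ (s.vwc (s.p.1, i.2)) + S.sp s.p.2 σ (s.vwc (s.p.1, i.2)).2 else n i) := by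
  refine (ex_prod fun c : (Fin (t + 1) → (S.Lf → Sg ⊕ Gm) → F2) × (Fin 3 → S.C) =>
    a (fun i => S.col s.p c₀ (s.vwc i) + S.col s.p c (s.vwc i))).trans ?_
  rw [ex_comm, ex_comm (fun n : Fin (t + 1) × (S.Lf → Sg) → F2 => _)]
  refine congrArg _ (funext fun σ => ?_)
  rw [← ex_shift' (fun i => S.col s.p c₀ (s.vwc i)), ← ex_hom
    (φ := fun (x : Fin (t + 1) → (S.Lf → Sg ⊕ Gm) → F2) (i : Fin (t + 1) × (S.Lf → Sg)) =>
      x i.1 (Sum.inl ∘ i.2)) (fun _ _ => rfl)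
    (fun y => ⟨fun τ w => y (τ, fun j => Sum.elim id (fun _ => Classical.arbitrary Sg) (w j)), rfl⟩)]
  refine congrArg _ (funext fun x => congrArg a (funext fun i => ?_))
  obtain ⟨τ, w⟩ := i
  by_cases h : τ = s.p.1
  · subst h
    simp [Sys.col, Smp.vwc]
  · simp [Sys.col, Smp.vwc, h]

theorem pairA2 (M : Mark S) (hM : 0 < M.l) (hl : 0 < l)
    (F : LI O (S.step t l) N → (S.step t l).Lab)
    (G : (Fin M.l → F2) → RI O P (S.step t l) N → (S.step t l).Lab) :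
    𝔼 s : Smp O P (S.step t l) N, 𝔼 a : NZ M.l, 𝔼 a' : NZ l, 𝔼 c : (S.step t l).C,
      ind (s.pass (M.lift t l) F G a.1) * ind (Ag F s.us s.mm a'.1
        fun i => S.col s.p (s.xi.1 a'.1) (s.vwc i) + S.col s.p c (s.vwc i)) ≤
    𝔼 s : Smp O P (S.step t l) N, 𝔼 a : NZ M.l, 𝔼 a' : NZ l, 𝔼 n,
      ind (s.pass (M.lift t l) F G a.1) * ind (Ag F s.us s.mm a'.1 n) +
      Fintype.card (D0 S N) * Fintype.card ((S.Lf → Sg) → Fin l → F2) *
        Fintype.card ((S.Lf → Sg) → F2) / √(t + 1 : ℕ) := by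
  have := pairA2_nz hM
  have := pairA2_nz hl
  rw [ex_comm, ex_comm fun s : Smp O P (S.step t l) N => _,
    ← Fintype.expect_const (ι := NZ M.l) (_ / √_ : ℝ), ← ex_add]
  refine ex_mono fun a => ?_
  rw [ex_comm, ex_comm fun s : Smp O P (S.step t l) N => _,
    ← Fintype.expect_const (ι := NZ l) (_ / √_ : ℝ), ← ex_add]
  refine ex_mono fun a' => ?_
  rw [ex_mkS, ex_mkS, ← Fintype.expect_const (ι := Fin (t + 1) × S.Lf → O.U) (_ / √_ : ℝ), ← ex_add]
  refine ex_mono fun us => ?_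
  refine le_trans (le_of_eq ?_) (plant (Nat.succ_pos t)
    (fun τ (z : Zt O P S N t l) => (mkS us τ z).mm) (planted_dens (mm_inv us))
    (fun τ z (σ : Fin 3 → S.C) w0 => S.col (mkS us τ z).p ((mkS us τ z).xi.1 a'.1)
      ((mkS us τ z).vwc (τ, w0)) + S.sp (mkS us τ z).p.2 σ ((mkS us τ z).vwc (τ, w0)).2)
    (fun τ z => ind ((mkS us τ z).pass (M.lift t l) F G a.1)) (fun _ _ => ind_nonneg _)
    (fun _ _ => ind_le_one _) (fun x n => ind (Ag F us x a'.1 n)) (fun _ _ => ind_nonneg _)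
    fun _ _ => ind_le_one _)
  refine congrArg _ (funext fun τ => congrArg _ (funext fun z => ?_))
  exact pairA2_pt (mkS us τ z) _ fun n =>
    ind ((mkS us τ z).pass (M.lift t l) F G a.1) * ind (Ag F us (mkS us τ z).mm a'.1 n)

theorem pairA3 (M : Mark S) (F : LI O (S.step t l) N → (S.step t l).Lab)
    (G : (Fin M.l → F2) → RI O P (S.step t l) N → (S.step t l).Lab) :
    𝔼 s : Smp O P (S.step t l) N, 𝔼 a : NZ M.l, 𝔼 a' : NZ l, 𝔼 n,
      ind (s.pass (M.lift t l) F G a.1) * ind (Ag F s.us s.mm a'.1 n) ≤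
    2 * 𝔼 s : Smp O P (S.step t l) N, 𝔼 y : NZ M.l × F2, 𝔼 a' : NZ l, 𝔼 n,
      ind (F (asm s.us s.mm) = s.lb M G y.1.1 y.2 ∧ Ag F s.us s.mm a'.1 n) := by
  rw [← ex_mul]
  refine ex_mono fun s => ?_
  rw [ex_prod, ← ex_mul]
  refine ex_mono fun a => ?_
  simp only [ind_and, ex_mul, ex_mul']
  rw [← mul_assoc]
  refine mul_le_mul_of_nonneg_right ?_ (ex_nonneg fun _ => ex_nonneg fun _ => ind_nonneg _)
  by_cases h : s.pass (M.lift t l) F G a.1
  · obtain ⟨b, hb⟩ := id h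
    have h1 : F (asm s.us s.mm) = s.lb M G a.1 b := by
      rw [← Smp.li_asm]
      exact (Equiv.symm_apply_eq _).1 hb
    rw [ind_pos h]
    refine le_trans (le_of_eq ?_) (mul_le_mul_of_nonneg_left
      (ex_mono (f := fun β : F2 => ind (β = b)) fun β => ind_mono fun e => e ▸ h1) zero_le_two)
    simp [ind_eq_ite]
  · rw [ind_neg h]
    exact mul_nonneg zero_le_two (ex_nonneg fun _ => ind_nonneg _)

end Vale.Agent.P339
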