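import Vale.Agent.P339.CoreL

/-! Resampling the part of the table that is not advice. -/

namespace Vale.Agent.P339

open Finset Matrix Vale.Agent.P325 Function
open scoped BigOperators

set_option linter.unusedSectionVars false

variable {Sg Gm : Type} [Fintype Sg] [DecidableEq Sg] [Nonempty Sg] [Fintype Gm] [DecidableEq Gm]
  [Nonempty Gm] {k : ℕ} {O : LCd Sg Gm} {P : ℕ} {S : Sys (Sg ⊕ Gm) k} {N : Type} [Fintype N]
  [DecidableEq N] {t l : ℕ}

/-- Resample the parameters `c` with `c ᵥ* T = 0` and translate the folding. -/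
def Smp.rs2 (s : Smp O P (S.step t l) N) (T : Matrix (Fin l) (Fin l) F2)
    (g : (Fin l → F2) → (S.step t l).C) (ψ : S.Lab → Fin l → F2) : Smp O P (S.step t l) N :=
  { s with
    xi := (fun c => if c ᵥ* T = 0 then g c else s.xi.1 c, s.xi.2)
    ph := (fun y => s.ph.1 y + ψ y ᵥ* (1 + T), s.ph.2) }


theorem pairB_ext (s : Smp O P (S.step t l) N) (x1 : (Fin l → F2) → S.CC t)
    (p1 : S.Lab → Fin l → F2) (h1 : x1 = s.xi.1) (h2 : p1 = s.ph.1) :
    ({ s with xi := (x1, s.xi.2), ph := (p1, s.ph.2) } : Smp O P (S.step t l) N) = s := by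
  subst h1 h2
  rfl

/-- For fixed `ψ` the map ` (s, g) ↦ (s.rs2 T g ψ, fun c => if c ᵥ* T = 0 then s.xi.1 c else g c)`
is an involution. -/
theorem ex_rs2 (T : Matrix (Fin l) (Fin l) F2) (f : Smp O P (S.step t l) N → ℝ) :
    𝔼 s, f s = 𝔼 s : Smp O P (S.step t l) N, 𝔼 g, 𝔼 ψ, f (s.rs2 T g ψ) := by

  have key : ∀ ψ : S.Lab → Fin l → F2,
      𝔼 s : Smp O P (S.step t l) N, 𝔼 g, f (s.rs2 T g ψ) = 𝔼 s, f s := by
    intro ψ
    have hinv : Involutive fun z : Smp O P (S.step t l) N × ((Fin l → F2) → (S.step t l).C) =>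
        (z.1.rs2 T z.2 ψ, fun c => if c ᵥ* T = 0 then z.1.xi.1 c else z.2 c) := by
      rintro ⟨s, g⟩
      refine Prod.ext (pairB_ext s _ _ (funext fun c => ?_) (funext fun y => ?_))
        (funext fun c => ?_)
      · by_cases hc : c ᵥ* T = 0
        · exact (if_pos hc).trans (if_pos hc)
        · exact (if_neg hc).trans (if_neg hc)
      · exact (add_assoc _ _ _).trans ((congrArg _ (funext fun j => F2.add_self _)).trans
          (add_zero _))
      · by_cases hc : c ᵥ* T = 0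
        · exact (if_pos hc).trans (if_pos hc)
        · exact (if_neg hc).trans (if_neg hc)
    have h1 := ex_equiv hinv.toPerm fun z => f z.1
    simp only [ex_prod, Involutive.coe_toPerm, Fintype.expect_const] at h1
    exact h1
  symm
  calc _ = 𝔼 s : Smp O P (S.step t l) N, 𝔼 ψ, 𝔼 g, f (s.rs2 T g ψ) :=
        congrArg _ (funext fun s => ex_comm _)
    _ = 𝔼 ψ, 𝔼 s : Smp O P (S.step t l) N, 𝔼 g, f (s.rs2 T g ψ) := ex_comm _
    _ = _ := by simp only [key, Fintype.expect_const]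

/-- The part of the top table that is kept. -/
def Smp.kp (s : Smp O P (S.step t l) N) (T : Matrix (Fin l) (Fin l) F2) :
    Matrix (Fin (t + 1) × (S.Lf → Sg)) (Fin l) F2 :=
  Matrix.of fun i j => ∑ c, (if c ᵥ* T = 0 then 0 else S.col s.p (s.xi.1 c) (s.vwc i) * c j) +
    if i.1 = s.p.1 then s.ph.1 (s.low i.2) j else 0

/-- The visible label of the path child. -/
def Smp.lo (s : Smp O P (S.step t l) N) (i : Fin (t + 1) × (S.Lf → Sg)) : Option S.Lab :=
  if i.1 = s.p.1 then some (s.low i.2) else none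

theorem mm_rs2 (s : Smp O P (S.step t l) N) (T : Matrix (Fin l) (Fin l) F2)
    (g : (Fin l → F2) → (S.step t l).C) (ψ : S.Lab → Fin l → F2) :
    (s.rs2 T g ψ).mm = (s.mm.1, s.kp T + Mg (S.col s.p) s.vwc T g + Fo s.lo T ψ) := by

  refine Prod.ext rfl ?_
  ext i j
  have e1 : ∀ c : Fin l → F2, S.col s.p (if c ᵥ* T = 0 then g c else s.xi.1 c) (s.vwc i) * c j =
      (if c ᵥ* T = 0 then 0 else S.col s.p (s.xi.1 c) (s.vwc i) * c j) +
        if c ᵥ* T = 0 then S.col s.p (g c) (s.vwc i) * c j else 0 := by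
    intro c
    by_cases hc : c ᵥ* T = 0 <;> simp [hc]
  have e2 : (s.rs2 T g ψ).mm.2 i j =
      ∑ c, S.col s.p (if c ᵥ* T = 0 then g c else s.xi.1 c) (s.vwc i) * c j +
        if i.1 = s.p.1 then s.ph.1 (s.low i.2) j + (ψ (s.low i.2) ᵥ* (1 + T)) j else 0 := rfl
  rw [e2]
  simp only [e1, sum_add_distrib, Smp.kp, Mg, Fo, Smp.lo, Matrix.add_apply, of_apply]
  by_cases hi : i.1 = s.p.1
  · simp only [hi, if_true, Option.elim_some]
    ring
  · simp only [hi, if_false, Option.elim_none, Pi.zero_apply]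
    ring


theorem pairB_mg {ι ι' C : Type} (f : C → ι' → F2) (vw : ι → ι') (T : Matrix (Fin l) (Fin l) F2)
    (g : (Fin l → F2) → C) : Mg f vw T g * T = 0 := by
  ext i j
  simp only [Matrix.mul_apply, Mg, of_apply, sum_mul, Matrix.zero_apply]
  rw [sum_comm]
  refine sum_eq_zero fun c _ => ?_
  by_cases hc : c ᵥ* T = 0
  · have h := congrFun hc j
    simp only [vecMul, dotProduct, Pi.zero_apply] at h
    simp only [hc, if_true, mul_assoc, ← mul_sum, h, mul_zero]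
  · simp [hc]

theorem pairB_fo {ι Λ : Type} (lo : ι → Option Λ) {T : Matrix (Fin l) (Fin l) F2} (hT : T * T = T)
    (ψ : Λ → Fin l → F2) : Fo lo T ψ * T = 0 := by
  ext i j
  have e : (Fo lo T ψ * T) i j = (((lo i).elim 0 fun y => ψ y ᵥ* (1 + T)) ᵥ* T) j := rfl
  rw [e]
  cases lo i with
  | none => simp
  | some y =>
    rw [Option.elim_some, vecMul_vecMul, add_mul, one_mul, hT, mat_add_self, vecMul_zero]
    rfl

theorem pairB_id (s : Smp O P (S.step t l) N) (T : Matrix (Fin l) (Fin l) F2) :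
    s.rs2 T s.xi.1 0 = s := by
  refine pairB_ext s _ _ (funext fun c => ite_self _) (funext fun y => ?_)
  simp

/-- `Mg * T = 0`, `Fo * T = 0`, and `s.mm.2 = s.kp T + Mg .. T s.xi.1`. -/
theorem cl_rs2 (s : Smp O P (S.step t l) N) {T : Matrix (Fin l) (Fin l) F2} (hT : T * T = T)
    (g : (Fin l → F2) → (S.step t l).C) (ψ : S.Lab → Fin l → F2) :
    cl T (s.rs2 T g ψ).mm = cl T s.mm := by

  have h := mm_rs2 s T s.xi.1 0
  rw [pairB_id] at h
  have h2 := congrArg Prod.snd h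
  rw [mm_rs2]
  refine Prod.ext rfl ?_
  simp only [cl] at h2 ⊢
  rw [h2]
  rw [Matrix.add_mul, Matrix.add_mul, Matrix.add_mul, Matrix.add_mul, pairB_fo _ hT, pairB_fo _ hT]
  exact congrArg (s.kp T * T + · + 0) ((pairB_mg _ _ _ _).trans (pairB_mg _ _ _ _).symm)


theorem pairB_ev {I L V : Type} [DecidableEq I] [AddCommGroup V] [Module F2 V] (τ : I) (e : L ≃ L)
    (φ : L → V) (x : V × (I → L)) (u : V) (α : V × (I → L)) :
    ((shE τ e φ x).1 + u, (shE τ e φ x).2) = α ↔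
      x.2 = update α.2 τ (e.symm (α.2 τ)) ∧ x.1 + φ (α.2 τ) + u = α.1 := by
  constructor
  · rintro rfl
    simp [shE]
  · rintro ⟨h1, h2⟩
    refine Prod.ext ?_ ?_
    · rw [← h2]
      simp [shE, h1]
    · simp [shE, h1]

theorem pairB_lo (s : Smp O P (S.step t l) N) (Z : Fin (t + 1) × (S.Lf → Sg) → F2)
    (ψ : S.Lab → F2) : ∑ i, Z i * (s.lo i).elim 0 ψ = ∑ w, Z (s.p.1, w) * ψ (s.low w) := by
  rw [Fintype.sum_prod_type, sum_eq_single s.p.1]
  · simp [Smp.lo]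
  · intro τ _ hτ
    simp [Smp.lo, hτ]
  · simp

/-- `L a x` is the list of `core_list` for `f = S.col x.1` and
`G' g = G a (x.1, x.2.1, x.2.2.1, (fun c => if c ᵥ* T = 0 then g c else x.2.2.2.1.1 c,
x.2.2.2.1.2), x.2.2.2.2)`. Use `ex_rs2`, `mm_rs2`, `cl_rs2`; fix `s, a, β`; if `H` fails the left
side is zero. Otherwise with `τ = s.p.1`, `e = S.sh s.p.2 s.ph.2`, ` (α1, α2) = α ..`,
`d = β • (Pi.single τ (M.dir s.p.2 a))`, the label event is equivalent to
` (G' g).2 = update α2 τ (e.symm (α2 τ)) - d` and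
` (G' g).1 + ψ (α2 τ) ᵥ* (1 + T) + h ᵥ* (Mg + Fo) = α1 + s.ph.1 (α2 τ) + h ᵥ* s.kp T`
(apply the inverse of `shE`); take `M1 = s.kp T + M0 ..`, `lo = s.lo`, `α = α2 τ`. -/
theorem pairB (M : Mark S) (hM : 0 < M.l) {τ θ : ℝ} {r : ℕ}
    (hf : ∀ p : Fin (t + 1) × S.Pa, Bal τ (S.col p)) (h0 : 0 ≤ τ) (h1 : τ ≤ 1 / 2) (hr : r < l)
    {T : Matrix (Fin l) (Fin l) F2} (hT : T * T = T) (rT : T.rank ≤ r) (hθ : 0 < θ)
    (hl : (1 - 2 * τ) ^ 2 ^ (l - r - 1) ≤ θ ^ 2 / 2)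
    (G : (Fin M.l → F2) → RI O P (S.step t l) N → (S.step t l).Lab) :
    ∃ L : (Fin M.l → F2) → RI O P (S.step t l) N → Finset (Fin (t + 1) × (S.Lf → Sg ⊕ Gm) → F2),
      (∀ a x, ((L a x).card : ℝ) ≤ 2 ^ l * (2 / θ ^ 2)) ∧
      ∀ (h : Fin (t + 1) × (S.Lf → Sg) → F2)
        (Q : (Fin (t + 1) × S.Lf → O.U) → Amb (t + 1) (D0 S N) (S.Lf → Sg) (Fin l) →
          Matrix (Fin (t + 1) × (S.Lf → Sg)) (Fin (t + 1) × (S.Lf → Sg)) F2)
        (M0 : (Fin (t + 1) × S.Lf → O.U) → Amb (t + 1) (D0 S N) (S.Lf → Sg) (Fin l) →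
          Matrix (Fin (t + 1) × (S.Lf → Sg)) (Fin l) F2)
        (α : (Fin (t + 1) × S.Lf → O.U) → Amb (t + 1) (D0 S N) (S.Lf → Sg) (Fin l) →
          (Fin l → F2) × (Fin (t + 1) → S.Lab))
        (H : (Fin (t + 1) × S.Lf → O.U) → Amb (t + 1) (D0 S N) (S.Lf → Sg) (Fin l) → Prop),
        𝔼 s : Smp O P (S.step t l) N, 𝔼 y : NZ M.l × F2, ind (H s.us (cl T s.mm) ∧
            Q s.us (cl T s.mm) * (s.mm.2 + M0 s.us (cl T s.mm)) = 0) *
            (ind (((s.lb M G y.1.1 y.2).1 + h ᵥ* s.mm.2, (s.lb M G y.1.1 y.2).2) =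
              α s.us (cl T s.mm)) - 2 ^ r / 2 ^ l) ≤
          θ + 𝔼 s : Smp O P (S.step t l) N, 𝔼 a : NZ M.l,
            ind (s.Dec h (Q s.us (cl T s.mm)) (L a.1 (s.dr (M.lift t l) a.1).ri)) := by

  have hN : Nonempty (NZ M.l) := ⟨⟨fun _ => 1, fun h => one_ne_zero (congrFun h ⟨0, hM⟩)⟩⟩
  have hc := fun (a : Fin M.l → F2) (x : RI O P (S.step t l) N) =>
    core_list (Λ' := Fin (t + 1) → S.Lab) (hf x.1) h0 h1 hr hT rT hθ hl
      fun g => G a (x.1, x.2.1, x.2.2.1,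
        (fun c => if c ᵥ* T = 0 then g c else x.2.2.2.1.1 c, x.2.2.2.1.2), x.2.2.2.2)
  choose L hL1 hL2 using hc
  refine ⟨L, hL1, fun h Q M0 α H => ?_⟩
  rw [ex_rs2 T]
  have hR : θ + 𝔼 s : Smp O P (S.step t l) N, 𝔼 a : NZ M.l,
      ind (s.Dec h (Q s.us (cl T s.mm)) (L a.1 (s.dr (M.lift t l) a.1).ri)) =
      𝔼 s : Smp O P (S.step t l) N, 𝔼 y : NZ M.l × F2,
        (θ + ind (s.Dec h (Q s.us (cl T s.mm)) (L y.1.1 (s.dr (M.lift t l) y.1.1).ri))) := by
    simp only [ex_prod, ex_add, Fintype.expect_const]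
  rw [hR]
  refine ex_mono fun s => ?_
  refine le_trans (le_of_eq ((congrArg _ (funext fun g => ex_comm _)).trans (ex_comm _))) ?_
  refine ex_mono fun y => ?_
  obtain ⟨a, β⟩ := y
  have hus : ∀ g ψ, (s.rs2 T g ψ).us = s.us := fun _ _ => rfl
  simp only [hus, cl_rs2 s hT]
  obtain ⟨X, hX⟩ : ∃ X, X = cl T s.mm := ⟨_, rfl⟩
  rw [← hX]
  by_cases hH : H s.us X
  · obtain ⟨d, hd⟩ : ∃ d : Fin (t + 1) → S.Lab,
        d = β • (Pi.single s.p.1 (M.dir s.p.2 a.1) : Fin (t + 1) → S.Lab) := ⟨_, rfl⟩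
    have key := hL2 a.1 (s.dr (M.lift t l) a.1).ri _ S.Lab s.vwc (Q s.us X) h
      (s.kp T + M0 s.us X) s.lo ((α s.us X).2 s.p.1)
      ((α s.us X).1 - s.ph.1 ((α s.us X).2 s.p.1) - h ᵥ* s.kp T)
      (update (α s.us X).2 s.p.1 ((S.sh s.p.2 s.ph.2).symm ((α s.us X).2 s.p.1)) - d)
    refine le_trans (le_of_eq ?_) (key.trans (add_le_add le_rfl (ind_mono ?_)))
    · refine congrArg _ (funext fun g => congrArg _ (funext fun ψ => ?_))
      rw [mm_rs2]
      refine congrArg₂ (· * ·) (ind_congr ?_) (congrArg (· - _) (ind_congr ?_))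
      · rw [and_iff_right hH]
        refine Eq.congr_left (congrArg _ ?_)
        exact (add_right_comm _ _ _).trans (congrArg (· + _) (add_right_comm _ _ _))
      · obtain ⟨W, hW⟩ : ∃ W : (Fin l → F2) × (Fin (t + 1) → S.Lab),
            W = G a.1 ((s.rs2 T g ψ).dr (M.lift t l) a.1).ri := ⟨_, rfl⟩
        have e1 : (s.rs2 T g ψ).lb M G a.1 β = shE s.p.1 (S.sh s.p.2 s.ph.2)
            (fun y => s.ph.1 y + ψ y ᵥ* (1 + T)) (W.1 + β • 0, W.2 + d) := by
          rw [hW, hd]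
          rfl
        rw [e1, pairB_ev]
        refine Iff.trans (b := W.2 = update (α s.us X).2 s.p.1
          ((S.sh s.p.2 s.ph.2).symm ((α s.us X).2 s.p.1)) - d ∧
          W.1 + ψ ((α s.us X).2 s.p.1) ᵥ* (1 + T) +
            h ᵥ* (Mg (S.col s.p) s.vwc T g + Fo s.lo T ψ) =
            (α s.us X).1 - s.ph.1 ((α s.us X).2 s.p.1) - h ᵥ* s.kp T) ?_ (by rw [hW]; rfl)
        refine and_congr eq_sub_iff_add_eq.symm ?_
        rw [eq_sub_iff_add_eq, eq_sub_iff_add_eq]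
        refine Eq.congr_left ?_
        simp only [smul_zero, add_zero, vecMul_add]
        abel
    · rintro ⟨Z, hZ, z, hz, h2, h3⟩
      exact ⟨Z, hZ, z, hz, h2, _, fun ψ => (pairB_lo s Z ψ).symm.trans (h3 ψ)⟩
  · simp only [hH, false_and, ind_neg not_false, zero_mul, Fintype.expect_const]
    exact add_nonneg hθ.le (ind_nonneg _)

end Vale.Agent.P339
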