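import Vale.Agent.P339.PairA
import Vale.Agent.P339.PairA2
import Vale.Agent.P339.PairB
import Vale.Agent.P339.GD
import Vale.Agent.P339.Lift
import Vale.Agent.P339.Num

/-! A lower level and the top level are rarely passed together. -/

namespace Vale.Agent.P339

open Finset Matrix Vale.Agent.P325 Function
open scoped BigOperators

set_option linter.unusedSectionVars false

section
variable {Sg Gm : Type} [Fintype Sg] [DecidableEq Sg] [Nonempty Sg] [Fintype Gm] [DecidableEq Gm]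
  [Nonempty Gm] {k : ℕ} {O : LCd Sg Gm} {P : ℕ} {S : Sys (Sg ⊕ Gm) k} {N : Type} [Fintype N]
  [DecidableEq N] {t l : ℕ}

lemma pair_a {η τ0 : ℝ} (hη : 0 < η) (c1 : τ0 ≤ η ^ 2 / 4 / 16) (M : Mark S) (hM : 0 < M.l)
    (l0 : 0 < l) (hc : (Fintype.card (D0 S N) * Fintype.card ((S.Lf → Sg) → Fin l → F2) *
      Fintype.card ((S.Lf → Sg) → F2) : ℝ) ≤ τ0 * √(t + 1 : ℕ))
    (F : LI O (S.step t l) N → (S.step t l).Lab)
    (G : (Fin M.l → F2) → RI O P (S.step t l) N → (S.step t l).Lab)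
    (G' : (Fin l → F2) → RI O P (S.step t l) N → (S.step t l).Lab)
    (hcon : η < 𝔼 s : Smp O P (S.step t l) N, 𝔼 a : NZ M.l, 𝔼 a' : NZ l,
      ind (s.pass (M.lift t l) F G a.1 ∧ s.pass (Mark.top S t l) F G' a'.1)) :
    η ^ 2 / 4 ≤ 𝔼 us : Fin (t + 1) × S.Lf → O.U,
      𝔼 ξ : Fin (t + 1) × (Zt O P S N t l × (NZ M.l × F2)), 𝔼 a' : NZ l, 𝔼 n,
      ind (F (asm us (mkS us ξ.1 ξ.2.1).mm) = (mkS us ξ.1 ξ.2.1).lb M G ξ.2.2.1.1 ξ.2.2.2 ∧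
        Ag F us (mkS us ξ.1 ξ.2.1).mm a'.1 n) := by
  have tp : (0 : ℝ) < √(t + 1 : ℕ) := Real.sqrt_pos.2 (by positivity)
  have a1 := (pow_le_pow_left₀ hη.le hcon.le 2).trans (pairA1 M hM l0 F G G')
  have a2 := pairA2 M hM l0 F G
  have a3 := pairA3 M F G
  have a4 := (div_le_iff₀ tp).2 hc
  refine le_trans ?_ (ex_mkS' fun (s : Smp O P (S.step t l) N) (y : NZ M.l × F2) =>
    𝔼 a' : NZ l, 𝔼 n,
      ind (F (asm s.us s.mm) = s.lb M G y.1.1 y.2 ∧ Ag F s.us s.mm a'.1 n)).ge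
  have := sq_nonneg η
  linarith

lemma pair_chi {τ0 : ℝ} {Y : Type} [Fintype Y] [Nonempty Y]
    (hc : (Fintype.card (D0 S N) * Fintype.card ((S.Lf → Sg) → Fin l → F2) *
      Fintype.card ((S.Lf → Sg) → F2) : ℝ) ≤ τ0 * √(t + 1 : ℕ)) (us : Fin (t + 1) × S.Lf → O.U) :
    𝔼 x, (rho (fun ξ : Fin (t + 1) × (Zt O P S N t l × Y) => (mkS us ξ.1 ξ.2.1).mm) x - 1) ^ 2 ≤
      τ0 ^ 2 := by
  refine (planted_chi t.succ_pos (mm_inv us).prod).trans ?_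
  have b0 : (1 : ℝ) ≤ Fintype.card (D0 S N) * Fintype.card ((S.Lf → Sg) → Fin l → F2) := by
    exact_mod_cast Nat.mul_pos Fintype.card_pos Fintype.card_pos
  have b1 : (1 : ℝ) ≤ Fintype.card ((S.Lf → Sg) → F2) := Nat.one_le_cast.2 Fintype.card_pos
  generalize (Fintype.card (D0 S N) * Fintype.card ((S.Lf → Sg) → Fin l → F2) : ℝ) = B at *
  have b2 : B ≤ τ0 * √(t + 1 : ℕ) := le_trans (by nlinarith) hc
  have b3 := pow_le_pow_left₀ (by linarith) b2 2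
  rw [mul_pow, Real.sq_sqrt (by positivity)] at b3
  rw [div_le_iff₀ (by positivity)]
  nlinarith

lemma pair_b (M : Mark S) (hM : 0 < M.l) {τ θ v : ℝ} {r n : ℕ}
    (hf : ∀ p : Fin (t + 1) × S.Pa, Bal τ (S.col p)) (h0 : 0 ≤ τ) (h1 : τ ≤ 1 / 2) (hr : r < l)
    {T : Matrix (Fin l) (Fin l) F2} (hT : T * T = T) (rT : T.rank ≤ r) (hθ : 0 < θ)
    (hl : (1 - 2 * τ) ^ 2 ^ (l - r - 1) ≤ θ ^ 2 / 2) (hn : (2 ^ l * (2 / θ ^ 2) : ℝ) ≤ n)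
    (hF : FinLe O P (Nx N l) M v)
    (G : (Fin M.l → F2) → RI O P (S.step t l) N → (S.step t l).Lab)
    (h : Fin (t + 1) × (S.Lf → Sg) → F2)
    (Q : (Fin (t + 1) × S.Lf → O.U) → Amb (t + 1) (D0 S N) (S.Lf → Sg) (Fin l) →
      Matrix (Fin (t + 1) × (S.Lf → Sg)) (Fin (t + 1) × (S.Lf → Sg)) F2)
    (M0 : (Fin (t + 1) × S.Lf → O.U) → Amb (t + 1) (D0 S N) (S.Lf → Sg) (Fin l) →
      Matrix (Fin (t + 1) × (S.Lf → Sg)) (Fin l) F2)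
    (α : (Fin (t + 1) × S.Lf → O.U) → Amb (t + 1) (D0 S N) (S.Lf → Sg) (Fin l) →
      (Fin l → F2) × (Fin (t + 1) → S.Lab))
    (H : (Fin (t + 1) × S.Lf → O.U) → Amb (t + 1) (D0 S N) (S.Lf → Sg) (Fin l) → Prop)
    (hQ : ∀ u x, (Q u x).rank ≤ r) :
    𝔼 us : Fin (t + 1) × S.Lf → O.U, 𝔼 ξ : Fin (t + 1) × (Zt O P S N t l × (NZ M.l × F2)),
      ind (H us (cl T (mkS us ξ.1 ξ.2.1).mm) ∧ Q us (cl T (mkS us ξ.1 ξ.2.1).mm) *
        ((mkS us ξ.1 ξ.2.1).mm.2 + M0 us (cl T (mkS us ξ.1 ξ.2.1).mm)) = 0) *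
      (ind ((((mkS us ξ.1 ξ.2.1).lb M G ξ.2.2.1.1 ξ.2.2.2).1 + h ᵥ* (mkS us ξ.1 ξ.2.1).mm.2,
        ((mkS us ξ.1 ξ.2.1).lb M G ξ.2.2.1.1 ξ.2.2.2).2) = α us (cl T (mkS us ξ.1 ξ.2.1).mm)) -
        2 ^ r / 2 ^ l) ≤ θ + (2 ^ r : ℕ) * n * v := by
  obtain ⟨L, hL, hb⟩ := pairB M hM hf h0 h1 hr hT rT hθ hl G
  have b2 := dec_le hF h (fun u x => Q u (cl T x)) (fun u x => hQ _ _) L (n := n)
    fun a x => by exact_mod_cast ((hL a x).trans hn)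
  exact (ex_mkS' fun (s : Smp O P (S.step t l) N) (y : NZ M.l × F2) => ind (H s.us (cl T s.mm) ∧
      Q s.us (cl T s.mm) * (s.mm.2 + M0 s.us (cl T s.mm)) = 0) *
      (ind (((s.lb M G y.1.1 y.2).1 + h ᵥ* s.mm.2, (s.lb M G y.1.1 y.2).2) =
        α s.us (cl T s.mm)) - 2 ^ r / 2 ^ l)).le.trans
    ((hb h Q M0 α H).trans (add_le_add_right b2 θ))

end

theorem pair_top {η τ : ℝ} (hη : 0 < η) (h0 : 0 < τ) (h1 : τ ≤ 1 / 2) :
    ∃ l0 : ℕ, ∀ l ≥ l0, ∃ τ0 v : ℝ, 0 < τ0 ∧ 0 < v ∧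
      ∀ (Sg Gm : Type) [Fintype Sg] [DecidableEq Sg] [Nonempty Sg] [Fintype Gm] [DecidableEq Gm]
        [Nonempty Gm] (k : ℕ) (O : LCd Sg Gm) (P : ℕ) (S : Sys (Sg ⊕ Gm) k) (N : Type) [Fintype N]
        [DecidableEq N] (t : ℕ) (M : Mark S), 0 < M.l →
        (∀ p : Fin (t + 1) × S.Pa, Bal τ (S.col p)) →
        (Fintype.card (D0 S N) * Fintype.card ((S.Lf → Sg) → Fin l → F2) *
          Fintype.card ((S.Lf → Sg) → F2) : ℝ) ≤ τ0 * √(t + 1 : ℕ) →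
        FinLe O P (Nx N l) M v → PairLe O P N (M.lift t l) (Mark.top S t l) η := by
  set η1 := η ^ 2 / 4 with hη1
  have η1p : 0 < η1 := by positivity
  obtain ⟨r, γ, hγ, hg⟩ := gd η1p
  obtain ⟨l1, hl1⟩ := exists_l0 h0 h1 (c := γ * η1 / 256) (by positivity) r
  obtain ⟨l2, hl2⟩ := pow_unbounded_of_one_lt (2 ^ r / min (γ / 2) 1 : ℝ) one_lt_two
  refine ⟨max (max l1 l2) (r + 1), fun l hl => ?_⟩
  have k1 : l1 ≤ l := by omega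
  have k2 : l2 ≤ l := by omega
  have hr : r < l := by omega
  have l0 : 0 < l := by omega
  have hd : (2 : ℝ) ^ r / 2 ^ l ≤ min (γ / 2) 1 := by
    rw [div_lt_comm₀ (by positivity) (by positivity)] at hl2
    exact (div_le_div_of_nonneg_left (by positivity) (by positivity)
      (pow_le_pow_right₀ one_le_two k2)).trans hl2.le
  have hx := hl1 l k1
  obtain ⟨X, hX⟩ : ∃ X : ℝ, X = (2 ^ r : ℝ)⁻¹ ^ l := ⟨_, rfl⟩
  obtain ⟨Y, hY⟩ : ∃ Y : ℝ, Y = 2 ^ (l * l) := ⟨_, rfl⟩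
  have Xp : 0 < X := by rw [hX]; positivity
  have Yp : 0 < Y := by rw [hY]; positivity
  obtain ⟨θ, hθ⟩ : ∃ θ : ℝ, θ = γ / 2 * X * (η1 / 16 / Y) / 4 := ⟨_, rfl⟩
  have θp : 0 < θ := by rw [hθ]; positivity
  have hx' : (1 - 2 * τ) ^ 2 ^ (l - r - 1) ≤ θ ^ 2 / 2 := by
    refine hx.trans ?_
    rw [← hX, ← hY, hθ]
    have e : γ / 2 * X * (η1 / 16 / Y) / 4 = 2 * (γ * η1 / 256 * X / Y) := by ring
    rw [e]
    nlinarith [sq_nonneg (γ * η1 / 256 * X / Y)]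
  obtain ⟨n, hn⟩ := exists_nat_gt (2 ^ l * (2 / θ ^ 2) : ℝ)
  have np : (0 : ℝ) < n := lt_trans (by positivity) hn
  obtain ⟨τ0, τp, c1, c2, c3, c4⟩ : ∃ c : ℝ, 0 < c ∧ c ≤ η1 / 16 ∧ c ≤ 1 ∧ c ≤ η1 / 16 / Y ∧
      c ≤ θ := ⟨min (min (η1 / 16) 1) (min (η1 / 16 / Y) θ), by positivity,
    (min_le_left _ _).trans (min_le_left _ _), (min_le_left _ _).trans (min_le_right _ _),
    (min_le_right _ _).trans (min_le_left _ _), (min_le_right _ _).trans (min_le_right _ _)⟩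
  have hB : (0 : ℝ) < (2 ^ r : ℕ) * n := by positivity
  refine ⟨τ0, θ / ((2 ^ r : ℕ) * n), τp, by positivity,
    fun Sg Gm _ _ _ _ _ _ k O P S N _ _ t M hM hf hc hF F G G' => not_lt.1 fun hcon => ?_⟩
  have : Nonempty (NZ M.l) := ⟨⟨fun _ => 1, fun h => one_ne_zero (congrFun h ⟨0, hM⟩)⟩⟩
  obtain ⟨h, T, Q, M0, α, H, hT, rT, hQ, key⟩ := hg l l0 (hd.trans (min_le_left _ _))
    (hd.trans (min_le_right _ _)) _ _ _ _ _
    (fun us (ξ : Fin (t + 1) × (Zt O P S N t l × (NZ M.l × F2))) => (mkS us ξ.1 ξ.2.1).mm)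
    (fun us ξ => (mkS us ξ.1 ξ.2.1).lb M G ξ.2.2.1.1 ξ.2.2.2) (fun us x => F (asm us x)) τ0 τp.le
    (pair_chi hc) (pair_a hη c1 M hM l0 hc F G G' hcon)
  have b3 := key.trans (pair_b M hM hf h0.le h1 hr hT rT θp hx' hn.le hF G h Q M0 α H hQ)
  rw [mul_div_cancel₀ _ hB.ne'] at b3
  clear key hg
  rw [← hX, ← hY] at b3
  have b4 : η1 / 16 / Y ≤ (η1 / 4 - 2 * τ0 ^ 2) / Y - τ0 := by
    have b5 : η1 / 8 / Y ≤ (η1 / 4 - 2 * τ0 ^ 2) / Y :=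
      div_le_div_of_nonneg_right (by nlinarith) Yp.le
    have b6 : η1 / 8 / Y = 2 * (η1 / 16 / Y) := by ring
    linarith
  have b7 := mul_le_mul_of_nonneg_left b4 (by positivity : 0 ≤ γ / 2 * X)
  linarith

end Vale.Agent.P339
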