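import Vale.Agent.P339.Patch

/-! Two extensions of one right vertex. -/

namespace Vale.Agent.P339

open Finset Matrix Vale.Agent.P325 Function
open scoped BigOperators

set_option linter.unusedSectionVars false

variable {Sg Gm : Type} [Fintype Sg] [DecidableEq Sg] [Nonempty Sg] [Fintype Gm] [DecidableEq Gm]
  [Nonempty Gm] {k : ℕ} {O : LCd Sg Gm} {P : ℕ} {S : Sys (Sg ⊕ Gm) k} {N : Type} [Fintype N]
  [DecidableEq N] {t l : ℕ}

/-- Resample the direction `a` of the top table. -/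
def Smp.rs (s : Smp O P (S.step t l) N) (a : Fin l → F2) (c : (S.step t l).C) :
    Smp O P (S.step t l) N := { s with xi := (update s.xi.1 a c, s.xi.2) }

theorem PairA_rs_rs (s : Smp O P (S.step t l) N) (a : Fin l → F2) (c c' : (S.step t l).C) :
    (s.rs a c).rs a c' = s.rs a c' :=
  congrArg (fun x => ({ s with xi := (x, s.xi.2) } : Smp O P (S.step t l) N))
    (update_idem (β := fun _ => S.CC t) (a := a) c c' s.xi.1)

theorem PairA_rs_self (s : Smp O P (S.step t l) N) (a : Fin l → F2) : s.rs a (s.xi.1 a) = s :=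
  congrArg (fun x => ({ s with xi := (x, s.xi.2) } : Smp O P (S.step t l) N))
    (update_eq_self a s.xi.1)

theorem PairA_rs_xi (s : Smp O P (S.step t l) N) (a : Fin l → F2) (c : (S.step t l).C) :
    (s.rs a c).xi.1 a = c := update_self (β := fun _ => S.CC t) a c s.xi.1

theorem PairA_rs_dr (s : Smp O P (S.step t l) N) (a : Fin l → F2) (c : (S.step t l).C) :
    (s.rs a c).dr (Mark.top S t l) a = s.dr (Mark.top S t l) a :=
  PairA_rs_rs s a c 0

/-- The map `(s, c) ↦ (s.rs a c, s.xi.1 a)` is an involution. -/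
theorem ex_rs (a : Fin l → F2) (f : Smp O P (S.step t l) N → ℝ) :
    𝔼 s, f s = 𝔼 s : Smp O P (S.step t l) N, 𝔼 c, f (s.rs a c) := by
  have h : Involutive fun q : Smp O P (S.step t l) N × (S.step t l).C =>
      (q.1.rs a q.2, (q.1.xi.1 a : (S.step t l).C)) := fun q =>
    Prod.ext ((PairA_rs_rs _ _ _ _).trans (PairA_rs_self _ _)) (PairA_rs_xi _ _ _)
  have h1 := ex_equiv h.toPerm fun q => f q.1
  rw [ex_prod, ex_prod] at h1
  refine Eq.trans ?_ h1.symm
  exact congrArg _ (funext fun s => (expect_const univ_nonempty _).symm)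

theorem PairA_sum {C : Type} (g : C → F2) (ξ : (Fin l → F2) → C) (a : Fin l → F2) (c : C)
    (j : Fin l) (z : F2) : ∑ c', g (update ξ a c c') * c' j + z =
      ∑ c', g (ξ c') * c' j + z + (g (ξ a) + g c) * a j := by
  have h : ∀ c' : Fin l → F2, g (update ξ a c c') * c' j =
      g (ξ c') * c' j + if c' = a then (g (ξ a) + g c) * a j else 0 := by
    intro c'
    by_cases e : c' = a
    · subst e
      rw [update_self, if_pos rfl, add_mul, ← add_assoc, F2.add_self, zero_add]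
    · rw [update_of_ne e, if_neg e, add_zero]
  rw [sum_congr rfl fun c' _ => h c', sum_add_distrib, sum_ite_eq', if_pos (mem_univ _),
    add_right_comm]

/-- Split the sum over `c` at `a`. -/
theorem mm_rs (s : Smp O P (S.step t l) N) (a : Fin l → F2) (c : (S.step t l).C) :
    (s.rs a c).mm = (s.mm.1, s.mm.2 + vecMulVec
      (fun i => S.col s.p (s.xi.1 a) (s.vwc i) + S.col s.p c (s.vwc i)) a) := by
  refine Prod.ext rfl (Matrix.ext fun i j => ?_)
  exact PairA_sum (C := S.CC t) (fun x => S.col s.p x (s.vwc i)) s.xi.1 a c j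
    (if i.1 = s.p.1 then s.ph.1 (s.low i.2) j else 0)

theorem PairA_cs {α C : Type} [Fintype α] [Nonempty α] [Fintype C] (r : α → C → α)
    (hr : ∀ f : α → ℝ, 𝔼 s, f s = 𝔼 s, 𝔼 c, f (r s c)) (h2 : ∀ s c c', r (r s c) c' = r s c')
    (X : α → ℝ) : (𝔼 s, X s) ^ 2 ≤ 𝔼 s, 𝔼 c, X s * X (r s c) := by
  rw [hr X]
  refine (ex_sq_le _).trans (le_of_eq ?_)
  rw [hr fun s => 𝔼 c, X s * X (r s c)]
  refine congrArg _ (funext fun s => ?_)
  simp only [h2, ex_mul, ex_mul', sq]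

theorem PairA_shE {T L V : Type} [DecidableEq T] [AddCommGroup V] [Module F2 V] [AddCommGroup L]
    [Module F2 L] (τ : T) (e : L ≃ L) (φ : L → V) {y y' g : V × (T → L)} {a : V} {b b' : F2}
    (h : (shE τ e φ).symm y = g + b • (a, 0)) (h' : (shE τ e φ).symm y' = g + b' • (a, 0)) :
    ∃ β : F2, y' = (y.1 + β • a, y.2) := by
  rw [Equiv.symm_apply_eq] at h h'
  subst h h'
  refine ⟨b' - b, Prod.ext ?_ ?_⟩
  · simp only [shE, Equiv.coe_fn_mk, Prod.fst_add, Prod.snd_add, Prod.smul_mk, smul_zero, add_zero,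
      sub_smul]
    abel
  · simp only [shE, Equiv.coe_fn_mk, Prod.snd_add, Prod.smul_mk, smul_zero, add_zero]

theorem PairA_cs3 {α β γ C : Type} [Fintype α] [Nonempty α] [Fintype β] [Nonempty β] [Fintype γ]
    [Nonempty γ] [Fintype C] (r : γ → α → C → α)
    (hr : ∀ g, ∀ f : α → ℝ, 𝔼 s, f s = 𝔼 s, 𝔼 c, f (r g s c))
    (h2 : ∀ g s c c', r g (r g s c) c' = r g s c') (X : α → β → γ → ℝ) (W : α → β → γ → C → ℝ)
    (h : ∀ s b g c, X s b g * X (r g s c) b g ≤ W s b g c) :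
    (𝔼 s, 𝔼 b, 𝔼 g, X s b g) ^ 2 ≤ 𝔼 s, 𝔼 b, 𝔼 g, 𝔼 c, W s b g c := by
  rw [ex_comm, ex_comm fun s b => 𝔼 g, 𝔼 c, W s b g c]
  refine (ex_sq_le _).trans (ex_mono fun b => ?_)
  rw [ex_comm, ex_comm fun s g => 𝔼 c, W s b g c]
  refine (ex_sq_le _).trans (ex_mono fun g => ?_)
  exact (PairA_cs (r g) (hr g) (h2 g) _).trans (ex_mono fun s => ex_mono fun c => h s b g c)

theorem PairA_ag (F : LI O (S.step t l) N → (S.step t l).Lab)
    (G' : (Fin l → F2) → RI O P (S.step t l) N → (S.step t l).Lab) (s : Smp O P (S.step t l) N)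
    (a : Fin l → F2) (c : (S.step t l).C) (h : s.pass (Mark.top S t l) F G' a)
    (h' : (s.rs a c).pass (Mark.top S t l) F G' a) :
    Ag F s.us s.mm a fun i => S.col s.p (s.xi.1 a) (s.vwc i) + S.col s.p c (s.vwc i) := by
  obtain ⟨b, hb⟩ := h
  obtain ⟨b', hb'⟩ := h'
  have e1 : (s.rs a c).li = asm s.us (s.mm.1, s.mm.2 + vecMulVec
      (fun i => S.col s.p (s.xi.1 a) (s.vwc i) + S.col s.p c (s.vwc i)) a) :=
    (Smp.li_asm _).trans (congrArg (asm s.us) (mm_rs s a c))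
  rw [e1, PairA_rs_dr] at hb'
  rw [Smp.li_asm] at hb
  exact PairA_shE s.p.1 (S.sh s.p.2 s.ph.2) s.ph.1 hb hb'

theorem PairA_nz (hl : 0 < l) : Nonempty (NZ l) :=
  ⟨⟨fun _ => 1, fun h => one_ne_zero (congrFun h ⟨0, hl⟩)⟩⟩

/-- Cauchy-Schwarz. For fixed `a, a'` let `X s = ind (pass lift ∧ pass top)`, `Y s = ind (pass top)`.
`𝔼 X = 𝔼 s, 𝔼 c, X (s.rs a' c)`, its square is at most the average of
`(𝔼 c, X (s.rs a' c)) ^ 2 ≤ (𝔼 c, X (s.rs a' c)) * 𝔼 c', Y (s.rs a' c')` (`ex_sq_le` on the product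
of all outer variables), and `(s.rs a' c).rs a' c' = s.rs a' c'`, so by `ex_rs` this is
`𝔼 s, 𝔼 c', X s * Y (s.rs a' c')`. Both `s` and `s.rs a' c'` have the same right vertex for the top
mark, and `sh` commutes with adding `(b • a', 0)`; use `li_asm`, `mm_rs`. -/
theorem pairA1 (M : Mark S) (hM : 0 < M.l) (hl : 0 < l)
    (F : LI O (S.step t l) N → (S.step t l).Lab)
    (G : (Fin M.l → F2) → RI O P (S.step t l) N → (S.step t l).Lab)
    (G' : (Fin l → F2) → RI O P (S.step t l) N → (S.step t l).Lab) :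
    (𝔼 s : Smp O P (S.step t l) N, 𝔼 a : NZ M.l, 𝔼 a' : NZ l,
      ind (s.pass (M.lift t l) F G a.1 ∧ s.pass (Mark.top S t l) F G' a'.1)) ^ 2 ≤
    𝔼 s : Smp O P (S.step t l) N, 𝔼 a : NZ M.l, 𝔼 a' : NZ l, 𝔼 c : (S.step t l).C,
      ind (s.pass (M.lift t l) F G a.1) * ind (Ag F s.us s.mm a'.1
        fun i => S.col s.p (s.xi.1 a'.1) (s.vwc i) + S.col s.p c (s.vwc i)) := by
  have := PairA_nz hM
  have := PairA_nz hl
  refine PairA_cs3 (fun (a' : NZ l) (s : Smp O P (S.step t l) N) c => s.rs a'.1 c)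
    (fun a' => ex_rs a'.1) (fun a' s c c' => PairA_rs_rs s a'.1 c c') _ _ fun s a a' c => ?_
  rw [← ind_and, ← ind_and]
  refine ind_mono fun h => ⟨h.1.1, PairA_ag F G' s a'.1 c h.1.2 h.2.2⟩

end Vale.Agent.P339
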