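import Vale.Agent.P339.Defs2

/-! Replacing everything below the path child. -/

namespace Vale.Agent.P339

open Finset Matrix Vale.Agent.P325 Function
open scoped BigOperators

set_option linter.unusedSectionVars false

variable {Sg Gm : Type} [Fintype Sg] [DecidableEq Sg] [Nonempty Sg] [Fintype Gm] [DecidableEq Gm]
  [Nonempty Gm] {k : ℕ} {O : LCd Sg Gm} {P : ℕ} {S : Sys (Sg ⊕ Gm) k} {N : Type} [Fintype N]
  [DecidableEq N] {t l : ℕ}

namespace Smp

/-- The part below the path child. -/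
def patchSub (s0 : Smp O P (S.step t l) N) : Smp O P S (Nx N l) where
  us j := s0.us (s0.p.1, j)
  ds j := s0.ds (s0.p.1, j)
  p := s0.p.2
  co := s0.co
  xi := s0.xi.2.2
  ph := s0.ph.2
  ex m := Sum.elim (fun n => (s0.ex n).2 m.2) (fun c => (s0.xi.1 c).2 m.2) m.1

theorem patchSub_patch (s0 : Smp O P (S.step t l) N) (s : Smp O P S (Nx N l)) :
    patchSub (s0.patch s) = s := by
  obtain ⟨us, ds, p, co, xi, ph, ex⟩ := s
  simp only [patchSub, patch, if_true, mk.injEq, true_and]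
  funext m
  obtain ⟨m | m, j⟩ := m <;> rfl

theorem patch_patchSub (s0 : Smp O P (S.step t l) N) (s : Smp O P S (Nx N l)) :
    (s0.patch s).patch (patchSub s0) = s0 := by
  obtain ⟨us, ds, p, co, xi, ph, ex⟩ := s0
  have h : ∀ {β : Type} (f : Fin (t + 1) × S.Lf → β) (g : S.Lf → β),
      (fun i : Fin (t + 1) × S.Lf => if i.1 = p.1 then f (p.1, i.2) else
        if i.1 = p.1 then g i.2 else f i) = f := by
    intro β f g
    funext i
    by_cases hi : i.1 = p.1
    · rw [if_pos hi, ← hi]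
    · rw [if_neg hi, if_neg hi]
  exact congrArg₂ (fun a b => (⟨a, b, p, co, xi, ph, ex⟩ : Smp O P (S.step t l) N))
    (h us s.us) (h ds s.ds)

/-- The map `(s0, s) ↦ (s0.patch s, the parts of s0 that were replaced)` is an involution of the
product; `ex_equiv`, `ex_prod`. -/
theorem ex_patch (f : Smp O P (S.step t l) N → ℝ) :
    𝔼 s, f s = 𝔼 s0 : Smp O P (S.step t l) N, 𝔼 s : Smp O P S (Nx N l), f (s0.patch s) := by
  have hi : Involutive fun q : Smp O P (S.step t l) N × Smp O P S (Nx N l) =>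
      (q.1.patch q.2, patchSub q.1) := fun q =>
    Prod.ext (patch_patchSub q.1 q.2) (patchSub_patch q.1 q.2)
  have h1 := ex_equiv hi.toPerm fun q => f q.1
  rw [ex_prod, ex_prod] at h1
  refine Eq.trans ?_ h1.symm
  refine congrArg _ (funext fun s0 => ?_)
  exact (expect_const univ_nonempty (f s0)).symm

theorem vwc_res (s : Smp O P (S.step t l) N) (ω : Fin (t + 1) × S.Lf → Sg) (τ : Fin (t + 1)) :
    s.vwc (τ, res ω τ) = (τ, res (s.vw ω) τ) := by
  refine Prod.ext rfl (funext fun j => ?_)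
  by_cases h : τ = s.p.1
  · simp [vwc, vw, Sys.view, Sys.rel, Sys.step, res, h]
    congr
  · simp [vwc, vw, Sys.view, Sys.rel, Sys.step, res, h]

theorem li_asm (s : Smp O P (S.step t l) N) : s.li = asm s.us s.mm := by
  have hl : ∀ ω : Fin (t + 1) × S.Lf → Sg, s.low (res ω s.p.1) =
      S.sh s.p.2 s.ph.2 (S.uf s.p.2 s.xi.2.2 (res (s.vw ω) s.p.1)) := fun ω => by
    rw [low, vwc_res]
  have h1 : ∀ (ω : Fin (t + 1) × S.Lf → Sg) (j : Fin l),
      ((∑ c, (∑ τ, S.col s.p (s.xi.1 c) (τ, res (s.vw ω) τ)) • c) +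
      s.ph.1 (S.sh s.p.2 s.ph.2 (if s.p.1 = s.p.1 then S.uf s.p.2 s.xi.2.2 (res (s.vw ω) s.p.1)
        else s.xi.2.1 s.p.1 (res (s.vw ω) s.p.1)))) j =
      ∑ τ, (∑ c, S.col s.p (s.xi.1 c) (s.vwc (τ, res ω τ)) * c j +
        if τ = s.p.1 then s.ph.1 (s.low (res ω τ)) j else 0) := by
    intro ω j
    rw [if_pos rfl, sum_add_distrib, sum_ite_eq', if_pos (mem_univ _), hl, Pi.add_apply,
      Finset.sum_apply, sum_comm]
    simp only [vwc_res, Pi.smul_apply, smul_eq_mul, sum_mul]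
  have h2 : ∀ (ω : Fin (t + 1) × S.Lf → Sg) (τ : Fin (t + 1)),
      update (fun τ => if τ = s.p.1 then S.uf s.p.2 s.xi.2.2 (res (s.vw ω) τ)
        else s.xi.2.1 τ (res (s.vw ω) τ)) s.p.1
      (S.sh s.p.2 s.ph.2 (if s.p.1 = s.p.1 then S.uf s.p.2 s.xi.2.2 (res (s.vw ω) s.p.1)
        else s.xi.2.1 s.p.1 (res (s.vw ω) s.p.1))) τ =
      if τ = s.p.1 then s.low (res ω τ) else s.xi.2.1 τ (Sum.inl ∘ res ω τ) := by
    intro ω τ
    by_cases h : τ = s.p.1
    · subst h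
      rw [update_self, if_pos rfl, if_pos rfl, hl]
    · rw [update_of_ne h, if_neg h, if_neg h]
      have := congrArg Prod.snd (vwc_res s ω τ)
      simp only [vwc, if_neg h] at this
      rw [this]
  have h3 : ∀ (n : N) (ω : Fin (t + 1) × S.Lf → Sg),
      ∑ τ, S.col s.p (s.ex n) (τ, res (s.vw ω) τ) =
      ∑ τ, S.col s.p (s.ex n) (s.vwc (τ, res ω τ)) := by
    intro n ω
    simp only [vwc_res]
  exact Prod.ext rfl (Prod.ext (funext fun ω => Prod.ext (funext (h1 ω)) (funext (h2 ω)))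
    (funext fun n => funext (h3 n)))

theorem vwc_patch (s0 : Smp O P (S.step t l) N) (s : Smp O P S (Nx N l)) (w : S.Lf → Sg) :
    (s0.patch s).vwc (s0.p.1, w) = (s0.p.1, s.vw w) := by
  simp [vwc, patch, vw]

theorem low_patch (s0 : Smp O P (S.step t l) N) (s : Smp O P S (Nx N l)) :
    (s0.patch s).low = s.vis := by
  funext w
  show S.sh s.p s.ph (S.uf s.p s.xi ((s0.patch s).vwc (s0.p.1, w)).2) = _
  rw [vwc_patch]
  rfl

theorem vx_patch (s0 : Smp O P (S.step t l) N) (s : Smp O P S (Nx N l)) (x : Fin k) :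
    (s0.patch s).vx x = s.vx x := by
  funext a
  simp [vx, patch, Sys.step]

theorem dr_patch (s0 : Smp O P (S.step t l) N) (s : Smp O P S (Nx N l)) (M : Mark S)
    (a : Fin M.l → F2) : (s0.patch s).dr (M.lift t l) a = s0.patch (s.dr M a) := rfl

theorem patch_col (s0 : Smp O P (S.step t l) N) (s : Smp O P S (Nx N l))
    (g : Fin (t + 1) → (S.Lf → Sg ⊕ Gm) → F2) (m : N ⊕ (Fin l → F2))
    (i : Fin (t + 1) × (S.Lf → Sg)) :
    S.col (s0.p.1, s.p) (g, fun j => s.ex (m, j)) ((s0.patch s).vwc i) =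
      if i.1 = s0.p.1 then s.li.2.2 (m, 0) i.2 * s.li.2.2 (m, 1) i.2 + s.li.2.2 (m, 2) i.2
      else g i.1 (Sum.inl ∘ i.2) := by
  obtain ⟨τ, w⟩ := i
  by_cases h : τ = s0.p.1
  · subst h
    rw [vwc_patch, if_pos rfl]
    simp [Sys.col, Sys.sp, li]
  · rw [if_neg h]
    simp [Sys.col, vwc, patch, h]

/-- On the path child `col` is `sp`, a polynomial in the entries of `s.li.2.2`. -/
theorem mm_patch : ∃ up : Smp O P (S.step t l) N → LI O S (Nx N l) →
    (Fin (t + 1) × S.Lf → O.U) × Amb (t + 1) (D0 S N) (S.Lf → Sg) (Fin l),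
    ∀ s0 s, ((s0.patch s).us, (s0.patch s).mm) = up s0 s.li := by
  refine ⟨fun s0 x => (fun i => if i.1 = s0.p.1 then x.1 i.2 else s0.us i,
    fun τ => (fun w => if τ = s0.p.1 then x.2.1 w else s0.xi.2.1 τ (Sum.inl ∘ w),
      fun n w => if τ = s0.p.1 then x.2.2 (.inl n, 0) w * x.2.2 (.inl n, 1) w + x.2.2 (.inl n, 2) w
        else (s0.ex n).1 τ (Sum.inl ∘ w)),
    Matrix.of fun i j => ∑ c, (if i.1 = s0.p.1 then
        x.2.2 (.inr c, 0) i.2 * x.2.2 (.inr c, 1) i.2 + x.2.2 (.inr c, 2) i.2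
        else (s0.xi.1 c).1 i.1 (Sum.inl ∘ i.2)) * c j +
      if i.1 = s0.p.1 then s0.ph.1 (x.2.1 i.2) j else 0), fun s0 s => ?_⟩
  refine Prod.ext rfl (Prod.ext (funext fun τ => Prod.ext (funext fun w => ?_)
    (funext fun n => funext fun w => ?_)) (Matrix.ext fun i j => ?_))
  · show (if τ = s0.p.1 then (s0.patch s).low w else s0.xi.2.1 τ (Sum.inl ∘ w)) = _
    rw [low_patch]
    rfl
  · exact patch_col s0 s (s0.ex n).1 (.inl n) (τ, w)
  · show (∑ c, S.col (s0.p.1, s.p) ((s0.xi.1 c).1, fun j => s.ex (.inr c, j))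
      ((s0.patch s).vwc i) * c j +
      if i.1 = s0.p.1 then s0.ph.1 ((s0.patch s).low i.2) j else 0) = _
    simp only [patch_col, low_patch]
    rfl

theorem li_patch : ∃ up : Smp O P (S.step t l) N → LI O S (Nx N l) → LI O (S.step t l) N,
    ∀ s0 s, (s0.patch s).li = up s0 s.li := by
  obtain ⟨up, h⟩ := mm_patch (O := O) (P := P) (S := S) (N := N) (t := t) (l := l)
  refine ⟨fun s0 x => asm (up s0 x).1 (up s0 x).2, fun s0 s => ?_⟩
  rw [li_asm]
  show _ = asm (up s0 s.li).1 (up s0 s.li).2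
  rw [← h]

theorem ri_patch : ∃ up : Smp O P (S.step t l) N → RI O P S (Nx N l) → RI O P (S.step t l) N,
    ∀ s0 s, (s0.patch s).ri = up s0 s.ri := by
  refine ⟨fun s0 x => ((s0.p.1, x.1), x.2.1,
    fun i => if i.1 = s0.p.1 then x.2.2.1 i.2 else .inl (s0.us i),
    (fun c => ((s0.xi.1 c).1, fun j => x.2.2.2.2 (.inr c, j)), s0.xi.2.1, x.2.2.2.1),
    fun n => ((s0.ex n).1, fun j => x.2.2.2.2 (.inl n, j))), fun s0 s => ?_⟩
  refine Prod.ext rfl (Prod.ext rfl (Prod.ext (funext fun i => ?_) rfl))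
  by_cases h : i.1 = s0.p.1
  · simp [ri, patch, Sys.rel, Sys.step, h]
    congr
  · simp [ri, patch, Sys.rel, Sys.step, h]

end Smp

end Vale.Agent.P339
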