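import Vale.Agent.P339.Defs2

/-! A planted child among many is hidden. -/

namespace Vale.Agent.P339

open Finset Matrix Vale.Agent.P325 Function
open scoped BigOperators

set_option linter.unusedSectionVars false

variable {t : ℕ} {D Ω κ Z : Type} [Fintype D] [AddCommGroup D] [Fintype Ω] [DecidableEq Ω]
  [Fintype κ] [DecidableEq κ] [Fintype Z] [Nonempty Z] {mm : Fin t → Z → Amb t D Ω κ}

theorem Inv.prod {Y : Type} (h : Inv mm) : Inv fun τ (z : Z × Y) => mm τ z.1 := by
  intro τ v h1 h2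
  obtain ⟨e, he⟩ := h τ v h1 h2
  exact ⟨e.prodCongr (Equiv.refl Y), fun z => he z.1⟩

/-- The data of one child. -/
def plantedDat (τ : Fin t) (x : Amb t D Ω κ) : D × (Ω → κ → F2) := (x.1 τ, fun w j => x.2 (τ, w) j)

lemma planted_fac (h : Inv mm) (τ : Fin t) : ∃ g : D × (Ω → κ → F2) → ℝ,
    (∀ x, rho (mm τ) x = g (plantedDat τ x)) ∧ 𝔼 y, g y = 1 ∧ (∀ y, 0 ≤ g y) ∧
      ∀ y, g y ≤ Fintype.card D * Fintype.card (Ω → κ → F2) := by
  let sec : D × (Ω → κ → F2) → Amb t D Ω κ := fun y => (fun _ => y.1, Matrix.of fun i j => y.2 i.2 j)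
  have h1 : ∀ x, rho (mm τ) x = rho (mm τ) (sec (plantedDat τ x)) := fun x => by
    obtain ⟨e, he⟩ := h τ (x - sec (plantedDat τ x)) (by simp [sec, plantedDat])
      (fun w j => by simp [sec, plantedDat])
    unfold rho
    rw [← ex_equiv e fun z => ind (mm τ z = x)]
    congr 2
    funext z
    rw [he]
    exact ind_congr ⟨fun k => by rw [← sub_eq_zero, ← sub_eq_zero.2 k]; abel, fun k => by
      rw [k]; abel⟩
  have h2 : 𝔼 y, rho (mm τ) (sec y) = 1 := by
    rw [← ex_hom (φ := plantedDat τ) (fun _ _ => rfl) (fun y => ⟨sec y, rfl⟩), ← ex_rho (mm τ)]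
    exact congrArg _ (funext fun x => (h1 x).symm)
  have h3 : ∀ y, 0 ≤ rho (mm τ) (sec y) := fun y =>
    mul_nonneg (Nat.cast_nonneg _) (ex_nonneg fun _ => ind_nonneg _)
  refine ⟨fun y => rho (mm τ) (sec y), h1, h2, h3, fun y => ?_⟩
  have h4 : (0 : ℝ) < Fintype.card (D × (Ω → κ → F2)) := Nat.cast_pos.2 Fintype.card_pos
  rw [ex_eq, div_eq_one_iff_eq h4.ne', Fintype.card_prod, Nat.cast_mul] at h2
  rw [← h2]
  exact single_le_sum (fun y _ => h3 y) (mem_univ y)

/-- `rho (mm τ)` is invariant under the translations `v` vanishing on the child `τ`, so it is a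
function of the data `(x.1 τ, fun w j => x.2 (τ, w) j) : D × (Ω → κ → F2)` of that child, which is
uniform (`ex_hom`); the mean is one (`ex_rho`), so each value is at most the number of points. -/
theorem planted_dens (h : Inv mm) (τ : Fin t) (x : Amb t D Ω κ) :
    rho (mm τ) x ≤ Fintype.card D * Fintype.card (Ω → κ → F2) := by
  obtain ⟨g, h1, -, -, h4⟩ := planted_fac h τ
  rw [h1]
  exact h4 _

/-- `rho = 𝔼 τ, rho (mm τ)`; for `τ ≠ τ'` the functions `rho (mm τ) - 1`, `rho (mm τ') - 1` are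
orthogonal (the pair of the data of two children is uniform by `ex_hom`, `ex_prod`), and
`𝔼 (rho (mm τ) - 1) ^ 2 = 𝔼 rho ^ 2 - 1 ≤ card`. -/
theorem planted_chi (ht : 0 < t) (h : Inv mm) :
    𝔼 x, (rho (fun q : Fin t × Z => mm q.1 q.2) x - 1) ^ 2 ≤
      (Fintype.card D * Fintype.card (Ω → κ → F2) / t : ℝ) := by
  choose g h1 h2 h3 h4 using planted_fac h
  have ht' : (0 : ℝ) < t := Nat.cast_pos.2 ht
  have e1 : ∀ x, rho (fun q : Fin t × Z => mm q.1 q.2) x - 1
      = (∑ τ, (g τ (plantedDat τ x) - 1)) / t := fun x => by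
    have e : rho (fun q : Fin t × Z => mm q.1 q.2) x = (∑ τ, rho (mm τ) x) / t := by
      unfold rho
      rw [ex_prod, ex_eq, Fintype.card_fin, ← mul_sum, mul_div_assoc]
    rw [e, sum_sub_distrib, sum_const, card_univ, Fintype.card_fin, nsmul_eq_mul, mul_one,
      sub_div, div_self ht'.ne']
    simp only [h1]
  have e2 : ∀ τ τ', 𝔼 x : Amb t D Ω κ, (g τ (plantedDat τ x) - 1) * (g τ' (plantedDat τ' x) - 1)
      ≤ if τ = τ' then (Fintype.card D * Fintype.card (Ω → κ → F2) : ℝ) else 0 := fun τ τ' => by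
    split_ifs with k
    · subst k
      rw [ex_hom (φ := plantedDat τ) (fun _ _ => rfl)
        (fun y => ⟨(fun _ => y.1, Matrix.of fun i j => y.2 i.2 j), rfl⟩)
        fun y => (g τ y - 1) * (g τ y - 1)]
      have k1 : 𝔼 y, (g τ y - 1) * (g τ y - 1) ≤ 𝔼 y, ((Fintype.card D *
          Fintype.card (Ω → κ → F2) : ℝ) * g τ y - 2 * g τ y + 1) :=
        ex_mono fun y => by nlinarith [mul_le_mul_of_nonneg_right (h4 τ y) (h3 τ y)]
      rw [ex_add, ex_sub, ex_mul, ex_mul, h2, Fintype.expect_const] at k1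
      linarith
    · rw [ex_hom (φ := fun x : Amb t D Ω κ => (plantedDat τ x, plantedDat τ' x)) (fun _ _ => rfl)
        (fun y => ⟨(fun i => if i = τ then y.1.1 else y.2.1,
          Matrix.of fun i j => if i.1 = τ then y.1.2 i.2 j else y.2.2 i.2 j), by
            simp [plantedDat, Ne.symm k]⟩)
        fun y => (g τ y.1 - 1) * (g τ' y.2 - 1), ex_prod]
      simp only [ex_mul, ex_sub, h2, Fintype.expect_const, sub_self, mul_zero, le_refl]
  simp only [e1, div_pow, sq (∑ _, _), sum_mul_sum, div_eq_mul_inv _ ((t : ℝ) ^ 2), ex_mul', ex_sum]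
  have e3 := sum_le_sum fun τ (_ : τ ∈ univ) => sum_le_sum fun τ' (_ : τ' ∈ univ) => e2 τ τ'
  simp only [sum_ite_eq, mem_univ, if_true, sum_const, card_univ, Fintype.card_fin,
    nsmul_eq_mul] at e3
  refine (mul_le_mul_of_nonneg_right e3 (by positivity)).trans (le_of_eq ?_)
  field_simp

end Vale.Agent.P339
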