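import Vale.Agent.P339.Defs2

/-! Refreshing a direction forces small rank. -/

namespace Vale.Agent.P339

open Finset Matrix Vale.Agent.P325 Function
open scoped BigOperators

set_option linter.unusedSectionVars false

lemma rank_ex_le {α : Type} [Fintype α] {f : α → ℝ} {c : ℝ} (hc : 0 ≤ c) (h : ∀ a, f a ≤ c) :
    𝔼 a, f a ≤ c := by
  rcases isEmpty_or_nonempty α with hα | hα
  · simpa using hc
  · exact ex_le h

lemma rank_coset {V : Type} [Fintype V] [AddCommGroup V] {P Q : V → Prop}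
    (h : ∀ u u0, P u → P u0 → Q (u + u0)) : 𝔼 u, ind (P u) ≤ 𝔼 u, ind (Q u) := by
  by_cases h0 : ∃ u0, P u0
  · obtain ⟨u0, h0⟩ := h0
    rw [← ex_shift u0 fun u => ind (Q u)]
    exact ex_mono fun u => ind_mono fun hu => h u u0 hu h0
  · exact ex_mono fun u => ind_mono fun hu => absurd ⟨u, hu⟩ h0

lemma rank_shift {Ω V : Type} [Fintype Ω] [Fintype V] [Nonempty V] (mv : V → Ω ≃ Ω)
    (Ev : Ω → Prop) (q : Ω → ℝ) (hq : ∀ u ω, q (mv u ω) = q ω) {c ε : ℝ} (hc : 0 ≤ c) (hε : 0 ≤ ε)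
    (h : ∀ ω, 𝔼 u, ind (Ev (mv u ω)) ≤ c * q ω) : 𝔼 ω, ind (Ev ω ∧ q ω < ε) ≤ c * ε := by
  have h1 : 𝔼 ω, ind (Ev ω ∧ q ω < ε) = 𝔼 u, 𝔼 ω, ind (Ev (mv u ω) ∧ q (mv u ω) < ε) := by
    simp only [fun u => ex_equiv (mv u) fun ω => ind (Ev ω ∧ q ω < ε)]
    exact (Finset.expect_const univ_nonempty _).symm
  rw [h1, ex_comm]
  refine rank_ex_le (mul_nonneg hc hε) fun ω => ?_
  simp only [hq, ind_and, ex_mul']
  by_cases h2 : q ω < ε
  · rw [ind_pos h2, mul_one]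
    exact (h ω).trans (mul_le_mul_of_nonneg_left h2.le hc)
  · rw [ind_neg h2, mul_zero]
    exact mul_nonneg hc hε

lemma rank_exists_one {l : ℕ} (a : NZ l) : ∃ w : Fin l → F2, w ⬝ᵥ a.1 = 1 := by
  obtain ⟨i, hi⟩ := Function.ne_iff.1 a.2
  exact ⟨Pi.single i 1, by rw [single_dotProduct, one_mul]; exact (F2.cases _).resolve_left hi⟩

lemma rank_two {l : ℕ} (w : Fin l → F2) : w + w = 0 := funext fun i => F2.add_self (w i)

lemma rank_b {V : Type} [Fintype V] [AddCommGroup V] {l : ℕ} (a : Fin l → F2)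
    (B : V → (Fin l → F2) → F2) (h1 : ∀ u u' w, B (u + u') w = B u w + B u' w)
    (h2 : ∀ u w w', B u (w + w') = B u w + B u w') :
    𝔼 u, ind (∀ w, w ⬝ᵥ a = 0 → B u w = 0) ≤ 2 * 𝔼 w, ind (∀ u, B u w = 0) := by
  have h3 : ∀ u, ind (∀ w, w ⬝ᵥ a = 0 → B u w = 0) ≤ 𝔼 w, sgn (B u w) * (1 + sgn (w ⬝ᵥ a)) := by
    intro u
    by_cases h : ∀ w, w ⬝ᵥ a = 0 → B u w = 0
    · have h4 : ∀ w, sgn (B u w) * (1 + sgn (w ⬝ᵥ a)) = 1 + sgn (w ⬝ᵥ a) := fun w => by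
        rcases F2.cases (w ⬝ᵥ a) with h5 | h5
        · rw [h w h5, sgn_zero, one_mul]
        · rw [h5]; simp
      simp only [h4, ex_add]
      rw [ex_sgn fun x y => add_dotProduct x y a, Finset.expect_const univ_nonempty, ind_pos h]
      linarith [ind_nonneg (∀ x : Fin l → F2, x ⬝ᵥ a = 0)]
    · simp only [mul_add, mul_one, ← sgn_add, ex_add]
      rw [ind_neg h, ex_sgn (h2 u), ex_sgn (φ := fun w => B u w + w ⬝ᵥ a) fun x y => by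
        rw [h2, add_dotProduct]; ring]
      exact add_nonneg (ind_nonneg _) (ind_nonneg _)
  refine (ex_mono h3).trans ?_
  rw [ex_comm, ← ex_mul]
  refine ex_mono fun w => ?_
  rw [ex_mul', ex_sgn fun x y => h1 x y w, mul_comm]
  refine mul_le_mul_of_nonneg_right ?_ (ind_nonneg _)
  linarith [le_of_abs_le (abs_sgn (w ⬝ᵥ a)).le]

lemma rank_c {l : ℕ} (K : (Fin l → F2) → Prop) {ε : ℝ} (hε : 0 < ε) (hl : 4 / ε ^ 2 ≤ 2 ^ l) :
    𝔼 a : NZ l, ind (ε / 2 ≤ 𝔼 w, ind (K w) ∧ ∀ w, K w → w ⬝ᵥ a.1 = 0) ≤ ε := by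
  classical
  by_cases hk : ε / 2 ≤ 𝔼 w, ind (K w)
  swap
  · exact rank_ex_le hε.le fun a => by rw [ind_neg fun h => hk h.1]; exact hε.le
  rcases isEmpty_or_nonempty (NZ l) with hz | hz
  · simpa using hε.le
  set κ := 𝔼 w, ind (K w) with hκ
  have h0 : 0 < κ := by linarith
  have h1 : κ = ∑ s, hat (fun w => ind (K w)) s ^ 2 := by
    rw [← parseval, hκ]
    refine congrArg _ (funext fun w => ?_)
    rw [sq, ← ind_and, and_self]
  have h2 : ∀ s : Fin l → F2, ind (∀ w, K w → w ⬝ᵥ s = 0) * κ ^ 2 ≤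
      hat (fun w => ind (K w)) s ^ 2 := fun s => by
    by_cases h : ∀ w, K w → w ⬝ᵥ s = 0
    · rw [ind_pos h, one_mul, hκ, hat]
      refine le_of_eq (congrArg (· ^ 2) (congrArg _ (funext fun w => ?_)))
      by_cases hw : K w
      · rw [chi, B_vec, dotProduct_comm, h w hw, sgn_zero, mul_one]
      · rw [ind_neg hw, zero_mul]
    · rw [ind_neg h, zero_mul]
      exact sq_nonneg _
  have h3 : (∑ s : Fin l → F2, ind (∀ w, K w → w ⬝ᵥ s = 0)) * κ ≤ 1 := by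
    have h4 := Finset.sum_le_sum fun s (_ : s ∈ univ) => h2 s
    rw [← h1, ← Finset.sum_mul] at h4
    nlinarith
  have h4 : ∑ a : NZ l, ind (ε / 2 ≤ κ ∧ ∀ w, K w → w ⬝ᵥ a.1 = 0) ≤
      ∑ s : Fin l → F2, ind (∀ w, K w → w ⬝ᵥ s = 0) := by
    refine (Finset.sum_le_sum fun a _ => ind_mono fun h => h.2).trans ?_
    rw [← Finset.sum_subtype (univ.filter fun s : Fin l → F2 => s ≠ 0) (by simp)
      fun s => ind (∀ w, K w → w ⬝ᵥ s = 0)]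
    exact Finset.sum_le_sum_of_subset_of_nonneg (Finset.filter_subset _ _) fun _ _ _ => ind_nonneg _
  have h5 : Fintype.card (NZ l) + 1 = 2 ^ l := by
    have h6 : 0 < 2 ^ l := by positivity
    rw [Fintype.card_subtype_compl, Fintype.card_subtype_eq, Fintype.card_fun, ZMod.card,
      Fintype.card_fin]
    omega
  have h6 : (1 : ℝ) ≤ Fintype.card (NZ l) := by exact_mod_cast Fintype.card_pos
  have h7 : (Fintype.card (NZ l) : ℝ) + 1 = 2 ^ l := by exact_mod_cast h5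
  rw [div_le_iff₀ (by positivity)] at hl
  have h8 : 0 ≤ ∑ s : Fin l → F2, ind (∀ w, K w → w ⬝ᵥ s = 0) :=
    Finset.sum_nonneg fun _ _ => ind_nonneg _
  rw [ex_eq, div_le_iff₀ (by linarith)]
  refine h4.trans (le_of_mul_le_mul_right ?_ hε)
  nlinarith [mul_le_mul_of_nonneg_left hk h8, mul_le_mul_of_nonneg_left h6 (sq_nonneg ε)]

/-- Shift lemma: if `q` is invariant under all `mv u` and `𝔼 u, ind (Ev (mv u ω)) ≤ c * q ω` then
`Pr (Ev ∧ q < ε) ≤ c * ε`. (a) `qa ω a = 𝔼 u, ind (∀ w, w ⬝ᵥ a = 0 → BR ω a (u, 0) (0, w) = 0)`;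
pick `wa ⬝ᵥ a = 1`; `Ev (mv a u ω) a` gives `BR ω a (u, wa) (0, w) = 0` for `w ⬝ᵥ a = 0`, a coset
condition on `u`; so `Pr (Ev ∧ qa < ε) ≤ ε`. (b) `Kr ω = {w | ∀ u, BL ω (u, 0) (0, w) = 0}`; on `Ev`,
`qa ≤ 𝔼 u, 𝔼 w, sgn (BL ..) * (1 + sgn (w ⬝ᵥ a)) ≤ 2 * 𝔼 w, ind (w ∈ Kr ω)` (`ex_sgn`).
(c) for a fixed set `Kr`, `𝔼 a, ind (∀ w ∈ Kr, w ⬝ᵥ a = 0) ≤ 𝔼 a, (avg over Kr of sgn) ^ 2 = 1 / #Kr`
over all `a`, at most twice that over `a ≠ 0`; so `≤ 4 / (ε 2 ^ l) ≤ ε` if `#Kr ≥ ε 2 ^ l / 2`.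
(d) `Ev (mv a u ω) a` and `w ∈ Kr (mv a u ω)` with `w ⬝ᵥ a = 1` give
`∀ u', BR ω a (u', 0) (u, w) = 0`, again a coset condition; union over `w` (`ind_exists_le`). -/
theorem rank_bound {Ω V : Type} [Fintype Ω] [Fintype V] [AddCommGroup V] [Module F2 V] {l : ℕ}
    (BL : Ω → V × (Fin l → F2) → V × (Fin l → F2) → F2)
    (BR : Ω → NZ l → V × (Fin l → F2) → V × (Fin l → F2) → F2)
    (hR1 : ∀ ω a x x' y, BR ω a (x + x') y = BR ω a x y + BR ω a x' y)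
    (hR2 : ∀ ω a x y y', BR ω a x (y + y') = BR ω a x y + BR ω a x y')
    (mv : NZ l → V → Ω ≃ Ω)
    (hmv : ∀ a u ω x y, BR (mv a u ω) a x y =
      BR ω a (x.1 + (x.2 ⬝ᵥ a.1) • u, x.2) (y.1 + (y.2 ⬝ᵥ a.1) • u, y.2))
    (Ev : Ω → NZ l → Prop) (hEv : ∀ ω a, Ev ω a → BL ω = BR ω a ∧ ∀ w w', BL ω (0, w) (0, w') = 0)
    {ε : ℝ} (hε : 0 < ε) (hl : 4 / ε ^ 2 ≤ 2 ^ l) :
    𝔼 ω, 𝔼 a : NZ l, ind (Ev ω a ∧ 𝔼 u, ind (∀ u', BR ω a (u', 0) (u, 0) = 0) < ε / 2 ^ l) ≤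
      3 * ε := by
  have : Nonempty V := ⟨0⟩
  let q0 : Ω → NZ l → ℝ := fun ω a => 𝔼 u, ind (∀ u', BR ω a (u', 0) (u, 0) = 0)
  let qa : Ω → NZ l → ℝ := fun ω a =>
    𝔼 u, ind (∀ w, w ⬝ᵥ a.1 = 0 → BR ω a (u, 0) (0, w) = 0)
  let Kr : Ω → (Fin l → F2) → Prop := fun ω w => ∀ u, BL ω (u, 0) (0, w) = 0
  have ha : ∀ a, 𝔼 ω, ind (Ev ω a ∧ qa ω a < ε) ≤ 1 * ε := fun a => by
    refine rank_shift (mv a) (fun ω => Ev ω a) (fun ω => qa ω a) (fun v ω => ?_) zero_le_one hε.le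
      fun ω => ?_
    · refine Finset.expect_congr rfl fun u _ => ind_congr (forall_congr' fun w => imp_congr_right
        fun hw => ?_)
      simp [hmv, hw]
    · obtain ⟨wa, hwa⟩ := rank_exists_one a
      rw [one_mul]
      refine le_trans (ex_mono fun u => ind_mono fun h => ?_) (rank_coset
        (P := fun u => ∀ w, w ⬝ᵥ a.1 = 0 → BR ω a (u, wa) (0, w) = 0) fun u u0 h h0 w hw => ?_)
      · intro w hw
        have h1 := (hEv _ _ h).2 wa w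
        rw [(hEv _ _ h).1, hmv] at h1
        simpa [hwa, hw] using h1
      · have h1 := hR1 ω a (u, wa) (u0, wa) (0, w)
        rwa [Prod.mk_add_mk, rank_two, h w hw, h0 w hw, add_zero] at h1
  have hd : ∀ a, 𝔼 ω, ind ((Ev ω a ∧ ∃ w, Kr ω w ∧ w ⬝ᵥ a.1 = 1) ∧ q0 ω a < ε / 2 ^ l) ≤
      2 ^ l * (ε / 2 ^ l) := fun a => by
    refine rank_shift (mv a) (fun ω => Ev ω a ∧ ∃ w, Kr ω w ∧ w ⬝ᵥ a.1 = 1) (fun ω => q0 ω a)
      (fun v ω => ?_) (by positivity) (by positivity) fun ω => ?_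
    · simp [q0, hmv]
    · have h1 : ∀ u, ind (Ev (mv a u ω) a ∧ ∃ w, Kr (mv a u ω) w ∧ w ⬝ᵥ a.1 = 1) ≤
          ∑ w, ind (∀ u', BR ω a (u', 0) (u, w) = 0) := fun u => by
        refine le_trans (ind_mono fun ⟨h, w, h2, h3⟩ => ⟨w, fun u' => ?_⟩) (ind_exists_le _)
        have h4 := h2 u'
        rw [(hEv _ _ h).1, hmv] at h4
        simpa [h3] using h4
      refine (ex_mono h1).trans ?_
      rw [ex_sum]
      refine (Finset.sum_le_card_nsmul _ _ (q0 ω a) fun w _ => rank_coset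
        fun u u0 h h0 u' => ?_).trans (le_of_eq ?_)
      · have h2 := hR2 ω a (u', 0) (u, w) (u0, w)
        rwa [Prod.mk_add_mk, rank_two, h u', h0 u', add_zero] at h2
      · simp
  have hs : ∀ ω a, ind (Ev ω a ∧ q0 ω a < ε / 2 ^ l) ≤ ind (Ev ω a ∧ qa ω a < ε) +
      (ind (ε / 2 ≤ 𝔼 w, ind (Kr ω w) ∧ ∀ w, Kr ω w → w ⬝ᵥ a.1 = 0) +
        ind ((Ev ω a ∧ ∃ w, Kr ω w ∧ w ⬝ᵥ a.1 = 1) ∧ q0 ω a < ε / 2 ^ l)) := fun ω a => by
    refine le_trans (ind_mono fun h => ?_) ((ind_or_le _ _).trans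
      (add_le_add le_rfl (ind_or_le _ _)))
    by_cases h1 : qa ω a < ε
    · exact Or.inl ⟨h.1, h1⟩
    by_cases h2 : ∃ w, Kr ω w ∧ w ⬝ᵥ a.1 = 1
    · exact Or.inr (Or.inr ⟨⟨h.1, h2⟩, h.2⟩)
    refine Or.inr (Or.inl ⟨?_, fun w hw => (F2.cases _).resolve_right fun h3 => h2 ⟨w, hw, h3⟩⟩)
    have h3 := rank_b a.1 (fun u w => BR ω a (u, 0) (0, w))
      (fun u u' w => by simpa using hR1 ω a (u, 0) (u', 0) (0, w))
      fun u w w' => by simpa using hR2 ω a (u, 0) (0, w) (0, w')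
    have h4 : 𝔼 w, ind (Kr ω w) = 𝔼 w, ind (∀ u, BR ω a (u, 0) (0, w) = 0) := by
      simp only [Kr, (hEv _ _ h.1).1]
    rw [h4]
    have h5 : ε ≤ qa ω a := not_lt.1 h1
    simp only [qa] at h5
    linarith
  refine (ex_mono fun ω => ex_mono fun a => hs ω a).trans ?_
  simp only [ex_add]
  have k1 := rank_ex_le (by positivity) ha
  have k2 := rank_ex_le hε.le fun ω => rank_c (Kr ω) hε hl
  have k3 := rank_ex_le (by positivity) hd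
  rw [ex_comm] at k1 k3
  have k4 : (2 : ℝ) ^ l * (ε / 2 ^ l) = ε := by field_simp
  linarith

end Vale.Agent.P339
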