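import Vale.Agent.P339.Defs2
import Vale.Agent.P339N.Red

/-! The reduction. -/

namespace Vale.Agent.P339

open Finset Matrix Vale.Agent.P325 Function Vale.Agent.Lib.PCP Vale.Agent.Lib.TM
open Vale.Agent.P325.Lin Vale.Agent.P339N
open scoped BigOperators

set_option linter.unusedSectionVars false

variable {L R k m P q : ℕ} {S : Sys (Fin L ⊕ Fin R) k} (M : Fin (m + 1) → Mark S) (d : Fin R)
  (cls : S.Lab → S.Lab → Fin q) (eV : S.Lab ≃ Fin (2 * q))


variable (P) in
/-- A level, directions, a path, coins, tables and foldings. -/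
abbrev Cel := Fin (m + 1) × ((i : Fin (m + 1)) → NZ (M i).l) × S.Pa × (Fin k → Fin (P + 1)) ×
  S.Xi × S.Ph

variable (S) in
/-- Numbering of the leaves. -/
noncomputable def eL : S.Lf ≃ Fin (Fintype.card S.Lf) := Fintype.equivFin _

/-- The folded table of the left vertex. -/
def lT (πs : S.Lf → Fin L → Fin R) (x : Cel P M) (ω : S.Lf → Fin L) : S.Lab :=
  S.sh x.2.2.1 x.2.2.2.2.2 (S.uf x.2.2.1 x.2.2.2.2.1 (S.view πs x.2.2.1 x.2.2.2.1 ω))

/-- The forgotten direction. -/
def dT (x : Cel P M) : S.Lab := (M x.1).dir x.2.2.1 (x.2.1 x.1).1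

/-- The data of the right vertex. -/
def rT (x : Cel P M) : S.Pa × (Fin k → Fin (P + 1)) × S.Xi × S.Lab :=
  (x.2.2.1, x.2.2.2.1, (M x.1).drop (x.2.1 x.1).1 x.2.2.2.2.1, dT M x)

/-- The table of the projection. -/
def tb (x : Cel P M) : List ℕ :=
  List.ofFn fun i : Fin (2 * q) => (cls (dT M x) ((S.sh x.2.2.1 x.2.2.2.2.2).symm (eV.symm i))).val

/-- One constraint. -/
noncomputable def con (es : Fin (Fintype.card S.Lf) → Ed) (x : Cel P M) : Ed :=
  (code (fun j => (es j).1, lT M (fun i => prj d (es (eL S i))) x),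
    code (fun j => if S.rel x.2.2.1 x.2.2.2.1 ((eL S).symm j) then (es j).2.1 else (es j).1,
      rT M x), tb M cls eV x)

variable (P) in
/-- The reduction. -/
noncomputable def red (G : LC) : P339N.Game :=
  (tup G.2.2 (Fintype.card S.Lf)).flatMap fun s =>
    (univ : Finset (Cel P M)).toList.map (con M d cls eV (rd _ s))

theorem reda_ct_con (x : Cel P M) :
    CT 0 fun s => con M d cls eV (rd (Fintype.card S.Lf) s) x := by
  have h : ∀ i, CT 0 fun s => P339N.rd (Fintype.card S.Lf) s i := fun i =>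
    CT.id.getD (CT.const _) (CT.const _)
  have hp : CTF fun s (j : Fin (Fintype.card S.Lf)) =>
      (prj d (P339N.rd (Fintype.card S.Lf) s j) : Fin L → Fin R) :=
    CTF.pi fun j => CTF.pi fun s =>
      CTF.fin ((h j).snd.snd.getD (CT.const (s : ℕ)) (CT.const 0)) d
  have hn : ∀ j, CT 0 fun s => if S.rel x.2.2.1 x.2.2.2.1 ((eL S).symm j) then
      (P339N.rd (Fintype.card S.Lf) s j).2.1 else (P339N.rd (Fintype.card S.Lf) s j).1 := fun j => by
    by_cases e : S.rel x.2.2.1 x.2.2.2.1 ((eL S).symm j) = true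
    · exact (h j).snd.fst.of_eq fun s => by rw [if_pos e]
    · exact (h j).fst.of_eq fun s => by rw [if_neg e]
  have h1 := hp ℕ fun π => num (lT M (fun i => π (eL S i)) x)
  have h2 := ct_pair (ct_cF fun j => (h j).fst) h1
  have h3 := ct_pair (ct_cF hn) (CT.const (num (rT M x)))
  have h4 := h2.mk (h3.mk (CT.const (tb M cls eV x)))
  refine h4.of_eq fun s => ?_
  rw [con, code, code]

theorem reda_count {n : ℕ} (f : Fin n → ℕ) (b : ℕ) :
    (List.ofFn f).count b = #{i | f i = b} := by
  induction n with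
  | zero => simp
  | succ n ih =>
    rw [List.ofFn_succ, List.count_cons, ih, Fin.card_filter_univ_succ']
    by_cases h : f 0 = b <;> simp [h, add_comm]

/-- As `P339N.ct_con`, `P339N.ct_red`; use `CTF.pi` twice for the tuple of projections
`fun j => prj d (rd _ s j)`. -/
theorem ct_red : CT 0 (red P M d cls eV) := by
  exact CT.flatMap
    (f := fun _ s => (univ : Finset (Cel P M)).toList.map (con M d cls eV (rd _ s)))
    (ct_mapConst (f := fun (a : LC × List Ed) x => con M d cls eV (rd _ a.2) x) _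
      fun x => (reda_ct_con M d cls eV x).comp CT.id.snd) ((P339N.ct_tup _).comp CT.id.snd.snd)

theorem sum_red (G : LC) (f : Ed → ℝ) : ((red P M d cls eV G).map f).sum =
    ∑ e : Fin (Fintype.card S.Lf) → Fin G.2.2.length, ∑ x : Cel P M,
      f (con M d cls eV (G.2.2.get ∘ e) x) := by
  rw [red, sum_flat, sum_tup G.2.2 _ fun es => ∑ x, f (con M d cls eV es x)]

theorem length_red (G : LC) : ((red P M d cls eV G).length : ℝ) =
    Fintype.card (Fin (Fintype.card S.Lf) → Fin G.2.2.length) * Fintype.card (Cel P M) := by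
  have := sum_red (P := P) M d cls eV G fun _ => 1
  simp only [sum_const, card_univ, nsmul_eq_mul, mul_one] at this
  rw [← this]
  simp

/-- `Cel` is not empty because `0 < (M i).l`; `List.count` of `List.ofFn` is the cardinality of a
fibre, transported along the two bijections. -/
theorem red_wf (hl : ∀ i, 0 < (M i).l) (hd : ∀ i p a, a ≠ 0 → (M i).dir p a ≠ 0)
    (hc : ∀ δ ≠ 0, ∀ b, #{y | cls δ y = b} = 2) {G : LC} (h : G.WF L R) :
    (red P M d cls eV G).TwoToOne q := by
  have : Nonempty (Fin G.2.2.length) := ⟨⟨0, List.length_pos_iff.2 h.1⟩⟩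
  have : ∀ i, Nonempty (NZ (M i).l) := fun i =>
    ⟨⟨fun _ => 1, fun e => one_ne_zero (congrFun e ⟨0, hl i⟩)⟩⟩
  have h : (0 : ℝ) < (red P M d cls eV G).length := by rw [length_red]; positivity
  refine ⟨List.length_pos_iff.1 (by exact_mod_cast h), fun e he => ?_⟩
  simp only [red, List.mem_flatMap, List.mem_map] at he
  obtain ⟨s, -, x, -, rfl⟩ := he
  refine ⟨List.length_ofFn, fun b hb => ?_, fun b hb => ?_⟩
  · obtain ⟨i, rfl⟩ := List.mem_ofFn.1 hb
    exact Fin.is_lt _
  · rw [← hc (dT M x) (hd _ _ _ (x.2.1 x.1).2) ⟨b, hb⟩]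
    refine (reda_count _ b).trans (card_equiv (eV.symm.trans (S.sh x.2.2.1 x.2.2.2.2.2).symm)
      fun i => ?_)
    simp only [mem_filter, mem_univ, true_and, Equiv.trans_apply, Fin.ext_iff]

end Vale.Agent.P339
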