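import Vale.Agent.P339.RedA
import Vale.Agent.P339.Marks

/-! Perfect completeness. -/

namespace Vale.Agent.P339

open Finset Matrix Vale.Agent.P325 Function Vale.Agent.Lib.PCP Vale.Agent.Lib.TM
open Vale.Agent.P325.Lin Vale.Agent.P339N
open scoped BigOperators

set_option linter.unusedSectionVars false

variable {L R k m P q : ℕ} {S : Sys (Fin L ⊕ Fin R) k} (M : Fin (m + 1) → Mark S) (d : Fin R)
  (cls : S.Lab → S.Lab → Fin q) (eV : S.Lab ≃ Fin (2 * q))


/-- As `P339N.red_perfect`. Left label of `code (n, f)`: `eV (f fun i => A' (n (eL S i)))`. Right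
label of `code (n, p, co, ξ, δ)`:
`cls δ (S.uf p ξ fun i => if S.rel p co i then .inr (B' (n (eL S i))) else .inl (A' (n (eL S i))))`.
The view of the honest assignment is that assignment; `uf_drop`, `hc`, `dir_ne`. -/
theorem red_perfect (hq : 0 < q) (hM : ∀ i, (M i).Ok)
    (hc : ∀ δ ≠ 0, ∀ y (b : F2), cls δ (y + b • δ) = cls δ y) {G : LC} (h : G.WF L R)
    (hG : G.Perfect L R) : (red P M d cls eV G).Perfect q := by
  obtain ⟨A, B, hA, hB, hG⟩ := hG
  obtain ⟨A', e1⟩ : ∃ A' : ℕ → Fin L, ∀ u, A' u = ⟨A u, hA u⟩ := ⟨_, fun _ => rfl⟩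
  obtain ⟨B', e2⟩ : ∃ B' : ℕ → Fin R, ∀ u, B' u = ⟨B u, hB u⟩ := ⟨_, fun _ => rfl⟩
  refine ⟨extend code (fun p : (Fin (Fintype.card S.Lf) → ℕ) × ((S.Lf → Fin L) → S.Lab) =>
    (eV (p.2 fun i => A' (p.1 (eL S i)))).val) 0,
    extend code (fun p : (Fin (Fintype.card S.Lf) → ℕ) × S.Pa × (Fin k → Fin (P + 1)) × S.Xi ×
      S.Lab => (cls p.2.2.2.2 (S.uf p.2.1 p.2.2.2.1 fun i => if S.rel p.2.1 p.2.2.1 i then
        .inr (B' (p.1 (eL S i))) else .inl (A' (p.1 (eL S i))))).val) 0,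
    extend_lt code_inj (by omega) fun p => Fin.is_lt _,
    extend_lt code_inj hq fun p => Fin.is_lt _, ?_⟩
  have s1 := sum_red (P := P) M d cls eV G fun _ => 1
  rw [List.map_const', List.sum_replicate, nsmul_one] at s1
  rw [← Nat.cast_inj (R := ℝ), Game.good, countP_eq, sum_red, s1]
  refine sum_congr rfl fun e _ => sum_congr rfl fun x _ => ind_pos (beq_iff_eq.2 ?_)
  have q1 : ∀ j, prj d (G.2.2.get (e j)) (A' (G.2.2.get (e j)).1) = B' (G.2.2.get (e j)).2.1 :=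
    fun j => Fin.ext (by
      rw [prj_val d h (List.get_mem _ _), e1, e2]
      exact hG _ (List.get_mem _ _))
  simp only [con, code_inj.extend_apply, tb, rT, lT]
  rw [List.getD_eq_getElem _ _ (by simp), List.getElem_ofFn]
  simp only [Fin.eta, Equiv.symm_apply_apply, Function.comp_apply]
  obtain ⟨b, hb⟩ := (hM x.1).uf_drop x.2.2.1 (x.2.1 x.1).1 x.2.2.2.2.1
    (S.view (fun i => prj d (G.2.2.get (e (eL S i)))) x.2.2.1 x.2.2.2.1
      fun i => A' (G.2.2.get (e (eL S i))).1)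
  have h3 : dT M x ≠ 0 := (hM x.1).dir_ne _ (x.2.1 x.1).2
  rw [hb]
  refine congrArg Fin.val ((hc _ h3 _ b).trans (congrArg _ (congrArg _ (funext fun i => ?_))))
  rw [Sys.view]
  split_ifs
  · rw [q1]
  · rfl

end Vale.Agent.P339
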