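import Vale.Agent.P339.Defs2
import Vale.Agent.P325.SoundD

/-! The label cover game with small odd sets and advice. -/

namespace Vale.Agent.P339

open Finset Matrix Vale.Agent.P325 Function Vale.Agent.Lib.PCP
open scoped BigOperators

set_option linter.unusedSectionVars false

variable {Sg Gm : Type} [Fintype Sg] [DecidableEq Sg] [Nonempty Sg] [Fintype Gm] [DecidableEq Gm]
  [Nonempty Gm] {k : ℕ} {O : LCd Sg Gm} {P : ℕ} {S : Sys (Sg ⊕ Gm) k} {N : Type} [Fintype N]
  [DecidableEq N] {t l : ℕ}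

/-- Small odd sets. -/
abbrev Odd' (Sg : Type) [Fintype Sg] (K : ℕ) :=
  {n : Sg → F2 // #{a | n a ≠ 0} ≤ K ∧ ∑ a, n a = 1}

variable (O) in
/-- The game on one released leaf; `Q` indexes the functions that the provers see. -/
def setG (Q : Type) (K : ℕ) : Game ((O.U × O.Dp) × (Q → Sg ⊕ Gm → F2)) (O.U × (Q → Sg → F2))
    (ℕ × (Q → Sg ⊕ Gm → F2)) (Odd' Sg K) (Gm → F2) where
  u x := (x.1.1, fun q a => x.2 q (.inr (O.π x.1 a)))
  v x := (O.v x.1, x.2)
  π x n := push (O.π x.1) n.1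

lemma setG_supp {X Y : Type} [Fintype X] [DecidableEq Y] (f : X → Y) (z : X → F2) {y : Y}
    (h : push f z y ≠ 0) : ∃ x, z x ≠ 0 ∧ f x = y := by
  obtain ⟨x, -, hx⟩ := exists_ne_zero_of_sum_ne_zero h
  by_cases h1 : f x = y
  · exact ⟨x, by rwa [if_pos h1] at hx, h1⟩
  · exact absurd (if_neg h1) hx

lemma setG_half {K : ℕ} {s : ℝ} (hO : O.Snd s) (hs : (K : ℝ) ^ 2 * s ≤ 1 / 2)
    (A : O.U → Odd' Sg K) (B : ℕ → Gm → F2) :
    𝔼 e : O.U × O.Dp, ind (push (O.π e) (A e.1).1 = B (O.v e)) ≤ 1 / 2 := by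
  let L : O.U → Finset Sg := fun u => {a | (A u).1 a ≠ 0}
  let L' : ℕ → Finset Gm := fun v =>
    if #{g | B v g ≠ 0} ≤ K then univ.filter (fun g => B v g ≠ 0) else ∅
  refine le_trans (ex_mono fun e => ind_mono fun h => ?_)
    ((list_val (N := K) (N' := K) (v := s) (fun e : O.U × O.Dp => L e.1) (fun e => L' (O.v e))
      (fun e => (A e.1).2.1) (fun e => ?_) (fun e a g => O.π e a = g)
      fun σ σ' => hO (fun u => σ (L u)) fun v => σ' (L' v)).trans (by rwa [← sq]))
  · have h1 : ∑ g, push (O.π e) (A e.1).1 g = 1 := by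
      simpa [dotProduct, (A e.1).2.2] using push_dot (O.π e) (A e.1).1 (fun _ => 1)
    obtain ⟨g, -, hg⟩ := exists_ne_zero_of_sum_ne_zero (h1.trans_ne one_ne_zero)
    obtain ⟨a, ha, hag⟩ := setG_supp _ _ hg
    have h2 : #{g | B (O.v e) g ≠ 0} ≤ K := by
      refine le_trans (card_le_card (t := (L e.1).image (O.π e)) fun y hy => ?_)
        (card_image_le.trans (A e.1).2.1)
      obtain ⟨x, hx, hxy⟩ := setG_supp (O.π e) (A e.1).1 (y := y) (h ▸ (mem_filter.1 hy).2)
      exact mem_image.2 ⟨x, mem_filter.2 ⟨mem_univ _, hx⟩, hxy⟩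
    refine ⟨a, mem_filter.2 ⟨mem_univ _, ha⟩, g, ?_, hag⟩
    simp only [L', if_pos h2]
    exact mem_filter.2 ⟨mem_univ _, h ▸ hg⟩
  · simp only [L']
    split_ifs with h
    · exact h
    · simp

/-- For fixed advice `b` with `b q (.inr _) = 0` (probability `(2 ^ (card Q * card Gm))⁻¹`) the left
vertex is `(u, 0)`; if `push π n = B v` then some `a` in the support of `n` has `π a` in the
support of `B v` (the sum of `push π n` is one), which has at most `K` points; `list_val` with the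
supports as lists (the empty list if the support of `B v` is too large) and `hO` bound the
probability by `K * K * s ≤ 1 / 2`. See `P325.Par.base_val`. -/
theorem setG_val {Q : Type} [Fintype Q] [DecidableEq Q] {K : ℕ} {s : ℝ} (hO : O.Snd s)
    (hs : (K : ℝ) ^ 2 * s ≤ 1 / 2) :
    (setG O Q K).ValLe (1 - (2 * 2 ^ (Fintype.card Q * Fintype.card Gm) : ℝ)⁻¹) := by
  classical
  intro A B
  rw [← div_le_iff₀ (Nat.cast_pos.2 Fintype.card_pos), ← ex_ind, ex_prod, ex_comm]
  let r : (Q → Sg ⊕ Gm → F2) → Q → Gm → F2 := fun b q g => b q (.inr g)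
  have h1 : ∀ b : Q → Sg ⊕ Gm → F2, 𝔼 e : O.U × O.Dp, ind ((setG O Q K).π (e, b)
      (A ((setG O Q K).u (e, b))) = B ((setG O Q K).v (e, b))) ≤ 1 - 1 / 2 * ind (r b = 0) := by
    intro b
    by_cases h : r b = 0
    · have e1 : ∀ e : O.U × O.Dp, (setG O Q K).u (e, b) = (e.1, 0) := fun e =>
        Prod.ext rfl (funext fun q => funext fun a => congrFun (congrFun h q) _)
      simp only [e1]
      rw [ind_pos h]
      exact (setG_half hO hs (fun u => A (u, 0)) fun v => B (v, b)).trans (by norm_num)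
    · rw [ind_neg h, mul_zero, sub_zero]
      exact ex_le fun _ => ind_le_one _
  refine (ex_mono h1).trans (le_of_eq ?_)
  rw [ex_sub, Fintype.expect_const, ex_mul, ex_hom (φ := r) (fun _ _ => rfl)
    (fun y => ⟨fun q => Sum.elim 0 (y q), rfl⟩) (fun y => ind (y = 0)), ex_ind_eq]
  simp [mul_comm, pow_mul]

end Vale.Agent.P339
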