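import Vale.Agent.P339.Defs2
import Vale.Agent.P325.SoundC

/-! The spectral step with rank one noise and side information. -/

namespace Vale.Agent.P339

open Finset Matrix Vale.Agent.P325 Function
open scoped BigOperators

set_option linter.unusedSectionVars false

lemma spec_level (r : ℕ) {η : ℝ} (hη : 0 < η) : ∃ γ : ℝ, 0 < γ ∧ ∀ (ι κ : Type) [Fintype ι]
    [Fintype κ] [DecidableEq ι] [DecidableEq κ] (f : Matrix ι κ F2 → ℝ), (∀ M, 0 ≤ f M) →
      (∀ M, f M ≤ 2) → (∀ (P : Matrix ι ι F2) (T : Matrix κ κ F2) (M0 : Matrix ι κ F2), P * P = P →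
        T * T = T → P.rank ≤ r → T.rank ≤ r →
        𝔼 M : Matrix ι κ F2, f (M0 + (1 + P) * M * (1 + T)) ≤ γ) →
      ∑ S : Matrix ι κ F2, ind (S.rank < r) * hat f S ^ 2 ≤ η * 𝔼 M, f M := by
  obtain ⟨C, hC, hy⟩ := hyper r
  obtain ⟨C1, hC1, hl⟩ := low_glob r r
  have ha : 0 < η / 2 := by linarith
  have hK : 0 < C * C1 + 1 := by positivity
  refine ⟨(η / 2) ^ 3 / (8 * (C * C1 + 1)), by positivity, fun ι κ _ _ _ _ f f0 f2 hz => ?_⟩
  have h1 : Glob (2 * ((η / 2) ^ 3 / (8 * (C * C1 + 1)))) r f := by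
    refine glob_of_zoom fun P T M0 hP hT rP rT => ?_
    have h2 := hz P T M0 hP hT rP rT
    refine le_trans (ex_mono fun M => ?_) ((ex_mul 2 _).le.trans (by linarith))
    nlinarith [f0 (M0 + (1 + P) * M * (1 + T)), f2 (M0 + (1 + P) * M * (1 + T))]
  have h2 := hy ι κ _ _ (fun S hS => by rw [hat_mult, ind_neg (not_lt.2 hS), zero_mul])
    (hl ι κ _ _ h1)
  have h3 : 𝔼 M, mult (fun S => ind (S.rank < r)) f M ^ 2
      = ∑ S : Matrix ι κ F2, ind (S.rank < r) * hat f S ^ 2 := by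
    rw [parseval]
    refine sum_congr rfl fun S _ => ?_
    rw [hat_mult]
    by_cases h : S.rank < r <;> simp [ind, h]
  have h4 : 𝔼 M, mult (fun S => ind (S.rank < r)) f M * f M
      = ∑ S : Matrix ι κ F2, ind (S.rank < r) * hat f S ^ 2 := by
    rw [plancherel]
    exact sum_congr rfl fun S _ => by rw [hat_mult]; ring
  have h5 := ex_mono fun M => young (h := mult (fun S => ind (S.rank < r)) f M) ha (f0 M) (f2 M)
  rw [ex_add, ex_mul, ex_mul, h4] at h5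
  rw [h3] at h2
  have h6 : 0 ≤ ∑ S : Matrix ι κ F2, ind (S.rank < r) * hat f S ^ 2 :=
    sum_nonneg fun _ _ => mul_nonneg (ind_nonneg _) (sq_nonneg _)
  generalize (∑ S : Matrix ι κ F2, ind (S.rank < r) * hat f S ^ 2) = x at h2 h5 h6 ⊢
  have h7 := mul_le_mul_of_nonneg_left h2 (show 0 ≤ 2 / (η / 2) ^ 3 by positivity)
  have h8 : 2 / (η / 2) ^ 3 * (C * (C1 * (2 * ((η / 2) ^ 3 / (8 * (C * C1 + 1))))) * x)
      = C * C1 / (C * C1 + 1) * (x / 2) := by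
    field_simp
    ring
  have h9 : C * C1 / (C * C1 + 1) * (x / 2) ≤ x / 2 :=
    mul_le_of_le_one_left (by linarith) ((div_le_one hK).2 (by linarith))
  linarith

lemma spec_nz {l : ℕ} [Nonempty (NZ l)] (h : (Fin l → F2) → ℝ) (h0 : ∀ x, h x ≤ h 0) :
    𝔼 c : NZ l, h c.1 ≤ 𝔼 x, h x := by
  have hm : 𝔼 c : NZ l, h c.1 ≤ h 0 := ex_le fun c => h0 c.1
  have hN : (0 : ℝ) < Fintype.card (NZ l) := Nat.cast_pos.2 Fintype.card_pos
  have e : ∀ g : (Fin l → F2) → ℝ, ∑ x, g x = g 0 + ∑ c : NZ l, g c.1 :=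
    fun g => Fintype.sum_eq_add_sum_subtype_ne g 0
  have e1 := e fun _ => 1
  simp only [sum_const, card_univ, nsmul_eq_mul, mul_one] at e1
  have e2 : ∑ c : NZ l, h c.1 = (𝔼 c : NZ l, h c.1) * Fintype.card (NZ l) := by
    rw [ex_eq, div_mul_cancel₀ _ hN.ne']
  rw [ex_eq h, e h, e1, e2, le_div_iff₀ (by positivity)]
  linarith

lemma spec_ker {ι : Type} [Fintype ι] [DecidableEq ι] {l r : ℕ} [Nonempty (NZ l)]
    {S : Matrix ι (Fin l) F2} (h : r ≤ S.rank) :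
    𝔼 c : NZ l, ind (S *ᵥ c.1 = 0) ≤ (1 / 2) ^ r := by
  classical
  refine (spec_nz (fun x => ind (S *ᵥ x = 0)) fun x => ind_mono fun _ => mulVec_zero S).trans ?_
  have e : ∀ y ∈ univ.filter fun y => ∃ x, S *ᵥ x = y,
      𝔼 x, ind (S *ᵥ x = y) = 𝔼 x, ind (S *ᵥ x = 0) := fun y hy => by
    obtain ⟨x, rfl⟩ := (mem_filter.1 hy).2
    rw [← ex_shift x]
    simp only [mulVec_add, add_eq_right]
  have e2 : ∑ y ∈ univ.filter fun y => ∃ x, S *ᵥ x = y, 𝔼 x, ind (S *ᵥ x = y) = 1 := by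
    rw [← ex_sum, ← Fintype.expect_const (ι := Fin l → F2) (1 : ℝ)]
    exact congrArg _ (funext fun x => by simp [ind_eq_ite])
  rw [sum_congr rfl e, sum_const, P325.card_range, nsmul_eq_mul] at e2
  rw [one_div, inv_pow, ← one_div, le_div_iff₀' (by positivity), ← e2]
  exact mul_le_mul_of_nonneg_right (by exact_mod_cast Nat.pow_le_pow_right two_pos h)
    (ex_nonneg fun _ => ind_nonneg _)

lemma spec_hat {ι : Type} [Fintype ι] [DecidableEq ι] {l : ℕ} (f : Matrix ι (Fin l) F2 → ℝ)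
    (S : Matrix ι (Fin l) F2) :
    hat (fun M => 𝔼 c : NZ l, 𝔼 n : ι → F2, f (M + vecMulVec n c.1)) S =
      (𝔼 c : NZ l, ind (S *ᵥ c.1 = 0)) * hat f S := by
  simp only [← ex_chi', ← chi_vecMulVec, ← ex_mul', mul_comm (chi _ _), ← hat_shift]
  simp only [hat, ← ex_mul']
  rw [ex_comm]
  exact congrArg _ (funext fun ω => ex_comm _)

lemma spec_one {ι : Type} [Fintype ι] [DecidableEq ι] {l r : ℕ} [Nonempty (NZ l)] {a : ℝ}
    (ha : 0 < a) (g f : Matrix ι (Fin l) F2 → ℝ) (g0 : ∀ M, 0 ≤ g M) (g2 : ∀ M, g M ≤ 2)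
    (hlo : ∑ S : Matrix ι (Fin l) F2, ind (S.rank < r) * hat g S ^ 2 ≤ a ^ 2 * 𝔼 M, g M) :
    𝔼 M, g M * 𝔼 c : NZ l, 𝔼 n : ι → F2, f (M + vecMulVec n c.1) ≤
      (a / 2 + (1 / 2) ^ r) * 𝔼 M, g M + (a / 2 + (1 / 2) ^ r / 2) * 𝔼 M, f M ^ 2 := by
  have hJ := fun S : Matrix ι (Fin l) F2 => spec_ker (r := r) (S := S)
  have hl : (0 : ℝ) ≤ (1 / 2) ^ r := by positivity
  generalize (1 / 2 : ℝ) ^ r = lam at hJ hl ⊢
  have hgg : ∑ S, hat g S ^ 2 ≤ 2 * 𝔼 M, g M := by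
    rw [← parseval, ← ex_mul]
    exact ex_mono fun M => by nlinarith [g0 M, g2 M]
  have e : ∀ S : Matrix ι (Fin l) F2, hat g S * ((𝔼 c : NZ l, ind (S *ᵥ c.1 = 0)) * hat f S) ≤
      (2 * a)⁻¹ * (ind (S.rank < r) * hat g S ^ 2) + (a / 2 + lam / 2) * hat f S ^ 2 +
        lam / 2 * hat g S ^ 2 := fun S => by
    have l0 : 0 ≤ 𝔼 c : NZ l, ind (S *ᵥ c.1 = 0) := ex_nonneg fun _ => ind_nonneg _
    have l1 : 𝔼 c : NZ l, ind (S *ᵥ c.1 = 0) ≤ 1 := ex_le fun _ => ind_le_one _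
    have l2 := hJ S
    generalize 𝔼 c : NZ l, ind (S *ᵥ c.1 = 0) = p at *
    generalize hat g S = x
    generalize hat f S = y
    by_cases h : S.rank < r
    · have e1 : x * y ≤ (2 * a)⁻¹ * x ^ 2 + a / 2 * y ^ 2 := by
        have : (2 * a)⁻¹ * x ^ 2 + a / 2 * y ^ 2 - x * y = (2 * a)⁻¹ * (x - a * y) ^ 2 := by
          field_simp; ring
        nlinarith [mul_nonneg (inv_pos.2 (by positivity : 0 < 2 * a)).le (sq_nonneg (x - a * y))]
      have e2 : 0 ≤ (2 * a)⁻¹ * x ^ 2 + a / 2 * y ^ 2 := by positivity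
      rw [ind_pos h]
      nlinarith [mul_nonneg hl (sq_nonneg x), mul_nonneg hl (sq_nonneg y)]
    · have l3 := l2 (not_lt.1 h)
      rw [ind_neg h]
      nlinarith [mul_nonneg l0 (sq_nonneg (x - y)), mul_nonneg ha.le (sq_nonneg y),
        mul_nonneg (sub_nonneg.2 l3) (add_nonneg (sq_nonneg x) (sq_nonneg y))]
  rw [plancherel, parseval]
  simp only [spec_hat]
  refine (sum_le_sum fun S _ => e S).trans ?_
  simp only [sum_add_distrib, ← mul_sum]
  have e4 := mul_le_mul_of_nonneg_left hlo (inv_pos.2 (by positivity : 0 < 2 * a)).le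
  have e5 : (2 * a)⁻¹ * (a ^ 2 * 𝔼 M, g M) = a / 2 * 𝔼 M, g M := by field_simp
  nlinarith [mul_le_mul_of_nonneg_left hgg hl]

/-- Copy the proof of `P325.spectral` (file P325/SoundA) with an extra average over `d : D`:
apply `level_ineq` with `μ := Empty` to `fun M => g α (d, M.toCols₁)` for each `d` (first derive
a version of `level_ineq` for matrices `ι × κ`), and use that the noise operator multiplies
`hat f S` by `𝔼 a : NZ l, ind (S *ᵥ a = 0) ≤ (1 / 2) ^ r` when `r ≤ S.rank` (`chi_vecMulVec`,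
`card_range` or `triv_le` in P325/SoundC: the kernel has `2 ^ (l - rank)` points, one is zero). -/
theorem spec (r : ℕ) {a : ℝ} (ha : 0 < a) : ∃ γ : ℝ, 0 < γ ∧ ∀ (l : ℕ), 0 < l →
    ∀ (ι D Ξ Λ : Type) [Fintype ι] [DecidableEq ι] [Fintype D] [Nonempty D] [Fintype Ξ]
      [Nonempty Ξ] [Fintype Λ] (mm : Ξ → D × Matrix ι (Fin l) F2) (lb : Ξ → Λ)
      (F : D × Matrix ι (Fin l) F2 → Λ),
      𝔼 ξ, 𝔼 c : NZ l, 𝔼 n : ι → F2, ind (F ((mm ξ).1, (mm ξ).2 + vecMulVec n c.1) = lb ξ) ≤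
        ∑ T : Matrix (Fin l) (Fin l) F2,
          𝔼 ξ, ind (T * T = T ∧ T.rank ≤ r ∧ Good' r γ (dens mm lb) T (mm ξ)) +
        2 * 𝔼 x, (rho mm x - 1) ^ 2 + a + 2 * (1 / 2) ^ r := by
  obtain ⟨γ, hγ, hlev⟩ := spec_level r (η := a ^ 2) (by positivity)
  refine ⟨γ, hγ, fun l hl0 ι D Ξ Λ _ _ _ _ _ _ _ mm lb F => ?_⟩
  have : Nonempty (NZ l) := ⟨⟨1, fun h => one_ne_zero (congrFun h ⟨0, hl0⟩)⟩⟩
  set w := dens mm lb
  let Bad : D × Matrix ι (Fin l) F2 → Prop := fun M =>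
    ∃ T : Matrix (Fin l) (Fin l) F2, T * T = T ∧ T.rank ≤ r ∧ Good' r γ w T M
  let g : Λ → D × Matrix ι (Fin l) F2 → ℝ := fun α M => w α M * ind (¬ Bad M ∧ rho mm M ≤ 2)
  let Tf : Λ → D × Matrix ι (Fin l) F2 → ℝ := fun α M =>
    𝔼 c : NZ l, 𝔼 n : ι → F2, ind (F (M.1, M.2 + vecMulVec n c.1) = α)
  have hw : ∀ α M, 0 ≤ w α M := dens_nonneg mm lb
  have hg0 : ∀ α M, 0 ≤ g α M := fun α M => mul_nonneg (hw α M) (ind_nonneg _)
  have hgw : ∀ α M, g α M ≤ w α M := fun α M => mul_le_of_le_one_right (hw α M) (ind_le_one _)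
  have hg2 : ∀ α M, g α M ≤ 2 := fun α M => by
    by_cases h : ¬ Bad M ∧ rho mm M ≤ 2
    · refine (hgw α M).trans (le_trans ?_ h.2)
      rw [← sum_dens mm lb]
      exact single_le_sum (f := fun α => w α M) (fun α _ => hw α M) (mem_univ α)
    · simp only [g, ind_neg h, mul_zero]; norm_num
  have hsum : ∑ α, 𝔼 M, g α M ≤ 1 := by
    rw [← ex_sum, ← ex_rho mm]
    exact ex_mono fun M => (sum_le_sum fun α _ => hgw α M).trans (sum_dens mm lb M).le
  have hlo : ∀ α d, ∑ S : Matrix ι (Fin l) F2, ind (S.rank < r) * hat (fun M => g α (d, M)) S ^ 2 ≤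
      a ^ 2 * 𝔼 M, g α (d, M) := fun α d => by
    refine hlev ι (Fin l) _ (fun M => hg0 α _) (fun M => hg2 α _) fun P T M0 hP hT rP rT => ?_
    by_cases h : ∃ X : Matrix ι (Fin l) F2, ¬ Bad (d, M0 + (1 + P) * X * (1 + T))
    · obtain ⟨X, hX⟩ := h
      refine (ex_mono fun M => hgw α _).trans (not_lt.1 fun hlt => hX ⟨T, hT, rT, P, α,
        (1 + P) * X, hP, rP, ?_⟩)
      simpa only [add_assoc M0 _ ((1 + P) * X * (1 + T)), mat_add_self, add_zero] using hlt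
    · refine ex_le fun X => le_trans (le_of_eq ?_) hγ.le
      exact mul_eq_zero_of_right _ (ind_neg fun h' => h ⟨X, h'.1⟩)
  have hf : ∑ α, 𝔼 M, ind (F M = α) ^ 2 = 1 := by
    have : ∀ M, ∑ α, ind (F M = α) ^ 2 = 1 := fun M => by
      simpa only [sq, ind_pos trivial] using sum_ind_mul (F M) fun α => ind (F M = α)
    simp only [← ex_sum, this, Fintype.expect_const]
  have key : ∑ α, 𝔼 M, g α M * Tf α M ≤ a + 2 * (1 / 2) ^ r := by
    have e : ∀ α, 𝔼 M, g α M * Tf α M ≤ (a / 2 + (1 / 2) ^ r) * 𝔼 M, g α M +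
        (a / 2 + (1 / 2) ^ r / 2) * 𝔼 M, ind (F M = α) ^ 2 := fun α => by
      simp only [ex_prod]
      rw [← ex_mul, ← ex_mul, ← ex_add]
      exact ex_mono fun d => spec_one ha (fun M => g α (d, M)) (fun M => ind (F (d, M) = α))
        (fun M => hg0 α _) (fun M => hg2 α _) (hlo α d)
    refine (sum_le_sum fun α _ => e α).trans ?_
    have hl : (0 : ℝ) ≤ (1 / 2) ^ r := by positivity
    rw [sum_add_distrib, ← mul_sum, ← mul_sum, hf]
    nlinarith [mul_le_mul_of_nonneg_left hsum (show 0 ≤ a / 2 + (1 / 2) ^ r by positivity)]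
  have e1 : ∀ M, ∑ α, w α M * Tf α M ≤ ∑ α, g α M * Tf α M + rho mm M * ind (Bad M) +
      2 * (rho mm M - 1) ^ 2 := fun M => by
    have t0 : ∀ α, 0 ≤ Tf α M := fun α => ex_nonneg fun _ => ex_nonneg fun _ => ind_nonneg _
    have t1 : ∑ α, w α M * Tf α M ≤ rho mm M := by
      rw [← sum_dens mm lb]
      exact sum_le_sum fun α _ => mul_le_of_le_one_right (hw α M)
        (ex_le fun _ => ex_le fun _ => ind_le_one _)
    have t2 : 0 ≤ ∑ α, g α M * Tf α M := sum_nonneg fun α _ => mul_nonneg (hg0 α M) (t0 α)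
    have t3 : 0 ≤ rho mm M := (sum_nonneg fun α _ => hw α M).trans (sum_dens mm lb M).le
    by_cases h : Bad M
    · rw [ind_pos h]; nlinarith [sq_nonneg (rho mm M - 1)]
    · by_cases h' : rho mm M ≤ 2
      · simp only [g, ind_pos (And.intro h h'), ind_neg h, mul_one, mul_zero, add_zero]
        exact le_add_of_nonneg_right (by positivity)
      · rw [ind_neg h]; nlinarith
  refine (dens_ex mm lb fun M α => Tf α M).trans_le ((ex_mono e1).trans ?_)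
  rw [ex_add, ex_add, ex_sum, ex_mul, ← rho_ex mm fun M => ind (Bad M)]
  have := ex_mono fun ξ => ind_exists_le fun T : Matrix (Fin l) (Fin l) F2 =>
    T * T = T ∧ T.rank ≤ r ∧ Good' r γ w T (mm ξ)
  rw [ex_sum] at this
  linarith

end Vale.Agent.P339
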